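import Vale.Agent.P022G.Theta
import Vale.Agent.P022.H346.FAlg

/-!
# P022S: a trace function is the trace of a representation as soon as the discriminant of a pair
is invertible and the pair is realised by matrices
-/

set_option linter.all false

noncomputable section

namespace Vale.Agent.P022S.Rep

open Vale.Agent.P022.H346 _root_.P022G.Th Matrix

variable {H B : Type*} [Group H] [CommRing B] {t : H → B} {d : H →* Bˣ}

/-- the discriminant of a pair -/
def δ (t : H → B) (d : H →* Bˣ) (g h : H) : B := dl (t g) (t h) (t (g * h)) (d g) (d h)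

/-- a functional which does not see the commutator is killed by the discriminant -/
theorem kill (F : H → B) (g h : H)
    (hs : ∀ u x v, F (u * x * x * v) = t x * F (u * x * v) - d x * F (u * v))
    (hw : ∀ u x y v, F (u * y * x * v) = -F (u * x * y * v) + t x * F (u * y * v) +
      t y * F (u * x * v) + (t (x * y) - t x * t y) * F (u * v))
    (hc : ∀ w, F (g * h * w) = F (h * g * w)) (w : H) : δ t d g h * F w = 0 := by
  have c0 := hc w
  have c1 := hc (g * w)
  have c2 := hc (h * w)
  have c3 := hc (g * h * w)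
  have s0 := hw 1 g h w
  have s1 := hw g g h w
  have s2 := hw 1 g h (h * w)
  have a1 := hs 1 g w
  have a2 := hs 1 h w
  have a3 := hs 1 g (h * w)
  have a4 := hs h g w
  have a5 := hs g h w
  have a6 := hs 1 (g * h) w
  have a7 := hs h g (h * w)
  simp only [one_mul, mul_assoc] at *
  rw [δ, dl]
  have r0 : 2 * F (g * (h * w)) - t g * F (h * w) - t h * F (g * w) -
      (t (g * h) - t g * t h) * F w = 0 := by linear_combination c0 + s0
  have r1 : t g * F (g * (h * w)) - 2 * d g * F (h * w) - t (g * h) * F (g * w) +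
      t h * d g * F w = 0 := by
    linear_combination -c1 + s1 - a3 - a4 + t h * a1 + t g * c0
  have e2 : F (h * (g * (h * w))) = d h * F (g * w) - t g * d h * F w + t (g * h) * F (h * w) := by
    linear_combination s2 - a5 + t g * a2
  have r2 : t h * F (g * (h * w)) - 2 * d h * F (g * w) - t (g * h) * F (h * w) +
      t g * d h * F w = 0 := by linear_combination c2 - a5 + e2
  have r3 : t (g * h) * F (g * (h * w)) - 2 * d g * d h * F w - t g * d h * F (g * w) +
      t g ^ 2 * d h * F w - t g * t (g * h) * F (h * w) + d g * t h * F (h * w) = 0 := by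
    rw [map_mul, Units.val_mul] at a6
    linear_combination c3 - a6 + a7 + t g * e2 - d g * a2
  linear_combination -2 * r3 + t g * r2 - t h * r1 + t (g * h) * r0

/-- **rank four** -/
theorem rk4 (T : TF t d) (g h u w : H) :
    δ t d g h * (δ t d g h * t (u * w) -
      (h0 (t g) (t h) (t (g * h)) (d g) (d h) (t u) (t (u * g)) (t (u * h)) (t (u * (g * h))) * t w +
      h1 (t g) (t h) (t (g * h)) (d h) (t u) (t (u * g)) (t (u * h)) (t (u * (g * h))) * t (g * w) +
      h2 (t g) (t h) (t (g * h)) (d g) (t u) (t (u * g)) (t (u * h)) (t (u * (g * h))) * t (h * w) +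
      h3 (t g) (t h) (t (g * h)) (t u) (t (u * g)) (t (u * h)) (t (u * (g * h))) *
        t (g * h * w))) = 0 := by
  set k0 := h0 (t g) (t h) (t (g * h)) (d g) (d h) (t u) (t (u * g)) (t (u * h)) (t (u * (g * h)))
    with e0
  set k1 := h1 (t g) (t h) (t (g * h)) (d h) (t u) (t (u * g)) (t (u * h)) (t (u * (g * h))) with e1
  set k2 := h2 (t g) (t h) (t (g * h)) (d g) (t u) (t (u * g)) (t (u * h)) (t (u * (g * h))) with e2
  set k3 := h3 (t g) (t h) (t (g * h)) (t u) (t (u * g)) (t (u * h)) (t (u * (g * h))) with e3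
  let F : H → B := fun w => δ t d g h * t (u * w) -
    (k0 * t w + k1 * t (g * w) + k2 * t (h * w) + k3 * t (g * h * w))
  have hs : ∀ a x v, F (a * x * x * v) = t x * F (a * x * v) - d x * F (a * v) := fun a x v => by
    have b0 := T.sq (u * a) x v
    have b1 := T.sq a x v
    have b2 := T.sq (g * a) x v
    have b3 := T.sq (h * a) x v
    have b4 := T.sq (g * h * a) x v
    simp only [F, mul_assoc] at *
    linear_combination δ t d g h * b0 - k0 * b1 - k1 * b2 - k2 * b3 - k3 * b4
  have hw : ∀ a x y v, F (a * y * x * v) = -F (a * x * y * v) + t x * F (a * y * v) +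
      t y * F (a * x * v) + (t (x * y) - t x * t y) * F (a * v) := fun a x y v => by
    have b0 := T.swap (u * a) x y v
    have b1 := T.swap a x y v
    have b2 := T.swap (g * a) x y v
    have b3 := T.swap (h * a) x y v
    have b4 := T.swap (g * h * a) x y v
    simp only [F, mul_assoc] at *
    linear_combination δ t d g h * b0 - k0 * b1 - k1 * b2 - k2 * b3 - k3 * b4
  have sw : ∀ a x w, t (a * (w * x)) = -t (a * (x * w)) + t a * t (x * w) + t x * t (a * w) +
      (t (a * x) - t a * t x) * t w := fun a x w => by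
    have := T.swap 1 a x w
    simp only [one_mul, mul_assoc] at this
    rw [← this, ← mul_assoc, T.comm]
  have key : ∀ x, F 1 = 0 → F x = 0 → ∀ w, F (w * x) = -F (x * w) + t x * F w := fun x z1 zx w => by
    have b0 := sw u x w
    have b1 := T.comm w x
    have b2 := sw g x w
    have b3 := sw h x w
    have b4 := sw (g * h) x w
    simp only [F, mul_assoc, mul_one, T.one] at *
    linear_combination δ t d g h * b0 - k0 * b1 - k1 * b2 - k2 * b3 - k3 * b4 +
      (t (x * w) - t x * t w) * z1 + t w * zx
  have q1 := T.sq 1 g 1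
  have q2 := T.sq 1 h 1
  have q3 := T.sq 1 g h
  have q4 := T.sq g h 1
  have q5 := T.sq 1 (g * h) 1
  have q6 := T.comm h g
  have q7 := T.comm (g * h) g
  have q8 := T.comm h (g * h)
  simp only [one_mul, mul_one, mul_assoc, T.one, map_mul, Units.val_mul] at q1 q2 q3 q4 q5 q6 q7 q8
  have z1 : F 1 = 0 := by
    simp only [F, mul_one, T.one, e0, e1, e2, e3, h0, h1, h2, h3, δ, dl]
    ring
  have zg : F g = 0 := by
    simp only [F, mul_assoc, q7, q6, q1, q3, e0, e1, e2, e3, h0, h1, h2, h3, δ, dl]
    ring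
  have zh : F h = 0 := by
    simp only [F, mul_assoc, q2, q4, e0, e1, e2, e3, h0, h1, h2, h3, δ, dl]
    ring
  have zk : F (g * h) = 0 := by
    simp only [F, mul_assoc, q8, q3, q4, q5, e0, e1, e2, e3, h0, h1, h2, h3, δ, dl]
    ring
  refine kill F g h hs hw (fun w => ?_) w
  have m1 := key _ z1 zk w
  have m2 := key _ z1 zh (w * g)
  have m3 := key _ z1 zg w
  have m4 := key _ z1 zg (h * w)
  have m5 := hw 1 g h w
  simp only [one_mul, mul_assoc] at *
  linear_combination m1 - m2 - t h * m3 + m4 - m5

/-- **the representation** -/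
theorem rep (T : TF t d) (g h : H) (X Y : M2 B) (x1 : X.trace = t g) (x2 : X.det = d g)
    (y1 : Y.trace = t h) (y2 : Y.det = d h) (xy : (X * Y).trace = t (g * h))
    (hu : IsUnit (δ t d g h)) :
    ∃ σ : H →* M2 B, (∀ w, (σ w).trace = t w) ∧ (∀ w, (σ w).det = d w) ∧ σ g = X ∧ σ h = Y ∧
      ∀ w, del X Y • σ w = th X Y (t w) (t (w * g)) (t (w * h)) (t (w * (g * h))) := by
  have e : del X Y = δ t d g h := by rw [del_eq, x1, x2, y1, y2, xy, δ]
  rw [← e] at hu
  obtain ⟨i, hi⟩ := hu.exists_left_inv
  let s : H → M2 B := fun w => i • th X Y (t w) (t (w * g)) (t (w * h)) (t (w * (g * h)))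
  have s0 : ∀ w, (s w).trace = t w := fun w => by
    rw [trace_smul, th_tr0, smul_eq_mul, ← mul_assoc, hi, one_mul]
  have s1 : ∀ w, (s w * X).trace = t (w * g) := fun w => by
    rw [Matrix.smul_mul, trace_smul, th_tr1, smul_eq_mul, ← mul_assoc, hi, one_mul]
  have s2 : ∀ w, (s w * Y).trace = t (w * h) := fun w => by
    rw [Matrix.smul_mul, trace_smul, th_tr2, smul_eq_mul, ← mul_assoc, hi, one_mul]
  have s3 : ∀ w, (s w * (X * Y)).trace = t (w * (g * h)) := fun w => by
    rw [Matrix.smul_mul, trace_smul, th_tr3, smul_eq_mul, ← mul_assoc, hi, one_mul]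
  have ex : ∀ (w) (Z : M2 B), Z.trace = t w → (Z * X).trace = t (w * g) →
      (Z * Y).trace = t (w * h) → (Z * (X * Y)).trace = t (w * (g * h)) → s w = Z :=
    fun w Z a b c e => by
      show i • _ = Z
      rw [← a, ← b, ← c, ← e, ← theta, smul_smul, hi, one_smul]
  have ch : ∀ Z W : M2 B, (W * (Z * Z)).trace = Z.trace * (W * Z).trace - Z.det * W.trace :=
    fun Z W => by
      simp only [det_fin_two, trace_fin_two, mul_apply, Fin.sum_univ_two]; ring
  have sw : ∀ W : M2 B, (W * (Y * X)).trace = -(W * (X * Y)).trace + X.trace * (W * Y).trace +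
      Y.trace * (W * X).trace + ((X * Y).trace - X.trace * Y.trace) * W.trace := fun W => by
    simp only [trace_fin_two, mul_apply, Fin.sum_univ_two]; ring
  have c3 : ∀ W : M2 B, (W * (X * (X * Y))).trace =
      X.trace * (W * (X * Y)).trace - X.det * (W * Y).trace := fun W => by
    simp only [det_fin_two, trace_fin_two, mul_apply, Fin.sum_univ_two]; ring
  have c4 : ∀ W : M2 B, (W * (Y * (X * Y))).trace = Y.det * (W * X).trace -
      X.trace * Y.det * W.trace + (X * Y).trace * (W * Y).trace := fun W => by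
    simp only [det_fin_two, trace_fin_two, mul_apply, Fin.sum_univ_two]; ring
  have sg : ∀ w, s (w * g) = s w * X := fun w => by
    have a := T.sq w g 1
    have b := T.sq w g h
    simp only [mul_one, mul_assoc] at a b
    refine ex _ _ (s1 w) ?_ ?_ ?_ <;> simp only [mul_assoc]
    · rw [ch, s1, s0, x1, x2, a]
    · exact s3 w
    · rw [c3, s3, s2, x1, x2, b]
  have sh : ∀ w, s (w * h) = s w * Y := fun w => by
    have a := T.sq w h 1
    have b := T.swap w g h 1
    have c := T.swap w g h h
    have c' := T.sq (w * g) h 1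
    simp only [mul_one, mul_assoc] at a b c c'
    refine ex _ _ (s2 w) ?_ ?_ ?_ <;> simp only [mul_assoc]
    · rw [sw, s3, s2, s1, s0, x1, y1, xy, b]
    · rw [ch, s2, s0, y1, y2, a]
    · rw [c4, s2, s1, s0, x1, y2, xy, c, c', a]
      ring
  have tm : ∀ u w, (s u * s w).trace = t (u * w) := fun u w => by
    have a := rk4 T g h u w
    have b := tr_mul X Y (s u) (s w)
    rw [s0, s0, s1, s1, s2, s2, s3, s3, x1, x2, y1, y2, xy] at b
    rw [← e, T.comm g w, T.comm h w, T.comm (g * h) w, ← b, ← mul_sub] at a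
    exact (sub_eq_zero.1 (hu.mul_right_eq_zero.1 (hu.mul_right_eq_zero.1 a))).symm
  have one : s 1 = 1 := ex _ _ (by rw [T.one, trace_one, Fintype.card_fin, Nat.cast_ofNat])
    (by rw [one_mul, one_mul, x1]) (by rw [one_mul, one_mul, y1]) (by rw [one_mul, one_mul, xy])
  have mul : ∀ u w, s (u * w) = s u * s w := fun u w => ex _ _ (tm u w)
    (by rw [mul_assoc, ← sg, tm, mul_assoc]) (by rw [mul_assoc, ← sh, tm, mul_assoc])
    (by rw [mul_assoc, ← mul_assoc (s w), ← sg, ← sh, tm, mul_assoc, mul_assoc])
  refine ⟨⟨⟨s, one⟩, mul⟩, s0, fun w => ?_, ?_, ?_, fun w => ?_⟩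
  · show (s w).det = d w
    have a : s (w * w) = t w • s w - (d w : B) • (1 : M2 B) := by
      have b0 := T.sq 1 w 1
      have b1 := T.sq 1 w g
      have b2 := T.sq 1 w h
      have b3 := T.sq 1 w (g * h)
      simp only [one_mul, mul_one] at b0 b1 b2 b3
      refine ex _ _ ?_ ?_ ?_ ?_ <;>
        simp only [sub_mul, Matrix.smul_mul, one_mul, trace_sub, trace_smul, smul_eq_mul]
      · rw [s0, b0, T.one, trace_one, Fintype.card_fin, Nat.cast_ofNat]
      · rw [s1, b1, x1]
      · rw [s2, b2, y1]
      · rw [s3, b3, xy]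
    rw [mul, ← s0 w] at a
    have := congrFun (congrFun a 0) 0
    simp only [det_fin_two, trace_fin_two, mul_apply, Fin.sum_univ_two, Matrix.sub_apply,
      Matrix.smul_apply, smul_eq_mul, one_apply_eq] at this ⊢
    linear_combination -this
  · show s g = X
    rw [← one_mul g, sg, one, one_mul]
  · show s h = Y
    rw [← one_mul h, sh, one, one_mul]
  · show del X Y • s w = _
    simp only [s]
    rw [smul_smul, mul_comm, hi, one_smul]

end Vale.Agent.P022S.Rep
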