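import Vale.Agent.P022G.Lb.Uni
import Vale.Agent.P022G.Lb.Ad
import Vale.Agent.P022G.Lb.Triv
import Vale.Agent.P022S.Sel.Defs

/-!
# P022S: the lower bound at a curve without regular elements
-/

set_option linter.all false

noncomputable section

namespace P022S.Lb

open NumberField
open Vale.Agent.P022
open Vale.Agent.P022D.Sel (M2 IsDec Ginf)
open Vale.Agent.P022D.W (dec)
open Vale.Agent.P022E.GW
open P022G.Sel P022G.Sel.Bas P022G.Lb P022S.Sel

/-- the trivial module -/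
def TRV : Prop := ∀ (T : Finset ℕ) (D : ℕ → Set GQ), Pl T D →
  OB (1 : Ac (ZMod 2)) T D ∧ SH (1 : Ac (ZMod 2)) T D ∧ CN (1 : Ac (ZMod 2)) T D

/-- **the lower bound** -/
def LBS : Prop := ∀ (A : Type) [CommRing A] [IsDomain A] [IsDiscreteValuationRing A] [CharP A 2]
  (t : A) (ρ : GQ →* GL (Fin 2) A) (T : Finset ℕ) (D : ℕ → Set GQ), Irreducible t →
  Finite (A ⧸ tI t 1) → Nice0 t ρ T D → LBc t ρ T D

section

variable {R : Type} [CommRing R]

theorem two_m (h2 : (2 : R) = 0) (X : M2 R) : X + X = 0 := by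
  rw [← two_smul R X, h2, zero_smul]

theorem pw (h2 : (2 : R) = 0) (M : M2 R) (hd : M.det = 1) (k : ℕ) :
    M ^ 2 ^ (k + 1) = 1 + M.trace ^ 2 ^ k • M ^ 2 ^ k := by
  induction k with
  | zero =>
    rw [Matrix.det_fin_two] at hd
    ext i j
    fin_cases i <;> fin_cases j <;>
      simp [pow_two, Matrix.mul_apply, Fin.sum_univ_two, Matrix.trace_fin_two]
    · linear_combination -hd - h2
    · ring
    · ring
    · linear_combination -hd - h2
  | succ k ih =>
    rw [pow_succ 2 (k + 1), pow_mul, ih, pow_two, add_mul, one_mul, mul_add, mul_one, add_assoc,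
      ← add_assoc (_ • _), two_m h2, zero_add, smul_mul_smul_comm, ← pow_add, ← pow_add,
      ← two_mul, ← pow_succ', ← ih]

/-- the adjoint action -/
def adj (ρ : GQ →* GL (Fin 2) R) : Ac (M2 R) where
  toFun g := AddMonoidHom.mk' (fun x => mr ρ g * x * mr ρ g⁻¹) fun x y => by rw [mul_add, add_mul]
  map_one' := AddMonoidHom.ext fun x => by
    show mr ρ 1 * x * mr ρ 1⁻¹ = x
    rw [inv_one, m1, one_mul, mul_one]
  map_mul' g h := AddMonoidHom.ext fun x => by
    show mr ρ (g * h) * x * mr ρ (g * h)⁻¹ = mr ρ g * (mr ρ h * x * mr ρ h⁻¹) * mr ρ g⁻¹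
    rw [mul_inv_rev, mm, mm]
    noncomm_ring

theorem adj1 {ρ : GQ →* GL (Fin 2) R} {g : GQ} (h : ρ g = 1) : adj ρ g = 1 :=
  AddMonoidHom.ext fun x => by
    show mr ρ g * x * mr ρ g⁻¹ = x
    rw [(mker h).1, (mker h).2, one_mul, mul_one]

end

theorem lbS_of (hT : TRV) : LBS := by
  classical
  intro A _ _ _ _ t ρ T D ht hf hN
  have ex : ∀ l : ℕ, l.Prime → ∃ E : Set GQ, IsDec l E := fun l hl =>
    (Vale.Agent.P022G.Obs.S2.ex_ov hl).elim fun P h => ⟨_, P022G.Lb90.Inv.is_dec h⟩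
  obtain ⟨E3, e3⟩ := ex 3 Nat.prime_three
  obtain ⟨E7, e7⟩ := ex 7 (by norm_num)
  obtain ⟨C, hC⟩ := ad ht hf ρ hN.irr
  refine ⟨T ∪ {3, 7}, fun l => if l ∈ T then D l else if l = 3 then E3 else E7,
    Finset.subset_union_left, fun l hl => if_pos hl, fun l hl => ?_,
    fun T₁ D₁ h1 _ h3 => ⟨C, fun N => ?_⟩⟩
  · beta_reduce
    by_cases k : l ∈ T
    · rw [if_pos k]; exact (hN.lv 0).dec l k
    · rw [if_neg k]
      by_cases k3 : l = 3
      · rw [if_pos k3, k3]; exact e3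
      · have : l = 7 := by simpa [k, k3] using hl
        rw [if_neg k3, this]; exact e7
  have L := (hN.mono (Finset.subset_union_left.trans h1) h3).lv N
  have P : Pl T₁ D₁ := ⟨L.h0, L.h2, L.dec⟩
  haveI := fin_tI hf N
  have M : Md (adj (rd (tI t N) ρ)) T₁ := ⟨inferInstance, two_m (two_q _),
    Subgroup.isOpen_mono (H₁ := (rd (tI t N) ρ).ker) (H₂ := (adj (rd (tI t N) ρ)).ker)
      (fun g => adj1) L.opn, fun l hl Q hQ g hg => adj1 (L.unr l hl Q hQ g hg)⟩
  refine hC N T₁ D₁ _ (fun _ _ => rfl) M (finrC _ _ _ (two_q _) L.opn)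
    (Un.uni P (h1 (by simp)) (h1 (by simp)) (hT _ _ P) M fun g => ⟨N + 1, adj1 (Units.ext ?_)⟩)
  have d : t ∣ (mr ρ g).trace := by
    rw [← Ideal.mem_span_singleton, ← (IsDiscreteValuationRing.irreducible_iff_uniformizer t).1 ht]
    exact hN.nu g
  have z : (mr (rd (tI t N) ρ) g).trace ^ 2 ^ N = 0 := by
    rw [mr_rd, ← AddMonoidHom.map_trace, ← map_pow, Ideal.Quotient.eq_zero_iff_mem,
      Ideal.mem_span_singleton]
    exact (pow_dvd_pow t Nat.lt_two_pow_self.le).trans (pow_dvd_pow_of_dvd d _)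
  rw [map_pow, Units.val_pow_eq_pow_val, pw (two_q _) _ (by
    show (mr (rd (tI t N) ρ) g).det = 1
    rw [mr_rd, ← RingHom.mapMatrix_apply, ← RingHom.map_det, hN.det, map_one]), z, zero_smul,
    add_zero, Units.val_one]

theorem lbS : LBS := lbS_of fun _ _ h => triv h

end P022S.Lb
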