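import Vale.Agent.P022S.Bex0

/-! # P022S: bounded exponent of the kernel of the restriction to the deep group -/

set_option linter.all false

open scoped MatrixGroups

noncomputable section

namespace Vale.Agent.P022S.Bex

open Vale.Agent.P022 Vale.Agent.P022.H161.CLat Vale.Agent.P022.H161.COp Vale.Agent.P022.L3
open Vale.Agent.P022.H527.L3 hiding M2
open Vale.Agent.P022.H420.L3 (M2 Pw act act_mul act_map cast_iff)
open Vale.Agent.P022D.G
open Vale.Agent.P022D.G.NilAux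

/-- strong approximation at the prime two -/
theorem sur {N N₀ : ℕ} (hN : N₀ ∣ N) (ho : Odd N) (M : ℕ) (g : SL(2, ℤ)) :
    ∃ γ : Gm N N₀, rd M (rho (Gm N N₀) γ) = rd M (g : M2) := by
  obtain ⟨k, m, hk⟩ : IsCoprime (N : ℤ) ((2 ^ M : ℕ) : ℤ) :=
    Nat.isCoprime_iff_coprime.2 (ho.coprime_two_right.pow_right M)
  have hc : ((k * N : ℤ) : ZMod (2 ^ M)) = 1 :=
    ((cast_iff _ _ 1).2 ⟨-m, by linear_combination hk⟩).trans Int.cast_one
  have hg : g ∈ Subgroup.closure {ModularGroup.S, ModularGroup.T} := by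
    rw [SpecialLinearGroup.SL2Z_generators]
    trivial
  induction hg using Subgroup.closure_induction with
  | mem x hx =>
    rcases hx with rfl | rfl
    · refine ⟨⟨⟨!![1 - k * N, k * N - 2; k * N, 1 - k * N], by
        rw [Matrix.det_fin_two_of]; ring⟩, (mem_Gm' hN).2 ⟨dvd_mul_left _ _, ?_⟩⟩, ?_⟩
      · show (N₀ : ℤ) ∣ 1 - k * N - 1
        rw [sub_sub_cancel_left, dvd_neg]
        exact (Int.natCast_dvd_natCast.2 hN).mul_left _
      · ext i j
        fin_cases i <;> fin_cases j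
        · show ((1 - k * N : ℤ) : ZMod (2 ^ M)) = ((0 : ℤ) : ZMod (2 ^ M))
          rw [Int.cast_sub, hc]
          simp
        · show ((k * N - 2 : ℤ) : ZMod (2 ^ M)) = ((-1 : ℤ) : ZMod (2 ^ M))
          rw [Int.cast_sub, hc]
          push_cast
          ring
        · show ((k * N : ℤ) : ZMod (2 ^ M)) = ((1 : ℤ) : ZMod (2 ^ M))
          rw [hc, Int.cast_one]
        · show ((1 - k * N : ℤ) : ZMod (2 ^ M)) = ((0 : ℤ) : ZMod (2 ^ M))
          rw [Int.cast_sub, hc]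
          simp
    · exact ⟨⟨ModularGroup.T, (mem_Gm' hN).2 ⟨dvd_zero _, dvd_zero _⟩⟩, rfl⟩
  | one => exact ⟨1, rfl⟩
  | mul x y _ _ hx hy =>
    obtain ⟨a, ha⟩ := hx
    obtain ⟨b, hb⟩ := hy
    exact ⟨a * b, by rw [map_mul, map_mul, ha, hb, Matrix.SpecialLinearGroup.coe_mul, map_mul]⟩
  | inv x _ hx =>
    obtain ⟨a, ha⟩ := hx
    refine ⟨a⁻¹, left_inv_eq_right_inv (a := rd M (x : M2)) ?_ ?_⟩
    · rw [← ha, ← map_mul, ← map_mul, inv_mul_cancel, map_one, map_one]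
    · rw [← map_mul, ← Matrix.SpecialLinearGroup.coe_mul, mul_inv_cancel,
        Matrix.SpecialLinearGroup.coe_one, map_one]

/-- **BEX** -/
theorem bex {N N₀ : ℕ} (hN : N₀ ∣ N) (ho : Odd N) (w : ℕ) : ∃ K : ℕ, K ≠ 0 ∧ ∀ M n : ℕ, n ≤ M →
    ∀ u : ZC (Gm N N₀) w, Van M n u →
    ∃ v : ZC (Gm N N₀) w, K • u - 2 ^ n • v ∈ BZ (Gm N N₀) w := by
  obtain ⟨K, h0, hK⟩ := main w
  refine ⟨K.natAbs, Int.natAbs_ne_zero.2 h0, fun M n hn u hu => ?_⟩
  have hv : Good M n (rv n (u : Gm N N₀ → Pw w ℤ)) := ⟨fun g h => by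
      funext j
      rw [Pi.add_apply, rv, coc, Pi.add_apply, map_add]
      exact congrArg (· + _) (act_map _ w _ _ j).symm, fun γ hγ => by
      obtain ⟨p, hp⟩ := hu γ hγ
      funext j
      rw [rv, hp, Pi.smul_apply, map_nsmul, nsmul_eq_mul, ZMod.natCast_self, zero_mul]
      rfl⟩
  choose γ hγ using sur hN ho M
  obtain ⟨p, hp⟩ := hK M n hn (fun g => rv n (u : Gm N N₀ → Pw w ℤ) (γ g)) ⟨fun g h => by
      rw [hv.cls (g' := γ g * γ h) (by
        rw [hγ, map_mul, map_mul, hγ, hγ, Matrix.SpecialLinearGroup.coe_mul, map_mul]), hv.1]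
      exact congrArg (· + _) (act_cls hn (g := (γ h : SL(2, ℤ))) (hγ h) _),
    fun g h e => hv.cls ((hγ g).trans (e.trans (hγ h).symm))⟩
  choose q hq using fun i => ZMod.intCast_surjective ((K.sign • p) i)
  have hx : ∀ (δ : Gm N N₀) j, ∃ y : ℤ, (K.natAbs • (u : Gm N N₀ → Pw w ℤ) δ -
      (act w (rho _ δ) q - q)) j = 2 ^ n • y := fun δ j => by
    have h1 := congrArg (K.sign • ·) (hp δ)
    beta_reduce at h1
    rw [hv.cls (hγ δ), smul_smul, Int.sign_mul_self, natCast_zsmul, smul_sub, ← act_z,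
      show K.sign • p = fun j => Int.castAddHom (ZMod (2 ^ n)) (q j) from
        funext fun j => (hq j).symm, ← rv_act] at h1
    have h2 : Int.castAddHom (ZMod (2 ^ n)) ((K.natAbs • (u : Gm N N₀ → Pw w ℤ) δ -
        (act w (rho _ δ) q - q)) j) = 0 := by
      rw [Pi.sub_apply, Pi.sub_apply, Pi.smul_apply, map_sub, map_sub, map_nsmul, sub_eq_zero]
      exact congrFun h1 j
    obtain ⟨y, hy⟩ := (ZMod.intCast_zmod_eq_zero_iff_dvd _ _).1 h2
    exact ⟨y, by rw [nsmul_eq_mul]; exact hy⟩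
  choose y hy using hx
  have hy' : ∀ δ, K.natAbs • (u : Gm N N₀ → Pw w ℤ) δ - (act w (rho _ δ) q - q) = 2 ^ n • y δ :=
    fun δ => funext (hy δ)
  have hz : y ∈ ZC (Gm N N₀) w := fun g h => by
    rw [actM_eq]
    refine nsmul_right_injective (pow_ne_zero n two_ne_zero) ?_
    beta_reduce
    rw [smul_add, ← map_nsmul, ← hy', ← hy', ← hy', coc, map_mul, act_mul, map_sub, map_sub,
      map_nsmul, smul_add]
    abel
  refine ⟨⟨y, hz⟩, mem_BZ.2 ⟨q, fun g => ?_⟩⟩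
  show K.natAbs • (u : Gm N N₀ → Pw w ℤ) g - 2 ^ n • y g = _
  rw [← hy', sub_sub_cancel]

/-- one constant for finitely many weights -/
theorem bexK {N N₀ : ℕ} (hN : N₀ ∣ N) (ho : Odd N) (S : Finset ℕ) : ∃ K : ℕ, K ≠ 0 ∧ ∀ w ∈ S,
    ∀ M n : ℕ, n ≤ M → ∀ u : ZC (Gm N N₀) w, Van M n u →
    ∃ v : ZC (Gm N N₀) w, K • u - 2 ^ n • v ∈ BZ (Gm N N₀) w := by
  choose K h0 hK using bex hN ho
  refine ⟨∏ w ∈ S, K w, Finset.prod_ne_zero_iff.2 fun w _ => h0 w, fun w hw M n hn u hu => ?_⟩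
  obtain ⟨x, hx⟩ := Finset.dvd_prod_of_mem K hw
  obtain ⟨v, hv⟩ := hK w M n hn u hu
  refine ⟨x • v, ?_⟩
  rw [hx, mul_comm, mul_smul, smul_comm (2 ^ n), ← smul_sub]
  exact nsmul_mem hv _

end Vale.Agent.P022S.Bex
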