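import Vale.Agent.P022D.G.Nil

/-! # P022S: cocycles of the modular group which factor through a power of two -/

set_option linter.all false

open scoped MatrixGroups
open Polynomial

noncomputable section

namespace Vale.Agent.P022S.Bex

open Vale.Agent.P022 Vale.Agent.P022.L3
open Vale.Agent.P022.H420.L3 (M2 Pw act cf mon act_apply act_mul act_one act_neg_one act_diag')
open Vale.Agent.P022D.G (Dg)
open Vale.Agent.P022D.G.NilAux (rd dg_iff dg_one actD)

/-- the translation -/
def tM : M2 := !![1, 1; 0, 1]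

/-- the inversion -/
def sM : M2 := !![0, -1; 1, 0]

theorem cf_t (w j i : ℕ) : cf w tM j i = j.choose i := by
  simp [cf, mon, tM, coeff_X_add_one_pow]

theorem cf_s (w i : ℕ) : cf w sM 0 i = if i = w then 1 else 0 := by
  simp [cf, mon, sM, coeff_X_pow]

theorem cf_zero (w : ℕ) (A : M2) (j : ℕ) : cf w A j 0 = A 0 1 ^ j * A 1 1 ^ (w - j) := by
  simp [cf, mon, coeff_zero_eq_eval_zero]

theorem act_z {A : Type} [AddCommGroup A] (w : ℕ) (g : M2) (c : ℤ) (p : Pw w A) :
    act w g (c • p) = c • act w g p := map_zsmul _ _ _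

/-- differences -/
theorem ex_dif (w r : ℕ) (hr : r ≤ w) : ∃ K : ℤ, K ≠ 0 ∧ ∀ (A : Type) [AddCommGroup A]
    (q : Pw w A), (∀ j : Fin (w + 1), r ≤ j → q j = 0) → ∃ p, act w tM p - p = K • q := by
  induction r with
  | zero => exact ⟨1, one_ne_zero, fun A _ q h => ⟨0, by
      rw [show q = 0 from funext fun j => h j (Nat.zero_le _)]
      simp⟩⟩
  | succ r ih =>
    obtain ⟨K, h0, hK⟩ := ih (by omega)
    refine ⟨K * (r + 1), mul_ne_zero h0 (by positivity), fun A _ q h => ?_⟩
    let e : Pw w A := Pi.single ⟨r + 1, by omega⟩ (q ⟨r, by omega⟩)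
    have he : ∀ i : Fin (w + 1), act w tM e i = ((r + 1).choose i : ℤ) • q ⟨r, by omega⟩ := by
      intro i
      rw [act_apply, Finset.sum_eq_single ⟨r + 1, by omega⟩, cf_t]
      · simp [e]
      · intro j _ hj
        simp [e, hj]
      · simp
    obtain ⟨p, hp⟩ := hK A (((r : ℤ) + 1) • q - (act w tM e - e)) fun j hj => by
      rw [Pi.sub_apply, Pi.sub_apply, Pi.smul_apply, he]
      rcases hj.eq_or_lt with a | a
      · have : j = ⟨r, by omega⟩ := Fin.ext a.symm
        rw [this]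
        simp [e, Pi.single_apply, Fin.ext_iff]
      · rw [h j a, smul_zero]
        rcases (Nat.succ_le_of_lt a).eq_or_lt with b | b
        · have : j = ⟨r + 1, by omega⟩ := Fin.ext b.symm
          rw [this]
          simp [e]
        · rw [Nat.choose_eq_zero_of_lt b]
          have : j ≠ ⟨r + 1, by omega⟩ := fun c => by rw [c] at b; simp at b
          simp [e, this]
    refine ⟨p + K • e, ?_⟩
    rw [map_add, act_z, mul_smul]
    rw [smul_sub, smul_sub] at hp
    rw [add_sub_add_comm, hp]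
    abel

/-- invariants -/
theorem ex_inv (w s : ℕ) : ∃ K : ℤ, K ≠ 0 ∧ ∀ (A : Type) [AddCommGroup A]
    (p : Pw w A), act w tM p = p → ∀ j : Fin (w + 1), w < j + s → 0 < (j : ℕ) → K • p j = 0 := by
  induction s with
  | zero => exact ⟨1, one_ne_zero, fun A _ p _ j h => absurd j.2 (by omega)⟩
  | succ s ih =>
    obtain ⟨K, h0, hK⟩ := ih
    refine ⟨(max 1 (w - s) : ℕ) * K, mul_ne_zero (by positivity) h0, fun A _ p hp j h1 h2 => ?_⟩
    by_cases c : w < j + s
    · rw [mul_smul, hK A p hp j c h2, smul_zero]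
    · have e := congrArg (K • ·) (congrFun hp ⟨j - 1, by omega⟩)
      beta_reduce at e
      rw [act_apply, Finset.smul_sum, Finset.sum_eq_add ⟨j - 1, by omega⟩ j] at e
      · rw [cf_t, cf_t, Nat.choose_self, Nat.cast_one, one_smul, add_eq_left,
          show ((j : ℕ).choose (j - 1)) = max 1 (w - s) by
            obtain ⟨i, hi⟩ : ∃ i, (j : ℕ) = i + 1 := ⟨j - 1, by omega⟩
            rw [hi, Nat.add_sub_cancel, Nat.choose_succ_self_right]
            omega, smul_smul, mul_comm] at e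
        exact e
      · exact fun a => by
          have := congrArg Fin.val a
          simp only at this
          omega
      · intro k _ ⟨a, b⟩
        have a' : (k : ℕ) ≠ j - 1 := fun x => a (Fin.ext x)
        have b' : (k : ℕ) ≠ j := fun x => b (Fin.ext x)
        by_cases d : (k : ℕ) < j - 1
        · rw [cf_t, Nat.choose_eq_zero_of_lt d]
          simp
        · rw [smul_comm, hK A p hp k (by omega) (by omega), smul_zero]
      · simp
      · simp

variable {w M n : ℕ}

/-- cocycles which factor through the reduction modulo `2 ^ M` -/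
structure Gd (M : ℕ) (v : SL(2, ℤ) → Pw w (ZMod (2 ^ n))) : Prop where
  coc : ∀ g h : SL(2, ℤ), v (g * h) = act w (h : M2) (v g) + v h
  cls : ∀ g h : SL(2, ℤ), rd M (g : M2) = rd M (h : M2) → v g = v h

theorem act_cls (hn : n ≤ M) {g h : SL(2, ℤ)} (e : rd M (g : M2) = rd M (h : M2))
    (p : Pw w (ZMod (2 ^ n))) : act w (g : M2) p = act w (h : M2) p := by
  have h1 : Dg M 1 1 ((g * h⁻¹ : SL(2, ℤ)) : M2) := by
    rw [dg_one, Matrix.SpecialLinearGroup.coe_mul, map_mul, e, ← map_mul,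
      ← Matrix.SpecialLinearGroup.coe_mul, mul_inv_cancel, Matrix.SpecialLinearGroup.coe_one,
      map_one]
  conv_lhs => rw [← inv_mul_cancel_right g h, mul_assoc g, ← mul_assoc,
    Matrix.SpecialLinearGroup.coe_mul, act_mul, actD hn h1, ← Matrix.one_fin_two, act_one]

variable {v : SL(2, ℤ) → Pw w (ZMod (2 ^ n))}

theorem Gd.smul (h : Gd M v) (c : ℤ) : Gd M (c • v) :=
  ⟨fun a b => by rw [Pi.smul_apply, Pi.smul_apply, Pi.smul_apply, h.coc, act_z, smul_add],
    fun a b e => by rw [Pi.smul_apply, Pi.smul_apply, h.cls a b e]⟩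

theorem Gd.sub (h : Gd M v) (hn : n ≤ M) (p : Pw w (ZMod (2 ^ n))) :
    Gd M fun g => v g - (act w (g : M2) p - p) :=
  ⟨fun a b => by
    rw [h.coc, Matrix.SpecialLinearGroup.coe_mul, act_mul, map_sub, map_sub]
    abel, fun a b e => by rw [h.cls a b e, act_cls hn e]⟩

theorem Gd.one (h : Gd M v) : v 1 = 0 := by
  have := h.coc 1 1
  rwa [mul_one, Matrix.SpecialLinearGroup.coe_one, act_one, left_eq_add] at this

theorem Gd.zero (h : Gd M v) (a : v ModularGroup.S = 0) (b : v ModularGroup.T = 0) (g : SL(2, ℤ)) :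
    v g = 0 := by
  have hg : g ∈ Subgroup.closure {ModularGroup.S, ModularGroup.T} := by
    rw [SpecialLinearGroup.SL2Z_generators]
    trivial
  induction hg using Subgroup.closure_induction with
  | mem x hx => rcases hx with rfl | rfl <;> assumption
  | one => exact h.one
  | mul x y _ _ hx hy => rw [h.coc, hx, hy, map_zero, add_zero]
  | inv x _ hx =>
    have := h.coc x x⁻¹
    rwa [mul_inv_cancel, h.one, hx, map_zero, zero_add, eq_comm] at this

/-- a lift of the diagonal matrix -/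
def tt (a d : ℤ) : SL(2, ℤ) := ⟨!![a + a * (1 - a * d), -(1 - a * d); 1 - a * d, d], by
  rw [Matrix.det_fin_two_of]
  ring⟩

theorem tt_rd {a d : ℤ} (h : (a : ZMod (2 ^ M)) * d = 1) :
    rd M (tt a d : M2) = !![(a : ZMod (2 ^ M)), 0; 0, (d : ZMod (2 ^ M))] := by
  ext i j
  fin_cases i <;> fin_cases j <;> simp [tt, h]

theorem rd_T (m : ℕ) : rd M ((ModularGroup.T ^ m : SL(2, ℤ)) : M2) = !![1, (m : ZMod (2 ^ M)); 0, 1] := by
  rw [← zpow_natCast, ModularGroup.coe_T_zpow]
  ext i j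
  fin_cases i <;> fin_cases j <;> simp

theorem rel_T {a : ℕ} {d : ℤ} (h : ((a : ℤ) : ZMod (2 ^ M)) * d = 1) :
    rd M ((tt a d * ModularGroup.T : SL(2, ℤ)) : M2) =
      rd M ((ModularGroup.T ^ (a * a) * tt a d : SL(2, ℤ)) : M2) := by
  have e := rd_T (M := M) 1
  rw [pow_one] at e
  rw [Matrix.SpecialLinearGroup.coe_mul, Matrix.SpecialLinearGroup.coe_mul, map_mul, map_mul,
    tt_rd h, e, rd_T, Matrix.mul_fin_two, Matrix.mul_fin_two]
  rw [Int.cast_natCast] at h
  ext i j
  fin_cases i <;> fin_cases j <;> simp [mul_assoc, h]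

theorem rel_S {a d : ℤ} (h : (a : ZMod (2 ^ M)) * d = 1) :
    rd M ((ModularGroup.S * tt a d : SL(2, ℤ)) : M2) =
      rd M ((tt d a * ModularGroup.S : SL(2, ℤ)) : M2) := by
  have e : rd M ((ModularGroup.S : SL(2, ℤ)) : M2) = !![0, -1; 1, 0] := by
    ext i j
    fin_cases i <;> fin_cases j <;> simp [ModularGroup.coe_S]
  rw [Matrix.SpecialLinearGroup.coe_mul, Matrix.SpecialLinearGroup.coe_mul, map_mul, map_mul,
    tt_rd h, tt_rd ((mul_comm _ _).trans h), e, Matrix.mul_fin_two, Matrix.mul_fin_two]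
  simp

theorem act_tt (hn : n ≤ M) {a d : ℤ} (h : (a : ZMod (2 ^ M)) * d = 1) (p : Pw w (ZMod (2 ^ n)))
    (i : Fin (w + 1)) : act w (tt a d : M2) p i = (a ^ (i : ℕ) * d ^ (w - (i : ℕ))) • p i := by
  rw [actD hn (dg_iff.2 (tt_rd h)), act_diag']

theorem act_top {A : Type} [AddCommGroup A] (p : Pw w A) :
    act w tM p (Fin.last w) = p (Fin.last w) := by
  rw [act_apply, Finset.sum_eq_single (Fin.last w), cf_t, Nat.choose_self, Nat.cast_one, one_smul]
  · intro j _ hj
    rw [cf_t, Fin.val_last, Nat.choose_eq_zero_of_lt (Fin.val_lt_last hj)]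
    simp
  · simp

theorem Gd.top (h : Gd M v) (m : ℕ) :
    v (ModularGroup.T ^ m) (Fin.last w) = (m : ℤ) • v ModularGroup.T (Fin.last w) := by
  induction m with
  | zero => rw [pow_zero, h.one]; simp
  | succ m ih =>
    rw [pow_succ, h.coc, Pi.add_apply, show ((ModularGroup.T : SL(2, ℤ)) : M2) = tM from rfl,
      act_top, ih, Nat.cast_succ, add_smul, one_smul]

theorem Gd.pow (h : Gd M v) (b : v ModularGroup.T = 0) (m : ℕ) : v (ModularGroup.T ^ m) = 0 := by
  induction m with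
  | zero => exact h.one
  | succ m ih => rw [pow_succ, h.coc, ih, b, map_zero, add_zero]

theorem ex_d (M : ℕ) : ∃ d : ℕ, (((3 : ℕ) : ℤ) : ZMod (2 ^ M)) * ((d : ℤ) : ZMod (2 ^ M)) = 1 := by
  haveI : NeZero (2 ^ M) := ⟨by positivity⟩
  have h : Nat.Coprime 3 (2 ^ M) := Nat.Coprime.pow_right _ (by norm_num)
  refine ⟨(((ZMod.unitOfCoprime 3 h)⁻¹ : (ZMod (2 ^ M))ˣ) : ZMod (2 ^ M)).val, ?_⟩
  rw [Int.cast_natCast, Int.cast_natCast, ZMod.natCast_zmod_val, ← ZMod.coe_unitOfCoprime 3 h,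
    Units.mul_inv]

theorem red_one (hn : n ≤ M) {a d : ℤ} (h : (a : ZMod (2 ^ M)) * d = 1) (k : ℕ)
    (x : ZMod (2 ^ n)) : (a ^ k * d ^ k) • x = x := by
  have e := congrArg (ZMod.castHom (pow_dvd_pow 2 hn) (ZMod (2 ^ n))) h
  rw [map_mul, map_intCast, map_intCast, map_one] at e
  rw [← mul_pow, zsmul_eq_mul, Int.cast_pow, Int.cast_mul, e, one_pow, one_mul]

/-- the value at the translation -/
theorem step1 (w : ℕ) : ∃ K : ℤ, K ≠ 0 ∧ ∀ (M n : ℕ), n ≤ M →
    ∀ v : SL(2, ℤ) → Pw w (ZMod (2 ^ n)), Gd M v →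
      ∃ p, act w tM p - p = K • v ModularGroup.T := by
  obtain ⟨K, h0, hK⟩ := ex_dif w w le_rfl
  refine ⟨K * (3 ^ w * 9 - 1), mul_ne_zero h0 ?_, fun M n hn v h => ?_⟩
  · have : (1 : ℤ) ≤ 3 ^ w := one_le_pow₀ (by norm_num)
    omega
  obtain ⟨d, hd⟩ := ex_d M
  rw [mul_smul]
  refine hK _ _ fun j hj => ?_
  obtain rfl : j = Fin.last w := Fin.ext (le_antisymm (Nat.lt_succ_iff.1 j.2) hj)
  have e := congrFun (h.cls _ _ (rel_T hd)) (Fin.last w)
  rw [h.coc, h.coc, Pi.add_apply, Pi.add_apply,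
    show ((ModularGroup.T : SL(2, ℤ)) : M2) = tM from rfl, act_top, act_tt hn hd, h.top, add_comm,
    add_left_inj, Fin.val_last, Nat.sub_self, pow_zero, mul_one, smul_smul] at e
  rw [Pi.smul_apply, sub_smul, one_smul, sub_eq_zero]
  refine Eq.trans ?_ e.symm
  norm_num

theorem Gd.inv (h : Gd M v) (b : v ModularGroup.T = 0) {a : ℕ} {d : ℤ}
    (hd : ((a : ℤ) : ZMod (2 ^ M)) * d = 1) : act w tM (v (tt a d)) = v (tt a d) := by
  have e := h.cls _ _ (rel_T hd)
  rwa [h.coc, h.coc, b, h.pow b, map_zero, add_zero, zero_add] at e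

/-- the value at the inversion -/
theorem step2 (w : ℕ) : ∃ K : ℤ, K ≠ 0 ∧ ∀ (M n : ℕ), n ≤ M →
    ∀ v : SL(2, ℤ) → Pw w (ZMod (2 ^ n)), Gd M v → v ModularGroup.T = 0 →
      ∀ j : Fin (w + 1), 0 < (j : ℕ) → (j : ℕ) < w → 2 * (j : ℕ) ≠ w →
        K • v ModularGroup.S j = 0 := by
  obtain ⟨K, h0, hK⟩ := ex_inv w (w + 1)
  refine ⟨(∏ j ∈ (Finset.range (w + 1)).filter (2 * · ≠ w), ((3 : ℤ) ^ j - 3 ^ (w - j))) * K,
    mul_ne_zero (Finset.prod_ne_zero_iff.2 fun j hj => ?_) h0, fun M n hn v h b j j0 j1 j2 => ?_⟩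
  · rw [Finset.mem_filter, Finset.mem_range] at hj
    rw [sub_ne_zero]
    intro e
    have := pow_right_injective₀ (by norm_num : (0 : ℤ) < 3) (by norm_num) e
    omega
  obtain ⟨d, hd⟩ := ex_d M
  have a1 := hK _ _ (h.inv b hd) j (by omega) j0
  have a2 := fun (i : Fin (w + 1)) (hi : 0 < (i : ℕ)) =>
    hK _ _ (h.inv b ((mul_comm _ _).trans hd)) i (by omega) hi
  have e := congrArg (K • ·) (congrFun (h.cls _ _ (rel_S hd)) j)
  beta_reduce at e
  rw [h.coc, h.coc, Pi.add_apply, Pi.add_apply, smul_add, smul_add, a1, add_zero, act_tt hn hd,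
    act_apply, Finset.smul_sum, Finset.sum_eq_zero, zero_add] at e
  · obtain ⟨c, hc⟩ := Finset.dvd_prod_of_mem (fun j => (3 : ℤ) ^ j - 3 ^ (w - j))
      (s := (Finset.range (w + 1)).filter (2 * · ≠ w))
      (Finset.mem_filter.2 ⟨Finset.mem_range.2 j.2, j2⟩)
    have e2 := congrArg (((3 : ℤ) ^ (w - j)) • ·) e
    beta_reduce at e2
    rw [smul_comm K, smul_smul, mul_left_comm, mul_smul, Nat.cast_ofNat] at e2
    erw [red_one hn hd] at e2
    rw [hc, mul_comm _ c, mul_assoc, mul_smul, mul_smul, sub_smul, e2, sub_self, smul_zero]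
  · intro i _
    by_cases c : 0 < (i : ℕ)
    · rw [smul_comm, a2 i c, smul_zero]
    · rw [show (i : ℕ) = 0 by omega, show ((ModularGroup.S : SL(2, ℤ)) : M2) = sM from rfl, cf_s,
        if_neg j1.ne, zero_smul, smul_zero]

theorem act0 {A : Type} [AddCommGroup A] (g : M2) (p : Pw w A) :
    act w g p 0 = ∑ j : Fin (w + 1), (g 0 1 ^ (j : ℕ) * g 1 1 ^ (w - j)) • p j := by
  rw [act_apply]
  exact Finset.sum_congr rfl fun j _ => by rw [Fin.val_zero, cf_zero]

theorem act0_last {A : Type} [AddCommGroup A] (hw : Even w) {g : M2} (a : g 0 1 = -1)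
    (b : g 1 1 = 0) (p : Pw w A) : act w g p 0 = p (Fin.last w) := by
  rw [act0, Finset.sum_eq_single (Fin.last w), a, Fin.val_last, hw.neg_one_pow, Nat.sub_self]
  · simp
  · intro j _ hj
    rw [b, zero_pow (Nat.sub_ne_zero_of_lt (Fin.val_lt_last hj)), mul_zero, zero_smul]
  · simp

/-- the last step -/
theorem step3 (hn : n ≤ M) (hw : Even w) (h : Gd M v) (b : v ModularGroup.T = 0) (m : v (-1) = 0)
    (z : ∀ j : Fin (w + 1), 0 < (j : ℕ) → (j : ℕ) < w → 2 * (j : ℕ) ≠ w →
      v ModularGroup.S j = 0) : ∃ p, ∀ g, (3 : ℤ) • v g = act w (g : M2) p - p := by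
  have s2 : ModularGroup.S * ModularGroup.S = -1 := by decide
  have u3 : ModularGroup.T * ModularGroup.S * (ModularGroup.T * ModularGroup.S *
    (ModularGroup.T * ModularGroup.S)) = -1 := by decide
  have u1 : v (ModularGroup.T * ModularGroup.S) = v ModularGroup.S := by
    rw [h.coc, b, map_zero, zero_add]
  have e1 := congrFun m 0
  have e2 := congrFun m 0
  rw [← s2, h.coc, Pi.add_apply, act0_last hw rfl rfl] at e1
  rw [← u3, h.coc, u1, h.coc (ModularGroup.T * ModularGroup.S), u1, Pi.add_apply, Pi.add_apply,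
    act0_last hw (g := ((ModularGroup.T * ModularGroup.S : SL(2, ℤ)) : M2)) (by decide) (by decide),
    e1, act0] at e2
  have e3 : ∑ j, v ModularGroup.S j = 0 := by
    refine Eq.trans (Finset.sum_congr rfl fun j _ => ?_) ((add_zero _).symm.trans e2)
    rw [show ((ModularGroup.T * ModularGroup.S * (ModularGroup.T * ModularGroup.S) : SL(2, ℤ)) : M2)
      0 1 = -1 by decide, show ((ModularGroup.T * ModularGroup.S *
        (ModularGroup.T * ModularGroup.S) : SL(2, ℤ)) : M2) 1 1 = -1 by decide, ← pow_add,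
      Nat.add_sub_cancel' (Nat.lt_succ_iff.1 j.2), hw.neg_one_pow, one_smul]
  rcases Nat.eq_zero_or_pos w with rfl | w0
  · refine ⟨0, fun g => ?_⟩
    rw [h.zero (funext fun j => ?_) b g]
    · simp
    · rw [Fin.sum_univ_one] at e3
      rw [show j = 0 from Fin.ext (by omega)]
      exact e3
  · have ne : (0 : Fin (w + 1)) ≠ Fin.last w := fun e => w0.ne (congrArg Fin.val e)
    have z' : ∀ j : Fin (w + 1), j ≠ 0 → j ≠ Fin.last w → v ModularGroup.S j = 0 := by
      intro j a c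
      by_cases d : 2 * (j : ℕ) = w
      · rw [← Finset.add_sum_erase _ _ (Finset.mem_univ j), Finset.sum_eq_add 0 (Fin.last w) ne,
          add_comm (v _ 0), e1] at e3
        · exact (add_zero _).symm.trans e3
        · intro k hk ⟨k0, k1⟩
          refine z k (Fin.pos_iff_ne_zero.2 k0) (Fin.val_lt_last k1) fun x => ?_
          exact Finset.ne_of_mem_erase hk (Fin.ext (by omega))
        · exact fun x => absurd (Finset.mem_erase.2 ⟨a.symm, Finset.mem_univ _⟩) x
        · exact fun x => absurd (Finset.mem_erase.2 ⟨c.symm, Finset.mem_univ _⟩) x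
      · exact z j (Fin.pos_iff_ne_zero.2 a) (Fin.val_lt_last c) d
    let p : Pw w (ZMod (2 ^ n)) := Pi.single 0 (v ModularGroup.S (Fin.last w))
    have hp : ∀ (g : M2) (i : Fin (w + 1)),
        act w g p i = cf w g 0 i • v ModularGroup.S (Fin.last w) := fun g i => by
      rw [act_apply, Finset.sum_eq_single 0]
      · simp [p]
      · intro j _ hj
        simp [p, hj]
      · simp
    refine ⟨(3 : ℤ) • p, fun g => ?_⟩
    rw [act_z, ← smul_sub]
    congr 1
    refine sub_eq_zero.1 ((h.sub hn p).zero (funext fun j => ?_) (funext fun j => ?_) g)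
    · change v ModularGroup.S j - (act w sM p j - p j) = 0
      rw [hp, cf_s]
      by_cases a : j = 0
      · subst a
        rw [Fin.val_zero, if_neg w0.ne, zero_smul, zero_sub, sub_neg_eq_add, add_comm]
        simpa [p] using e1
      · by_cases c : j = Fin.last w
        · subst c
          simp [p, a]
        · rw [if_neg (Fin.val_lt_last c).ne, z' j a c]
          simp [p, a]
    · change v ModularGroup.T j - (act w tM p j - p j) = 0
      rw [hp, cf_t, b]
      by_cases a : j = 0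
      · subst a
        simp [p]
      · rw [Nat.choose_eq_zero_of_lt (show 0 < (j : ℕ) from Fin.pos_iff_ne_zero.2 a)]
        simp [p, a]

/-- **bounded exponent** -/
theorem main (w : ℕ) : ∃ K : ℤ, K ≠ 0 ∧ ∀ (M n : ℕ), n ≤ M →
    ∀ v : SL(2, ℤ) → Pw w (ZMod (2 ^ n)), Gd M v → ∃ p, ∀ g, K • v g = act w (g : M2) p - p := by
  rcases Nat.even_or_odd w with hw | hw
  · obtain ⟨K1, a1, h1⟩ := step1 w
    obtain ⟨K2, a2, h2⟩ := step2 w
    refine ⟨3 * (2 * K2) * K1, by positivity, fun M n hn v h => ?_⟩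
    obtain ⟨p, hp⟩ := h1 M n hn v h
    have g1 := (h.smul K1).sub hn p
    have b : (K1 • v) ModularGroup.T - (act w (ModularGroup.T : SL(2, ℤ)) p - p) = 0 :=
      sub_eq_zero.2 hp.symm
    obtain ⟨q, hq⟩ := step3 hn hw (g1.smul (2 * K2)) (by rw [Pi.smul_apply, b, smul_zero]) (by
      have e := g1.coc (-1) (-1)
      rw [neg_mul_neg, one_mul, g1.one, Matrix.SpecialLinearGroup.coe_neg,
        Matrix.SpecialLinearGroup.coe_one, act_neg_one, hw.neg_one_pow, one_smul, ← two_zsmul] at e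
      rw [Pi.smul_apply, mul_comm, mul_smul]
      erw [← e]
      exact smul_zero _) fun j j0 j1 j2 => by
        rw [Pi.smul_apply, Pi.smul_apply, mul_smul, h2 M n hn _ g1 b j j0 j1 j2, smul_zero]
    refine ⟨q + (3 * (2 * K2)) • p, fun g => ?_⟩
    have e := hq g
    rw [Pi.smul_apply, smul_smul, smul_sub, Pi.smul_apply, smul_smul, smul_sub] at e
    rw [map_add, act_z, add_sub_add_comm, ← e]
    abel
  · refine ⟨2, two_ne_zero, fun M n hn v h => ⟨-v (-1), fun g => ?_⟩⟩
    have e := h.coc g (-1)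
    rw [mul_neg_one, ← neg_one_mul, h.coc, Matrix.SpecialLinearGroup.coe_neg,
      Matrix.SpecialLinearGroup.coe_one, act_neg_one, hw.neg_one_pow, neg_one_smul] at e
    rw [map_neg, two_zsmul, sub_neg_eq_add]
    exact eq_neg_add_iff_add_eq.2 (by rw [← add_assoc, e]; abel)

end Vale.Agent.P022S.Bex
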