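import Vale.Agent.P022S.Kd
import Vale.Agent.P022F.Gm
import Vale.Agent.P022G.Po
import Vale.Agent.P022D.Dh.Ndh
import Vale.Agent.P022D.Good.Avoid

/-!
# P022S: a residually trivial trace function which vanishes on a coset is dihedral, and the
dihedral locus is small
-/

set_option linter.all false

noncomputable section

namespace Vale.Agent.P022S.Clf

open NumberField IsLocalRing Vale.Agent.P022 Vale.Agent.P022.C Vale.Agent.P022.H346
open Vale.Agent.P022D.Sel (Ginf)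
open Vale.Agent.P022D.Dh
open Vale.Agent.P027M.S (Inert)

section abs
variable {G : Type} [Group G] {B : Type} [CommRing B] {t : G → B}

/-- the trace function is induced from a character of `H` -/
structure Dih (t : G → B) (H : Subgroup G) : Prop where
  ne : ∃ c, c ∉ H
  idx : ∀ g h, g ∉ H → h ∉ H → g * h ∈ H
  off : ∀ g, g ∉ H → t g = 0
  reg : ∃ n ∈ H, t n ≠ 0
  com : ∀ g ∈ H, ∀ h ∈ H, ∀ z, t (z * (g * h)) = t (z * (h * g))
  ant : ∀ c, c ∉ H → ∀ g ∈ H, ∀ z, t (z * (c⁻¹ * (g * c) * g)) = t z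

theorem clf0 {Ω : Type} [Field Ω] [IsAlgClosed Ω] [CharP Ω 2] {t : G → Ω} (T : TF t 1)
    {N : Subgroup G} (hN : N.Normal) {σ : G} (h0 : ∀ n ∈ N, t (σ * n) = 0) {n0 : G} (hn : n0 ∈ N)
    (ht : t n0 ≠ 0) : ∃ H, Dih t H := by
  have two : (2 : Ω) = 0 := CharTwo.two_eq_zero
  obtain ⟨α, hα⟩ := IsAlgClosed.exists_root
    (Polynomial.C 1 * Polynomial.X ^ 2 + Polynomial.C (- t n0) * Polynomial.X +
      Polynomial.C 1) (by rw [Polynomial.degree_quadratic one_ne_zero]; decide)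
  have hα' : α ^ 2 - t n0 * α + 1 = 0 := by
    have := hα.eq_zero
    simp only [Polynomial.eval_add, Polynomial.eval_mul, Polynomial.eval_C, Polynomial.eval_pow,
      Polynomial.eval_X] at this
    linear_combination this
  obtain ⟨β, hβ⟩ : ∃ β, α + β = t n0 := ⟨t n0 - α, by ring⟩
  have hp : α * β = 1 := by linear_combination α * hβ - hα'
  have hne : α - β ≠ 0 := fun e => ht (by linear_combination e - hβ + β * two)
  obtain ⟨M, a0, b0, x1, x2⟩ := P022F.Gm.gm T n0 hβ (by simpa using hp) (mul_inv_cancel₀ hne)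
  generalize P022D.Gma.ent t n0 β (α - β)⁻¹ = a at M a0
  generalize P022F.Gm.en2 t n0 β (α - β)⁻¹ = b at M b0
  generalize P022F.Gm.xx t n0 β (α - β)⁻¹ = x at M x1 x2
  have det : ∀ g, a g * b g - x g g = 1 := fun g => by simpa using M.det g
  have an : ∀ g, t g = 0 → t (g * n0) = 0 → a g = 0 ∧ b g = 0 := fun g e1 e2 => by
    rw [← M.sum] at e1 e2
    rw [M.am, M.bm, x1, x2, a0, b0] at e2
    have e3 : a g = 0 := (mul_eq_zero.1 (show (α - β) * a g = 0 by
      linear_combination e2 - β * e1)).resolve_left hne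
    exact ⟨e3, by linear_combination e1 - e3⟩
  obtain ⟨sa, sb⟩ := an σ (by simpa using h0 1 N.one_mem) (h0 n0 hn)
  have xs : x σ σ ≠ 0 := fun e => by
    have := det σ
    rw [sa, e] at this
    simp at this
  have l1 : ∀ g h, x g σ = 0 → x g h = 0 := fun g h e =>
    (mul_eq_zero.1 (show x g h * x σ σ = 0 by rw [M.sw, e, zero_mul])).resolve_right xs
  have l2 : ∀ g h, x σ h = 0 → x g h = 0 := fun g h e =>
    (mul_eq_zero.1 (show x g h * x σ σ = 0 by rw [M.sw, e, mul_zero])).resolve_right xs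
  let H : Subgroup G :=
    { carrier := {g | x g σ = 0 ∧ x σ g = 0}
      one_mem' := M.x1 σ
      mul_mem' := fun {g h} hg hh => ⟨by rw [M.cl, hg.1, hh.1]; ring, by
        rw [M.cr, hg.2, hh.2]; ring⟩
      inv_mem' := fun {g} hg => by
        have d := det g
        rw [l1 g g hg.1, sub_zero] at d
        have e1 := M.cl g⁻¹ g σ
        have e2 := M.cr σ g g⁻¹
        rw [inv_mul_cancel, (M.x1 σ).1, hg.1, mul_zero, zero_add] at e1
        rw [mul_inv_cancel, (M.x1 σ).2, hg.2, mul_zero, zero_add] at e2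
        exact ⟨by linear_combination -a g * e1 - x g⁻¹ σ * d,
          by linear_combination -a g * e2 - x σ g⁻¹ * d⟩ }
  have mH : ∀ g, g ∈ H ↔ x g σ = 0 ∧ x σ g = 0 := fun _ => Iff.rfl
  have hNH : ∀ n ∈ N, n ∈ H := fun n hn' => by
    obtain ⟨e1, e2⟩ := an (σ * n) (h0 n hn') (by rw [mul_assoc]; exact h0 _ (N.mul_mem hn' hn))
    rw [M.am, sa, zero_mul, zero_add] at e1
    rw [M.bm, sb, zero_mul, zero_add] at e2
    exact ⟨e2, e1⟩
  have dH : ∀ g ∈ H, a g * b g = 1 := fun g hg => by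
    have d := det g
    rwa [l1 g g hg.1, sub_zero] at d
  have ad : ∀ g, g ∉ H → a g = 0 ∧ b g = 0 := fun g hg => by
    have hm := hNH _ (hN.conj_mem n0 hn g)
    have e : g * n0 * g⁻¹ * g = g * n0 := inv_mul_cancel_right _ _
    have tm : t (g * n0 * g⁻¹) = t n0 := by rw [T.comm, inv_mul_cancel_left]
    have dm := dH _ hm
    generalize g * n0 * g⁻¹ = m at hm e tm dm
    rw [← M.sum, ← hβ] at tm
    have e1 := M.am m g
    have e2 := M.bm m g
    have e3 := M.cl m g σ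
    have e4 := M.cr σ m g
    rw [e, M.am, x2, a0, l1 m g hm.1] at e1
    rw [e, M.bm, x1, b0, l2 g m hm.2] at e2
    rw [e, M.cl, x1, b0, hm.1] at e3
    rw [e, M.cr, x2, a0, hm.2] at e4
    rcases mul_eq_zero.1 (show (a m - α) * (a m - β) = 0 by
      linear_combination a m * tm - dm + hp) with k | k
    · refine absurd ⟨(mul_eq_zero.1 ?_).resolve_left hne, (mul_eq_zero.1 ?_).resolve_left hne⟩ hg
      · linear_combination -e3 - x g σ * k
      · linear_combination e4 + x σ g * tm - x σ g * k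
    · refine ⟨(mul_eq_zero.1 ?_).resolve_left hne, (mul_eq_zero.1 ?_).resolve_left hne⟩
      · linear_combination e1 + a g * k
      · linear_combination -e2 - b g * tm + b g * k
  have idx : ∀ g h, g ∉ H → h ∉ H → g * h ∈ H := fun g h hg hh =>
    ⟨by rw [M.cl, (ad g hg).1, (ad h hh).2]; ring, by rw [M.cr, (ad h hh).1, (ad g hg).2]; ring⟩
  have tz : ∀ u ∈ H, ∀ z, t (z * u) = a z * a u + b z * b u := fun u hu z => by
    rw [← M.sum, M.am, M.bm, l1 u z hu.1, l2 z u hu.2]; ring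
  have ab : ∀ g ∈ H, ∀ h ∈ H, a (g * h) = a g * a h ∧ b (g * h) = b g * b h := fun g hg h hh =>
    ⟨by rw [M.am, l1 g h hg.1, add_zero], by rw [M.bm, l1 h g hh.1, add_zero]⟩
  refine ⟨H, ⟨σ, fun e => xs e.1⟩, idx, fun g hg => by rw [← M.sum, (ad g hg).1, (ad g hg).2,
    add_zero], ⟨n0, hNH n0 hn, ht⟩, fun g hg h hh z => ?_, fun c hc g hg z => ?_⟩
  · rw [tz _ (H.mul_mem hg hh), tz _ (H.mul_mem hh hg), (ab g hg h hh).1, (ab g hg h hh).2,
      (ab h hh g hg).1, (ab h hh g hg).2]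
    ring
  · have hm : c⁻¹ * (g * c) ∈ H := idx _ _ (fun e => hc (H.inv_mem_iff.1 e))
      fun e => hc ((H.mul_mem_cancel_left hg).1 e)
    have e : c * (c⁻¹ * (g * c)) = g * c := mul_inv_cancel_left _ _
    generalize c⁻¹ * (g * c) = m at hm e
    have e3 := M.cl c m σ
    rw [e, M.cl, hm.1, hg.1] at e3
    have xc : x c σ ≠ 0 := fun k => by
      have := det c
      rw [(ad c hc).1, l1 c c k] at this
      simp at this
    have k : a g = b m := mul_right_cancel₀ xc (by linear_combination e3)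
    rw [tz _ (H.mul_mem hm hg), (ab m hm g hg).1, (ab m hm g hg).2, ← M.sum, k, dH m hm, ← k,
      dH g hg, mul_one, mul_one]

theorem Dih.pull {Ω : Type} [CommRing Ω] (φ : B →+* Ω) (hφ : Function.Injective φ) {H : Subgroup G}
    (h : Dih (fun g => φ (t g)) H) : Dih t H where
  ne := h.ne
  idx := h.idx
  off g hg := hφ ((h.off g hg).trans (map_zero φ).symm)
  reg := h.reg.imp fun n k => ⟨k.1, fun e => k.2 (by rw [e, map_zero])⟩
  com g hg k hk z := hφ (h.com g hg k hk z)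
  ant c hc g hg z := hφ (h.ant c hc g hg z)

theorem tf_one {Ω : Type} [CommRing Ω] (T : TF t 1) (φ : B →+* Ω) : TF (fun g => φ (t g)) 1 where
  one := by rw [T.one, map_ofNat]
  comm g h := by rw [T.comm]
  mul g h := by simpa using congrArg φ (T.mul g h)

theorem rec2 (T : TF t 1) (g : G) (n : ℕ) : t (g ^ (n + 2)) = t g * t (g ^ (n + 1)) - t (g ^ n) := by
  have := T.mul (g ^ (n + 1)) g
  rw [← pow_succ, pow_succ g n, mul_inv_cancel_right, ← pow_succ] at this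
  simp only [MonoidHom.one_apply, Units.val_one, one_mul] at this
  linear_combination -this

theorem sq2 (T : TF t 1) (h2 : (2 : B) = 0) (g : G) (c : ℕ) : t (g ^ 2 ^ c) = t g ^ 2 ^ c := by
  induction c with
  | zero => simp
  | succ c ih =>
    have := T.mul (g ^ 2 ^ c) (g ^ 2 ^ c)
    rw [mul_inv_cancel, T.one, h2, mul_zero, add_zero, ih] at this
    rw [pow_succ 2 c, pow_mul, pow_mul, sq, sq, this]

theorem odd2 (T : TF t 1) (m : Ideal B) (h2 : (2 : B) ∈ m) (hm : ∀ g, t g ∈ m) (g : G) (j : ℕ) :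
    ∃ u, u - 1 ∈ m ∧ t (g ^ (2 * j + 1)) = t g * u := by
  induction j with
  | zero => exact ⟨1, by simp, by simp⟩
  | succ j ih =>
    obtain ⟨u, h1, h3⟩ := ih
    refine ⟨t (g ^ (2 * j + 1 + 1)) - u, ?_, by
      rw [show 2 * (j + 1) + 1 = 2 * j + 1 + 2 by ring, rec2 T, h3]; ring⟩
    have := m.sub_mem (m.sub_mem (hm (g ^ (2 * j + 1 + 1))) h1) h2
    convert this using 1
    ring

theorem lin (T : TF t 1) (h2 : (2 : B) = 0) (m : Ideal B) (hm : ∀ g, t g ∈ m) (g : G) (n : ℕ) :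
    t (g ^ n) - n * t g ∈ m ^ 2 := by
  induction n using Nat.twoStepInduction with
  | zero => rw [pow_zero, T.one, h2]; simp
  | one => simp
  | more n ih _ =>
    have h5 : t g * t (g ^ (n + 1)) ∈ m ^ 2 := by rw [sq]; exact Ideal.mul_mem_mul (hm _) (hm _)
    have := Ideal.sub_mem _ h5 ih
    convert this using 1
    rw [rec2 T]
    push_cast
    linear_combination (-(n : B) - 1) * t g * h2

/-- **Clifford step** -/
theorem clf [IsDomain B] [CharP B 2] (T : TF t 1) {m : Ideal B} (hm : m ≠ ⊤) (ht : ∀ g, t g ∈ m)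
    {U I : Subgroup G} (hU : U.Normal) (hI : I.Normal) (hp : ∀ g : G, ∃ k, 0 < k ∧ g ^ k ∈ U)
    {s : G} (hs : s ∈ I) (hs' : t s ≠ 0) {σ : G} (h0 : ∀ u ∈ U, u ∈ I → t (σ * u) = 0) :
    ∃ H, Dih t H := by
  have two : (2 : B) = 0 := CharTwo.two_eq_zero
  let Ω := AlgebraicClosure (FractionRing B)
  let φ : B →+* Ω := (algebraMap (FractionRing B) Ω).comp (algebraMap B (FractionRing B))
  have hφ : Function.Injective φ :=
    (algebraMap (FractionRing B) Ω).injective.comp (IsFractionRing.injective B _)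
  haveI : CharP Ω 2 := charP_of_injective_ringHom hφ 2
  obtain ⟨k, hk, hu⟩ := hp s
  obtain ⟨c, o, ⟨j, rfl⟩, rfl⟩ := Nat.exists_eq_two_pow_mul_odd hk.ne'
  obtain ⟨u, h1, h3⟩ := odd2 T m (two ▸ m.zero_mem) ht (s ^ 2 ^ c) j
  rw [← pow_mul, sq2 T two] at h3
  obtain ⟨H, h⟩ := clf0 (tf_one T φ) (N := U ⊓ I) inferInstance (σ := σ)
    (fun n hn => by rw [h0 n hn.1 hn.2, map_zero]) ⟨hu, I.pow_mem hs _⟩ (by
      rw [map_ne_zero_iff φ hφ, h3]
      refine mul_ne_zero (pow_ne_zero _ hs') fun e => hm ((Ideal.eq_top_iff_one _).2 ?_)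
      simpa [e] using h1)
  exact ⟨H, h.pull φ hφ⟩

end abs

section ndh
variable {B : Type} [CommRing B] {t : GQ → B}

/-- the kernel modulo `J` -/
def Kr (t : GQ → B) (J : Ideal B) : Subgroup GQ := Kd.N (fun g => Ideal.Quotient.mk J (t g)) 1

theorem mem_Kr {J : Ideal B} {u : GQ} : u ∈ Kr t J ↔ ∀ g, t (g * u) - t g ∈ J := by
  rw [Kr, Kd.mem_N]
  simp only [Ideal.Quotient.eq, MonoidHom.one_apply, and_true]

/-- continuity -/
def Ct (t : GQ → B) (m : Ideal B) : Prop :=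
  ∀ k : ℕ, ∃ U : Subgroup GQ, IsOpen (U : Set GQ) ∧ ∀ u ∈ U, ∀ g, t (g * u) - t g ∈ m ^ k

/-- unramified outside `T` -/
def Ur (t : GQ → B) (T : Finset ℕ) : Prop :=
  ∀ l : ℕ, l.Prime → l ∉ T → ∀ P : Ideal (𝓞 Qb), P.IsPrime → (l : 𝓞 Qb) ∈ P →
    ∀ s, Inert P s → ∀ g, t (g * s) = t g

theorem Ct.opn {m : Ideal B} (h : Ct t m) (k : ℕ) : IsOpen (Kr t (m ^ k) : Set GQ) := by
  obtain ⟨U, hU, h⟩ := h k
  exact Subgroup.isOpen_mono (fun u hu => mem_Kr.2 (h u hu)) hU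

variable [IsLocalRing B] [IsNoetherianRing B] [IsAdicComplete (maximalIdeal B) B] [IsDomain B]
  [CharP B 2]

/-- **the traces of a dihedral trace function lie in a principal ideal modulo `𝔪²`** -/
theorem ndh (T : TF t 1) (h1 : ∀ g, t g ∈ maximalIdeal B)
    [Finite (B ⧸ maximalIdeal B)] (hc : Ct t (maximalIdeal B)) {S : Finset ℕ} (hu : Ur t S)
    {H : Subgroup GQ} (hD : Dih t H) :
    ∃ a ∈ maximalIdeal B, ∀ g, t g ∈ Ideal.span {a} ⊔ maximalIdeal B ^ 2 := by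
  classical
  haveI : Fact (Nat.Prime 2) := ⟨Nat.prime_two⟩
  haveI := H916.isGalois_Qb
  have two : (2 : B) = 0 := CharTwo.two_eq_zero
  have ho : IsOpen (H : Set GQ) := by
    obtain ⟨n, hn, h⟩ := hD.reg
    obtain ⟨k, hk⟩ : ∃ k : ℕ, t n ∉ maximalIdeal B ^ k := by
      by_contra e
      push Not at e
      exact h (P022D.Good.closed_of_noeth ⊥ _ fun c => Ideal.mem_sup_right (e c))
    refine Subgroup.isOpen_mono (fun u hu' => ?_) (hc.opn k)
    by_contra e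
    have := mem_Kr.1 hu' n
    rw [hD.off _ (fun k => e ((H.mul_mem_cancel_left hn).1 k)), zero_sub, neg_mem_iff] at this
    exact hk this
  obtain ⟨s0, hs0⟩ := hD.ne
  obtain ⟨K, _, _, j, hK, rfl, hτ⟩ := Nd.quad H ho (by
    rw [Subgroup.index_eq_two_iff]
    refine ⟨s0, fun b => ?_⟩
    by_cases hb : b ∈ H
    · exact Or.inr ⟨hb, fun e => hs0 (by simpa using H.mul_mem (H.inv_mem hb) e)⟩
    · exact Or.inl ⟨hD.idx _ _ hb hs0, hb⟩)
  obtain ⟨C, hC, hanti⟩ := anti hK j ⟨s0, hs0, hτ s0⟩ (M := ∏ p ∈ S.filter Odd, p)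
    (Finset.prod_induction _ Odd (fun _ _ => Odd.mul) odd_one
      fun p hp => (Finset.mem_filter.1 hp).2)
  obtain ⟨c, o, hodd, e⟩ := Nat.exists_eq_two_pow_mul_odd hC.ne'
  obtain ⟨k, hk⟩ := Alg.frob (B := B) c
  have Tk := tf_one T (Ideal.Quotient.mk (maximalIdeal B ^ k))
  haveI : (Kr t (maximalIdeal B ^ k)).Normal := Kd.N_normal Tk
  haveI : Finite (GQ ⧸ Kr t (maximalIdeal B ^ k)) :=
    Subgroup.quotient_finite_of_isOpen _ (hc.opn k)
  let Φ0 : GK j →* GQ ⧸ Kr t (maximalIdeal B ^ k) := (QuotientGroup.mk' _).comp (GK j).subtype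
  have k0 : ∀ g, Φ0 g = 1 ↔ (g : GQ) ∈ Kr t (maximalIdeal B ^ k) := fun g =>
    QuotientGroup.eq_one_iff _
  letI : CommGroup Φ0.range := { (inferInstance : Group Φ0.range) with
    mul_comm := by
      rintro ⟨_, g, rfl⟩ ⟨_, h, rfl⟩
      refine Subtype.ext ?_
      show Φ0 g * Φ0 h = Φ0 h * Φ0 g
      rw [← map_mul, ← map_mul, ← inv_mul_eq_one, ← map_inv, ← map_mul, k0, mem_Kr]
      intro z
      have := hD.com g g.2 h h.2 (z * ((g : GQ) * h)⁻¹)
      rw [inv_mul_cancel_right, mul_assoc] at this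
      rw [Subgroup.coe_mul, Subgroup.coe_inv, Subgroup.coe_mul, Subgroup.coe_mul, ← this, sub_self]
      exact zero_mem _ }
  let Φ : GK j →* Multiplicative (Additive Φ0.range) :=
    (MulEquiv.multiplicativeAdditive Φ0.range).symm.toMonoidHom.comp Φ0.rangeRestrict
  have k1 : ∀ g, Φ g = 1 ↔ (g : GQ) ∈ Kr t (maximalIdeal B ^ k) := fun g => by
    rw [← k0]
    exact Subtype.ext_iff
  have t2 : ∀ g, Φ g ^ 2 ^ k = 1 := fun g => by
    rw [← map_pow, k1]
    refine Kd.pow_mem Tk ((maximalIdeal B).map (Ideal.Quotient.mk _)) ?_ ?_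
      (Ideal.mem_map_of_mem _ (h1 g)) (by simp)
    · rw [← Ideal.map_pow, Ideal.map_quotient_self]
    · rw [← map_ofNat (Ideal.Quotient.mk _) 2, two, map_zero]; exact zero_mem _
  have sj : ∀ x : Additive Φ0.range, ∃ g, (Φ g).toAdd = x := fun x => by
    obtain ⟨g, hg⟩ := Φ0.rangeRestrict_surjective (Additive.toMul x)
    exact ⟨g, congrArg Additive.ofMul hg⟩
  have t3 : ∀ x : Additive Φ0.range, 2 ^ k • x = 0 := fun x => by
    obtain ⟨g, rfl⟩ := sj x
    rw [← toAdd_pow, t2]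
    rfl
  obtain ⟨w, hw⟩ := hanti (Additive Φ0.range) Φ (fun x => ⟨k, t3 x⟩)
    (Subgroup.isOpen_mono (H₁ := (Kr t (maximalIdeal B ^ k)).subgroupOf (GK j))
      (fun g hg => (k1 g).2 hg) ((hc.opn k).preimage continuous_subtype_val))
    (fun p hp hd P hP hpP g hg => by
      rw [k1, mem_Kr]
      intro z
      rw [hu p hp (fun hT => hd ?_) P hP hpP g hg, sub_self]
      · exact zero_mem _
      · rcases hp.eq_two_or_odd' with rfl | h3
        · exact dvd_mul_right _ _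
        · exact (Finset.dvd_prod_of_mem (fun p => p) (Finset.mem_filter.2 ⟨hT, h3⟩)).mul_left 2)
    (fun s hs g g' e => by
      rw [eq_inv_iff_mul_eq_one, ← map_mul, k1, mem_Kr]
      intro z
      rw [Subgroup.coe_mul, e, hD.ant s hs g g.2, sub_self]
      exact zero_mem _)
  have one : ∀ (g g' : GK j) (n : ℕ), C • (Φ g).toAdd = n • C • (Φ g').toAdd →
      t g - t (g' ^ n) ∈ maximalIdeal B ^ 2 := by
    intro g g' n h
    have h2 : Φ (((g' ^ n) ^ 2 ^ c)⁻¹ * g ^ 2 ^ c) ^ o = 1 := by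
      rw [map_mul, map_inv, mul_pow, inv_pow, inv_mul_eq_one, map_pow, map_pow, map_pow,
        ← pow_mul, ← pow_mul _ _ o, ← e]
      apply Multiplicative.toAdd.injective
      rw [toAdd_pow, toAdd_pow, toAdd_pow, h, smul_comm]
    have h3 : Φ (((g' ^ n) ^ 2 ^ c)⁻¹ * g ^ 2 ^ c) = 1 := by
      have := pow_gcd_eq_one.2 ⟨h2, t2 _⟩
      rwa [(Nat.coprime_two_right.2 hodd).pow_right k, pow_one] at this
    have h4 := mem_Kr.1 ((k1 _).1 h3) (((g' : GQ) ^ n) ^ 2 ^ c)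
    simp only [Subgroup.coe_mul, Subgroup.coe_inv, Subgroup.coe_pow, mul_inv_cancel_left] at h4
    rw [sq2 T two, sq2 T two, ← sub_pow_char_pow] at h4
    exact hk _ h4
  have cmp : ∀ g g' : GK j, (∃ n : ℕ, t g - t (g' ^ n) ∈ maximalIdeal B ^ 2) ∨
      ∃ n : ℕ, t g' - t (g ^ n) ∈ maximalIdeal B ^ 2 := fun g g' => by
    obtain ⟨a, h⟩ := hw g
    obtain ⟨a', h'⟩ := hw g'
    rcases Cy.cmp (t3 w) a a' with ⟨n, hn⟩ | ⟨n, hn⟩
    · exact Or.inl ⟨n, one g g' n (by rw [h, h', hn])⟩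
    · exact Or.inr ⟨n, one g' g n (by rw [h, h', hn])⟩
  by_cases h0 : ∀ g, t g ∈ maximalIdeal B ^ 2
  · exact ⟨0, zero_mem _, fun g => Ideal.mem_sup_right (h0 g)⟩
  push Not at h0
  obtain ⟨g1, hg1⟩ := h0
  have m1 : g1 ∈ GK j := by
    by_contra e
    exact hg1 (by rw [hD.off _ e]; exact zero_mem _)
  refine ⟨t g1, h1 g1, fun g => ?_⟩
  by_cases hg : g ∈ GK j
  swap
  · rw [hD.off g hg]; exact zero_mem _
  rcases cmp ⟨g, hg⟩ ⟨g1, m1⟩ with ⟨n, hn⟩ | ⟨n, hn⟩
  · have := Ideal.add_mem (Ideal.span {t g1} ⊔ maximalIdeal B ^ 2)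
      (Ideal.mem_sup_left (Ideal.mul_mem_left _ (n : B) (Ideal.mem_span_singleton_self _)))
      (Ideal.mem_sup_right (Ideal.add_mem _ hn (lin T two _ h1 g1 n)))
    convert this using 1
    ring
  · have h6 := Ideal.add_mem _ hn (lin T two _ h1 g n)
    rw [sub_add_sub_cancel, CharP.cast_eq_mod B 2 n] at h6
    rcases Nat.mod_two_eq_zero_or_one n with h7 | h7
    · rw [h7, Nat.cast_zero, zero_mul, sub_zero] at h6
      exact absurd h6 hg1
    · rw [h7, Nat.cast_one, one_mul] at h6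
      have := Ideal.sub_mem (Ideal.span {t g1} ⊔ maximalIdeal B ^ 2)
        (Ideal.mem_sup_left (Ideal.mem_span_singleton_self _)) (Ideal.mem_sup_right h6)
      rwa [sub_sub_cancel] at this

/-- **one surface** -/
theorem one (T : TF t 1) (h1 : ∀ g, t g ∈ maximalIdeal B)
    [Finite (B ⧸ maximalIdeal B)] (hc : Ct t (maximalIdeal B)) {S : Finset ℕ} (hu : Ur t S)
    (hg : maximalIdeal B ≤ Ideal.span (Set.range t) ⊔ maximalIdeal B ^ 2)
    (hd : (2 : WithBot ℕ∞) ≤ ringKrullDim B) {s : GQ} (hs : s ∈ Ginf) (hs' : t s ≠ 0)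
    {U : Subgroup GQ} (hU : IsOpen (U : Set GQ)) (hn : U.Normal) (σ : GQ) :
    ∃ u ∈ U, u ∈ Ginf ∧ t (σ * u) ≠ 0 := by
  by_contra e
  push Not at e
  obtain ⟨H, hD⟩ := clf T (maximalIdeal.isMaximal B).ne_top h1 hn P022D.Good.ginf_normal
    (P022D.Good.pow_mem_open hU hn) hs hs' e
  obtain ⟨a, ha, h⟩ := ndh T h1 hc hu hD
  have := hd.trans (Alg.dim_le ha (hg.trans (sup_le (Ideal.span_le.2 (by
    rintro _ ⟨g, rfl⟩; exact h g)) le_sup_right)))
  exact absurd this (by decide)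

end ndh

section avoid
variable {A : Type} [CommRing A] [IsLocalRing A] [IsNoetherianRing A]

/-- a surface: the hypotheses on a prime `E` of `A` -/
structure Sf (t : GQ → A) (S : Finset ℕ) (E : Ideal A) : Prop where
  pr : E.IsPrime
  two : (2 : A) ∈ E
  tf : TF (fun g => Ideal.Quotient.mk E (t g)) 1
  mem : ∀ g, t g ∈ maximalIdeal A
  ct : ∀ k : ℕ, ∃ U : Subgroup GQ, IsOpen (U : Set GQ) ∧
    ∀ u ∈ U, ∀ g, t (g * u) - t g ∈ E ⊔ maximalIdeal A ^ k
  ur : ∀ l : ℕ, l.Prime → l ∉ S → ∀ P : Ideal (𝓞 Qb), P.IsPrime → (l : 𝓞 Qb) ∈ P →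
    ∀ s, Inert P s → ∀ g, t (g * s) - t g ∈ E
  gen : maximalIdeal A ≤ Ideal.span (Set.range t) ⊔ maximalIdeal A ^ 2 ⊔ E
  dim : (2 : WithBot ℕ∞) ≤ ringKrullDim (A ⧸ E)
  irr : ∃ s ∈ Ginf, t s ∉ E

variable {t : GQ → A} {S : Finset ℕ}

theorem Sf.nor {E : Ideal A} (h : Sf t S E) (J : Ideal A) : (Kr t (E ⊔ J)).Normal :=
  Kd.N_normal (tf_one h.tf (Ideal.Quotient.factor le_sup_left))

theorem Sf.opn {E : Ideal A} (h : Sf t S E) (k : ℕ) :
    IsOpen (Kr t (E ⊔ maximalIdeal A ^ k) : Set GQ) := by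
  obtain ⟨U, hU, h⟩ := h.ct k
  exact Subgroup.isOpen_mono (fun u hu => mem_Kr.2 (h u hu)) hU

variable [IsAdicComplete (maximalIdeal A) A] [Finite (ResidueField A)]

theorem Sf.one {E : Ideal A} (h : Sf t S E) {U : Subgroup GQ} (hU : IsOpen (U : Set GQ))
    (hn : U.Normal) (σ : GQ) : ∃ u ∈ U, u ∈ Ginf ∧ t (σ * u) ∉ E := by
  haveI := h.pr
  have sj : Function.Surjective (Ideal.Quotient.mk E) := Ideal.Quotient.mk_surjective
  haveI : Nontrivial (A ⧸ E) := Ideal.Quotient.nontrivial_iff.2 h.pr.ne_top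
  haveI : IsLocalRing (A ⧸ E) := IsLocalRing.of_surjective' _ sj
  haveI := complete_quot E
  haveI : CharP (A ⧸ E) 2 := CharTwo.of_one_ne_zero_of_two_eq_zero one_ne_zero (by
    rw [← map_ofNat (Ideal.Quotient.mk E) 2]
    exact Ideal.Quotient.eq_zero_iff_mem.2 h.two)
  have hm : (maximalIdeal A).map (Ideal.Quotient.mk E) = maximalIdeal (A ⧸ E) :=
    map_maximalIdeal_of_surjective _ sj
  have hE : E.map (Ideal.Quotient.mk E) = ⊥ := Ideal.map_quotient_self E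
  haveI : Finite ((A ⧸ E) ⧸ maximalIdeal (A ⧸ E)) := by
    haveI : Finite (A ⧸ maximalIdeal A) := inferInstanceAs (Finite (ResidueField A))
    refine Finite.of_surjective (Ideal.quotientMap _ (Ideal.Quotient.mk E)
      (Ideal.map_le_iff_le_comap.1 hm.le)) (Ideal.quotientMap_surjective sj)
  obtain ⟨s, hs, hs'⟩ := h.irr
  obtain ⟨u, a, b, c⟩ := Clf.one h.tf (fun g => hm ▸ Ideal.mem_map_of_mem _ (h.mem g))
    (fun k => by
      obtain ⟨V, hV, e⟩ := h.ct k
      refine ⟨V, hV, fun u hu g => ?_⟩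
      have := Ideal.mem_map_of_mem (Ideal.Quotient.mk E) (e u hu g)
      rwa [Ideal.map_sup, hE, bot_sup_eq, Ideal.map_pow, hm, map_sub] at this)
    (S := S) (fun l h1 h2 P h3 h4 s h5 g => Ideal.Quotient.eq.2 (h.ur l h1 h2 P h3 h4 s h5 g))
    (by
      have := Ideal.map_mono (f := Ideal.Quotient.mk E) h.gen
      rwa [Ideal.map_sup, hE, sup_bot_eq, Ideal.map_sup, Ideal.map_pow, hm, Ideal.map_span,
        ← Set.range_comp] at this)
    h.dim hs (mt Ideal.Quotient.eq_zero_iff_mem.1 hs') hU hn σ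
  exact ⟨u, a, b, mt Ideal.Quotient.eq_zero_iff_mem.2 c⟩

/-- **finitely many surfaces** -/
theorem avoid (s : Finset (Ideal A)) (hs : ∀ E ∈ s, Sf t S E) {U : Subgroup GQ}
    (hU : IsOpen (U : Set GQ)) (hn : U.Normal) (σ : GQ) :
    ∃ u ∈ U, u ∈ Ginf ∧ ∃ V : Subgroup GQ, IsOpen (V : Set GQ) ∧ V.Normal ∧ V ≤ U ∧ ∃ c : ℕ,
      ∀ E ∈ s, V ≤ Kr t (E ⊔ maximalIdeal A ^ c) ∧ t (σ * u) ∉ E ⊔ maximalIdeal A ^ c := by
  classical
  have fin : ∀ (s : Finset (Ideal A)), (∀ E ∈ s, Sf t S E) → ∀ g, (∀ E ∈ s, t g ∉ E) →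
      ∃ V : Subgroup GQ, IsOpen (V : Set GQ) ∧ V.Normal ∧ V ≤ U ∧ ∃ c : ℕ,
        ∀ E ∈ s, V ≤ Kr t (E ⊔ maximalIdeal A ^ c) ∧ t g ∉ E ⊔ maximalIdeal A ^ c := by
    intro s hs g hg
    obtain ⟨c, -, hc⟩ := P022D.Good.exists_c (maximalIdeal A) s
      (fun p _ => P022D.Good.closed_of_noeth p) _ hg
    obtain ⟨V, a, b, d, e⟩ : ∃ V : Subgroup GQ, IsOpen (V : Set GQ) ∧ V.Normal ∧ V ≤ U ∧
        ∀ E ∈ s, V ≤ Kr t (E ⊔ maximalIdeal A ^ c) := by
      clear hg hc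
      induction s using Finset.induction_on with
      | empty => exact ⟨U, hU, hn, le_rfl, by simp⟩
      | insert p s _ ih =>
        obtain ⟨V, a, b, d, e⟩ := ih fun E h => hs E (Finset.mem_insert_of_mem h)
        have k := hs p (Finset.mem_insert_self _ _)
        haveI := k.nor (maximalIdeal A ^ c)
        refine ⟨V ⊓ Kr t (p ⊔ maximalIdeal A ^ c), a.inter (k.opn c), inferInstance,
          inf_le_left.trans d, fun E h => ?_⟩
        rcases Finset.mem_insert.1 h with rfl | h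
        · exact inf_le_right
        · exact inf_le_left.trans (e E h)
    exact ⟨V, a, b, d, c, fun E h => ⟨e E h, hc E h⟩⟩
  induction s using Finset.induction_on with
  | empty => exact ⟨1, U.one_mem, Ginf.one_mem, U, hU, hn, le_rfl, 0, by simp⟩
  | insert p s _ ih =>
    obtain ⟨u, hu, hu', V, a, b, d, c, e⟩ := ih fun E h => hs E (Finset.mem_insert_of_mem h)
    obtain ⟨v, hv, hv', h'⟩ := (hs p (Finset.mem_insert_self _ _)).one a b (σ * u)
    refine ⟨u * v, U.mul_mem hu (d hv), Ginf.mul_mem hu' hv', fin _ hs _ fun E h => ?_⟩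
    rw [← mul_assoc]
    rcases Finset.mem_insert.1 h with rfl | h
    · exact h'
    · refine fun k => (e E h).2 ?_
      have := Ideal.sub_mem _ (Ideal.mem_sup_left k) (mem_Kr.1 ((e E h).1 hv) (σ * u))
      rwa [sub_sub_cancel] at this

/-- **output**: the traces of all elements near an odd power of `σ u` avoid the surfaces -/
theorem good (s : Finset (Ideal A)) (hs : ∀ E ∈ s, Sf t S E) {U : Subgroup GQ}
    (hU : IsOpen (U : Set GQ)) (hn : U.Normal) (σ : GQ) :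
    ∃ u ∈ U, u ∈ Ginf ∧ ∃ (c : ℕ) (V : Subgroup GQ), IsOpen (V : Set GQ) ∧ V.Normal ∧ V ≤ U ∧
      ∀ (k : ℕ) (φ : GQ), Odd k → φ⁻¹ * (σ * u) ^ k ∈ V → ∀ E ∈ s,
        t φ ∉ E ⊔ maximalIdeal A ^ c := by
  obtain ⟨u, h1, h2, V, a, b, d, c, e⟩ := avoid s hs hU hn σ
  refine ⟨u, h1, h2, c, V, a, b, d, ?_⟩
  rintro _ φ ⟨j, rfl⟩ hφ E hE k
  have h := hs E hE
  have k1 := Ideal.add_mem _ (mem_Kr.1 ((e E hE).1 hφ) φ) k
  rw [sub_add_cancel, mul_inv_cancel_left] at k1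
  have hle : E ≤ maximalIdeal A := le_maximalIdeal h.pr.ne_top
  obtain ⟨w, w1, w2⟩ := odd2 h.tf ((maximalIdeal A).map (Ideal.Quotient.mk E))
    (by rw [← map_ofNat (Ideal.Quotient.mk E) 2]; exact Ideal.mem_map_of_mem _ (hle h.two))
    (fun g => Ideal.mem_map_of_mem _ (h.mem g)) (σ * u) j
  obtain ⟨w, rfl⟩ := Ideal.Quotient.mk_surjective w
  rw [← map_one (Ideal.Quotient.mk E), ← map_sub, Ideal.mem_quotient_iff_mem hle] at w1
  rw [← map_mul, Ideal.Quotient.eq] at w2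
  have hw : IsUnit w := notMem_maximalIdeal.1 fun k2 => (maximalIdeal.isMaximal A).ne_top
    ((Ideal.eq_top_iff_one _).2 (by simpa using Ideal.sub_mem _ k2 w1))
  have k3 := Ideal.sub_mem _ k1 (Ideal.mem_sup_left w2)
  rw [sub_sub_cancel, Ideal.mul_unit_mem_iff_mem _ hw] at k3
  exact (e E hE).2 k3

end avoid

end Vale.Agent.P022S.Clf
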