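import Vale.Agent.P022S.Loc.Det
import Vale.Agent.P022S.Mod.Gw
import Vale.Agent.P022S.Sel.Defs
import Vale.Agent.P022G.Defs
import Vale.Agent.P022G.Word
import Vale.Agent.P022G.Theta

/-!
# P022S: the rings of the Galois side (definitions)
-/

set_option linter.all false

noncomputable section

namespace Vale.Agent.P022S

open NumberField IsLocalRing MvPowerSeries
open Vale.Agent.P022 Vale.Agent.P022.H346 Vale.Agent.P022S.R Vale.Agent.P022S.Loc
open Vale.Agent.P027M.S (Inert mx)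
open Vale.Agent.P022D.Sel (M2 IsDec Ginf)
open Vale.Agent.P022D.Core (PS)
open Vale.Agent.P022E.Loc (Pl)
open Vale.Agent.P022E.GW (Ov Gn)
open Vale.Agent.P022E.As (Tg cc tt dd yy)
open Vale.Agent.P022G (Hm KI)
open Vale.Agent.P022G.Word (wd)
open Vale.Agent.P022S.Mod (Gen2)

section alg
variable {O : Type} [CommRing O] {m : ℕ}

/-- the names of the invariant symbols: traces of increasing words and determinants -/
abbrev Sy (m : ℕ) : Type := Finset (Fin m) ⊕ Fin m

/-- the product along an increasing word -/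
def wm {B : Type} [CommRing B] (Z : Fin m → M2 B) (s : Finset (Fin m)) : M2 B :=
  ((s.sort (· ≤ ·)).map Z).prod

/-- the values of the invariant symbols, centred at the constants `rc` -/
def gv (rc : Fin m → M2 O) {B : Type} [CommRing B] (j : O →+* B) (t : Finset (Fin m) → B)
    (d : Fin m → B) : Sy m → B :=
  Sum.elim (fun s => t s - j (wm rc s).trace) fun i => d i - j (rc i).det

/-- the values of the invariant symbols on matrices -/
def sv (rc : Fin m → M2 O) {B : Type} [CommRing B] (j : O →+* B) (Z : Fin m → M2 B) : Sy m → B :=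
  gv rc j (fun s => (wm Z s).trace) fun i => (Z i).det

/-- the values of the entries -/
def bv (rc : Fin m → M2 O) {B : Type} [CommRing B] (j : O →+* B) (Z : Fin m → M2 B) :
    Fin m × Fin 2 × Fin 2 → B := fun p => Z p.1 p.2.1 p.2.2 - j (rc p.1 p.2.1 p.2.2)

/-- the symbols as elements of any power series ring which contains their names -/
def tS (rc : Fin m → M2 O) {σ : Type} (e : Sy m → σ) (s : Finset (Fin m)) : PS O σ :=
  C (wm rc s).trace + X (e (Sum.inl s))

def dS (rc : Fin m → M2 O) {σ : Type} (e : Sy m → σ) (i : Fin m) : PS O σ :=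
  C (rc i).det + X (e (Sum.inr i))

/-- the generator `i` acts trivially -/
def tauP (rc : Fin m → M2 O) {σ : Type} (e : Sy m → σ) (i : Fin m) : Set (PS O σ) :=
  {dS rc e i - 1} ∪ Set.range fun s => tS rc e (insert i s) - tS rc e (s.erase i)

/-- the trace of a generator -/
def trS (rc : Fin m → M2 O) {σ : Type} (e : Sy m → σ) (i : Fin m) : PS O σ := tS rc e {i}

/-- the trace of a product of two different generators -/
def tr2 (rc : Fin m → M2 O) {σ : Type} (e : Sy m → σ) (i k : Fin m) : PS O σ := tS rc e {i, k}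

/-- the determinant of the commutator of two different generators -/
def dlS (rc : Fin m → M2 O) {σ : Type} (e : Sy m → σ) (i k : Fin m) : PS O σ :=
  _root_.P022G.Th.dl (trS rc e i) (trS rc e k) (tr2 rc e i k) (dS rc e i) (dS rc e k)

/-- the equations of the type `J` -/
def IPt (rc : Fin m → M2 O) {σ : Type} (e : Sy m → σ) {Γ : Type} (iτ iφ : Γ → Fin m)
    (J : Finset Γ) : Ideal (PS O σ) :=
  Ideal.span {u | (∃ l ∈ J, u = trS rc e (iτ l) ∨ u = trS rc e (iφ l) ∨
    u = tr2 rc e (iτ l) (iφ l)) ∨ ∃ l, l ∉ J ∧ u ∈ tauP rc e (iτ l)}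

/-- the relations of all trace functions on the free group -/
def aF (rc : Fin m → M2 O) {σ : Type} (e : Sy m → σ) : Ideal (PS O σ) :=
  KI fun B _ j v => Finite B ∧ ∃ (t : FreeGroup (Fin m) → B) (d : FreeGroup (Fin m) →* Bˣ),
    TF t d ∧ ∀ z, v (e z) = gv rc j (fun s => t (wd FreeGroup.of s))
      (fun i => d (FreeGroup.of i)) z

end alg

variable {O F : Type} [CommRing O] [Field F]

/-- a pseudo object: a trace function over a finite local ring -/
structure PO (S : Dat O F) (B : Type) [CommRing B] where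
  ι : O →+* B
  π : B →+* F
  t : GQ → B
  d : GQ →* Bˣ
  fin : Finite B
  loc : ∀ u, π u ≠ 0 → IsUnit u
  alg : ∀ c, π (ι c) = S.red c
  tf : TF t d
  rt : ∀ g, π (t g) = 0
  rd : ∀ g, π (d g) = 1
  opn : ∃ U : Subgroup GQ, IsOpen (U : Set GQ) ∧ ∀ u ∈ U, (∀ g, t (g * u) = t g) ∧ d u = 1

/-- the class of level `Q`, in terms of traces and determinants -/
structure PO.Cl {S : Dat O F} {B : Type} [CommRing B] (Z : PO S B) (L : Pl O) (Q : Finset ℕ) :
    Prop where
  d2 : ∀ g ∈ P022D.W.dec (L.P 2), (Z.d g : B) = Z.ι (L.r g).det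
  dc : (Z.d L.c : B) = -1
  dl : ∀ l ∈ L.W ∪ L.C, (Z.d (L.τ l) : B) = Z.ι (L.r (L.τ l)).det
  unr : ∀ l : ℕ, l.Prime → l ∉ S.T → l ∉ Q → ∀ P : Ideal (𝓞 Qb), P.IsPrime → (l : 𝓞 Qb) ∈ P →
    ∀ s, Inert P s → (∀ g, Z.t (g * s) = Z.t g) ∧ Z.d s = 1

/-- the values of the symbols on a pseudo object -/
def PO.val {S : Dat O F} {B : Type} [CommRing B] (Z : PO S B) {m : ℕ} (rc : Fin m → M2 O)
    (γ : Fin m → GQ) : Sy m → B :=
  gv rc Z.ι (fun s => Z.t (wd γ s)) fun i => Z.d (γ i)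

/-- `u` presents the pseudo object as a quotient of the ring of symbols `Tg` -/
structure PO.Std {S : Dat O F} {B : Type} [CommRing B] (Z : PO S B) (u : Tg O →+* B) : Prop where
  c : ∀ o, u (cc o) = Z.ι o
  t : ∀ g, u (tt g) = Z.t g
  d : ∀ g, u (dd g) = Z.d g

/-- generators, with names for the special elements; `κ` indexes the block coordinates; `ix`, `ic`,
`iτ` are a minimal family of generators, and the products of two of these occur -/
structure Gs (S : Dat O F) (L : Pl O) {κ : Type} (gk : κ → GQ) (n : ℕ) where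
  γ : Fin n → GQ
  ix : Fin n
  ic : Fin n
  iτ : L.C → Fin n
  iφ : L.C → Fin n
  iK : κ → Fin n
  hc : γ ic = L.c
  hτ : ∀ l, γ (iτ l) = L.τ l
  hφ : ∀ l, γ (iφ l) = L.φ l
  hK : ∀ t, γ (iK t) = gk t
  inj : Function.Injective (Sum.elim ![ix, ic] (Sum.elim iτ iφ))
  pr : ∀ a b : Fin 2 ⊕ L.C, ∃ z, z ∉ Set.range (Sum.elim ![ix, ic] iτ) ∧
    γ z = γ (Sum.elim ![ix, ic] iτ a) * γ (Sum.elim ![ix, ic] iτ b)
  gen0 : Gen2 S.T ∅ fun a : Fin 2 ⊕ L.C => γ (Sum.elim ![ix, ic] iτ a)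
  gen1 : Gen2 S.T ∅ γ
  gen : ∀ (r : ℕ) (q : Fin r → ℕ) (τ' : Fin r → GQ),
    (∀ i, q i ∉ S.T ∧ ∃ P, Ov (q i) P ∧ Gn (q i) P (τ' i)) →
    Gen2 S.T (Finset.univ.image q) (Fin.append γ τ')

section rings
variable {S : Dat O F} {L : Pl O} {κ : Type} {gk : κ → GQ} {n : ℕ} (G : Gs S L gk n)

/-- the constants of level zero -/
def Gs.rc (i : Fin n) : M2 O := L.r (G.γ i)

/-- the constants with `r` auxiliary generators -/
def Gs.rcr (r : ℕ) : Fin (n + r) → M2 O := Fin.append G.rc fun _ => 1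

/-- the relations of the pseudo objects of level zero, in `A = PS O (Sy n)` -/
def Gs.aP : Ideal (PS O (Sy n)) :=
  KI fun B _ j v => ∃ Z : PO S B, Z.Cl L ∅ ∧ j = Z.ι ∧ v = Z.val G.rc G.γ

/-- the annihilator in `A` of a module over the symbols -/
def Gs.An (Y : Type) [AddCommGroup Y] [Module (Tg O) Y] : Ideal (PS O (Sy n)) :=
  KI fun B _ j v => ∃ (w : Y) (Z : PO S B) (u : Tg O →+* B), Z.Std u ∧
    RingHom.ker u = Ideal.torsionOf (Tg O) Y w ∧ j = Z.ι ∧ v = Z.val G.rc G.γ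

/-- the ideal of the type `J` in characteristic two -/
def Gs.IT (ϖ : O) (J : Finset L.C) : Ideal (PS O (Sy n)) :=
  G.aP ⊔ Ideal.span {C ϖ} ⊔ IPt G.rc id G.iτ G.iφ J

/-- the trace of the Frobenius element -/
def Gs.fr (a : L.C) : PS O (Sy n) := trS G.rc id (G.iφ a)

/-- the prime is irreducible -/
def Gs.Irr (E : Ideal (PS O (Sy n))) : Prop := ∃ i k, i ≠ k ∧ dlS G.rc id i k ∉ E

/-- a framed point with values in a discrete valuation ring of characteristic two -/
structure Gs.Crv {V : Type} [CommRing V] (t : V) (j : O →+* V) (ρ : GQ →* GL (Fin 2) V)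
    (θ : PS O (Sy n) →+* V) : Prop where
  hm : Hm j (sv G.rc j fun i => (ρ (G.γ i) : M2 V)) θ
  res : ∀ g a b, t ∣ (ρ g : M2 V) a b - j (L.r g a b)
  lv : ∀ N, _root_.P022G.Sel.Lv (_root_.P022G.Sel.rd (_root_.P022G.Sel.tI t N) ρ) S.T L.D
  det : ∀ g, (ρ g : M2 V).det = 1
  fth : ∀ g, (∀ z, (ρ (z * g) : M2 V).trace = (ρ z : M2 V).trace) → ρ g = 1

end rings

section framed
variable {S : Dat O F} {L : Pl O} {β : Type} {τ ι' : β → Type} (K : Kx O β τ ι' L.C) {n : ℕ}
  (G : Gs S L K.g n) (r : ℕ)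

/-- the names of the variables of the framed ring outside the blocks -/
abbrev Rs (m : ℕ) (T : Finset ℕ) : Type := Sy m ⊕ (Fin m × Fin 2 × Fin 2) ⊕ (T × Fin 2 × Fin 2)

/-- the names of all variables of the framed ring `S₀` -/
abbrev V0 (τ : β → Type) (L : Pl O) (n : ℕ) (T : Finset ℕ) (r : ℕ) : Type :=
  Ix τ L ⊕ Rs (n + r) T

/-- the symbols inside the variables of `S₀` -/
def e0 : Sy (n + r) ↪ V0 τ L n S.T r :=
  Function.Embedding.inl.trans Function.Embedding.inr

/-- the universal matrices in `S₀` -/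
def ZS (i : Fin (n + r)) : M2 (PS O (V0 τ L n S.T r)) :=
  Matrix.of fun a b => C (G.rcr r i a b) + X (Sum.inr (Sum.inr (Sum.inl (i, a, b))))

/-- the universal frames in `S₀` -/
def αS (τ : β → Type) (L : Pl O) (n : ℕ) (T : Finset ℕ) (r l : ℕ) :
    M2 (PS O (V0 τ L n T r)) :=
  if h : l ∈ T then 1 + Matrix.of fun a b => X (Sum.inr (Sum.inr (Sum.inr (⟨l, h⟩, a, b))))
  else 1

/-- the universal local matrices -/
def lS (l : ℕ) (i : Fin n) : M2 (PS O (V0 τ L n S.T r)) :=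
  (αS τ L n S.T r l)⁻¹ * ZS K G r (Fin.castAdd r i) * αS τ L n S.T r l

/-- the block coordinates as functions of the entries -/
def κS : Ix τ L → PS O (V0 τ L n S.T r) :=
  K.val C (fun t => lS K G r (K.l t) (G.iK t)) (fun γ => lS K G r γ (G.iφ γ))
    fun γ => lS K G r γ (G.iτ γ)

/-- the tautological relations in `S₀` -/
def t0 : Ideal (PS O (V0 τ L n S.T r)) :=
  Ideal.span (Set.range (fun s => tS (G.rcr r) (e0 r) s - (wm (ZS K G r) s).trace) ∪
    Set.range (fun i => dS (G.rcr r) (e0 r) i - (ZS K G r i).det) ∪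
    Set.range (fun i => X (Sum.inl i) - κS K G r i) ∪
    Set.range fun p : Fin 2 × Fin 2 => (αS τ L n S.T r S.l0 - 1) p.1 p.2)

/-- the values of all variables of `S₀` on matrices and frames `α`, `α'` -/
def v0 {B : Type} [CommRing B] (j : O →+* B) (ρ : GQ → M2 B) (α α' : ℕ → M2 B)
    (τ' : Fin r → GQ) : V0 τ L n S.T r → B :=
  Sum.elim (K.val j (fun t => α' (K.l t) * ρ (K.g t) * α (K.l t))
      (fun γ => α' γ * ρ (L.φ γ) * α γ) fun γ => α' γ * ρ (L.τ γ) * α γ)
    (Sum.elim (sv (G.rcr r) j fun i => ρ (Fin.append G.γ τ' i))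
      (Sum.elim (bv (G.rcr r) j fun i => ρ (Fin.append G.γ τ' i))
        fun p => (α p.1 - 1) p.2.1 p.2.2))

/-- the relations of the framed objects of level `q` -/
def Kn (q : Fin r → ℕ) (τ' : Fin r → GQ) : Ideal (PS O (V0 τ L n S.T r)) :=
  KI fun B _ j v => ∃ X : Obj S B, Ty (ClG L S) (Finset.univ.image q) B X ∧ j = X.ι ∧
    v = v0 K G r X.ι X.ρ X.α X.β τ'

/-- the framed curve: all frames are trivial, the auxiliary generators act trivially -/
def Cf {V : Type} [CommRing V] (j : O →+* V) (ρ : GQ →* GL (Fin 2) V)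
    (θ : PS O (V0 τ L n S.T r) →+* V) : Prop :=
  Hm j (v0 K G r j (fun g => (ρ g : M2 V)) (fun _ => 1) (fun _ => 1) fun _ => 1) θ

end framed

/-- the fixed data of the Galois side; `X` is the set of auxiliary primes, `as` a special one -/
structure Cx [IsLocalRing O] (S : Dat O F) (L : Pl O) (X : Finset ℕ) (as : ℕ) : Prop where
  ok : OkG L S
  rb1 : ∀ g, S.rb g = 1
  W0 : L.W = ∅
  irr : ∃ g h, (L.r g * L.r h - L.r h * L.r g).det ≠ 0
  unr : ∀ l : ℕ, l.Prime → (l ∉ S.T ∨ l ∈ X) → ∀ P : Ideal (𝓞 Qb), P.IsPrime →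
    (l : 𝓞 Qb) ∈ P → ∀ s, Inert P s → L.r s = 1
  sub : X ⊆ L.C
  big : (L.C \ X).card + 2 ≤ X.card
  one : ∀ a ∈ X, a % 8 = 1
  mem : as ∈ X
  mv1 : ∃ z : Qb, z ^ 4 = 2 ∧ L.φ as z ≠ z
  mv2 : ∃ z : Qb, z ^ 8 = -4 ∧ L.φ as z ≠ z

end Vale.Agent.P022S
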