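import Vale.Agent.P022G.Conn.Fam
import Vale.Agent.P022D.NR.Ev
import Vale.Agent.P022D.CA.Pow
import Vale.Agent.P022D.CA.Cpl

/-! # P022S: the dimension of the ring of traces of generic matrices -/

set_option linter.all false

noncomputable section

namespace Vale.Agent.P022S.Dim

open IsLocalRing MvPowerSeries Vale.Agent.P022D.CA

abbrev M2 (B : Type) : Type := Matrix (Fin 2) (Fin 2) B

abbrev Ix (ι : Type) : Type := ι × Fin 2 × Fin 2

/-- the matrices with given entries -/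
def mat {ι B : Type} (v : Ix ι → B) (i : ι) : M2 B := Matrix.of fun a b => v (i, a, b)

/-- the generic matrices -/
abbrev gx (R ι : Type) [CommRing R] (i : ι) : M2 (MvPowerSeries (Ix ι) R) := mat X i

/-- minus the determinant of the commutator -/
def dl {B : Type} [CommRing B] (x y : M2 B) : B :=
  (x * y).trace ^ 2 - x.trace * y.trace * (x * y).trace + x.det * y.trace ^ 2 +
    y.det * x.trace ^ 2 - 4 * x.det * y.det

section
variable {F ι : Type} [Field F] [Fintype ι]

theorem ex_sub {τ : Type} [Fintype τ] (v : Ix ι → MvPowerSeries τ F)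
    (hv : ∀ s, v s ∈ maximalIdeal (MvPowerSeries τ F)) :
    ∃ ψ : MvPowerSeries (Ix ι) F →+* MvPowerSeries τ F, (∀ c, ψ (C c) = C c) ∧
      ∀ s, ψ (X s) = v s := by
  haveI := Cpl.isAdicCompleteV (σ := τ) (V := F) inferInstance
  exact P022G.Conn.exists_ev (maximalIdeal _) C v hv

theorem X_mem {τ : Type} (s : τ) : (X s : MvPowerSeries τ F) ∈ maximalIdeal _ :=
  (Cpl.mem_max_iff _).2 (by simp)

open Classical in
theorem ex_kill (S : Set (Ix ι)) :
    ∃ ψ : MvPowerSeries (Ix ι) F →+* MvPowerSeries (Ix ι) F, (∀ c, ψ (C c) = C c) ∧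
      ∀ s, ψ (X s) = if s ∈ S then 0 else X s :=
  ex_sub _ fun s => by
    split_ifs
    exacts [zero_mem _, X_mem s]

/-- kill the variables in `S` -/
def kill (S : Set (Ix ι)) : MvPowerSeries (Ix ι) F →+* MvPowerSeries (Ix ι) F :=
  (ex_kill S).choose

theorem kill_in {S : Set (Ix ι)} {s : Ix ι} (h : s ∈ S) : kill (F := F) S (X s) = 0 := by
  rw [kill, (ex_kill S).choose_spec.2, if_pos h]

theorem kill_out {S : Set (Ix ι)} {s : Ix ι} (h : s ∉ S) : kill (F := F) S (X s) = X s := by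
  rw [kill, (ex_kill S).choose_spec.2, if_neg h]

theorem kill_C (S : Set (Ix ι)) (c : F) : kill S (C c) = C c := (ex_kill S).choose_spec.1 c

theorem comp_kill {τ : Type} [Fintype τ] {S : Set (Ix ι)}
    (ψ : MvPowerSeries (Ix ι) F →+* MvPowerSeries τ F)
    (hm : ∀ s, ψ (X s) ∈ maximalIdeal (MvPowerSeries τ F)) (h : ∀ s ∈ S, ψ (X s) = 0) :
    ψ.comp (kill S) = ψ := by
  haveI := Cpl.isAdicCompleteV (σ := τ) (V := F) inferInstance
  have hx : ∀ s, ψ.comp (kill S) (X s) = ψ (X s) := fun s => by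
    rw [RingHom.comp_apply]
    by_cases hs : s ∈ S
    · rw [kill_in hs, map_zero, h s hs]
    · rw [kill_out hs]
  refine P022D.NR.ev_ext (maximalIdeal _) (fun o => ?_) hx fun s => ?_
  · rw [RingHom.comp_apply, kill_C]
  · rw [hx]; exact hm s

variable {A : Type} [CommRing A] (χ : A →+* MvPowerSeries (Ix ι) F)

/-- the dimension of the image is at least `k` -/
def D (S : Set (Ix ι)) (k : ℕ) : Prop :=
  (k : WithBot ℕ∞) ≤ ringKrullDim (A ⧸ RingHom.ker ((kill S).comp χ))

theorem pr (S : Set (Ix ι)) : (RingHom.ker ((kill S).comp χ)).IsPrime := by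
  haveI : IsDomain (MvPowerSeries (Ix ι) F) := NoZeroDivisors.to_isDomain _
  exact RingHom.ker_isPrime _

theorem d0 (S : Set (Ix ι)) : D χ S 0 := by
  haveI := Ideal.Quotient.nontrivial_iff.2 (pr χ S).ne_top
  simpa [D] using ringKrullDim_nonneg_of_nontrivial

open Classical in
/-- one step of the chain -/
theorem step {S T : Set (Ix ι)} (hST : S ⊆ T) (E : Set (Ix ι)) (hE : ∀ s ∈ S, s ∉ E)
    (f : ∀ (B : Type) [CommRing B], (Ix ι → B) → B)
    (hf : ∃ u, ∀ (B : Type) [CommRing B] (ψ : MvPowerSeries (Ix ι) F →+* B),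
      ψ (χ u) = f B fun s => ψ (X s))
    (h0 : ∀ (B : Type) [CommRing B] (v : Ix ι → B), (∀ s ∈ T, v s = 0) → f B v = 0)
    (h1 : ∃ n : ℕ, ∀ (B : Type) [CommRing B] (t : B), f B (fun s => if s ∈ E then t else 0) = t ^ n)
    {k : ℕ} (h : D χ T k) : D χ S (k + 1) := by
  obtain ⟨u, hu⟩ := hf
  obtain ⟨n, h1⟩ := h1
  refine dimGE_succ (pr χ S) (lt_of_le_of_ne (fun x hx => ?_) fun e => ?_) h
  · rw [RingHom.mem_ker, RingHom.comp_apply] at hx ⊢
    rw [← comp_kill (S := S) (kill T) (fun s => by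
      by_cases hs : s ∈ T
      · rw [kill_in hs]; exact zero_mem _
      · rw [kill_out hs]; exact X_mem s) (fun s hs => kill_in (hST hs)), RingHom.comp_apply, hx,
      map_zero]
  · have h2 : u ∈ RingHom.ker ((kill T).comp χ) := by
      rw [RingHom.mem_ker, RingHom.comp_apply, hu]
      exact h0 _ _ fun s hs => kill_in hs
    rw [← e, RingHom.mem_ker, RingHom.comp_apply] at h2
    obtain ⟨ψ, -, hψ⟩ := ex_sub (F := F) (τ := Unit) (fun s : Ix ι => if s ∈ E then X () else 0)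
      fun s => by
        split_ifs
        exacts [X_mem _, zero_mem _]
    have h3 := hu _ ψ
    rw [← comp_kill (S := S) ψ (fun s => by
      rw [hψ]
      split_ifs
      exacts [X_mem _, zero_mem _]) (fun s hs => by rw [hψ, if_neg (hE s hs)]),
      RingHom.comp_apply, h2, map_zero, comp_kill (S := S) ψ (fun s => by
      rw [hψ]
      split_ifs
      exacts [X_mem _, zero_mem _]) (fun s hs => by rw [hψ, if_neg (hE s hs)]),
      show (fun s => ψ (X s)) = _ from funext hψ, h1] at h3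
    haveI : IsDomain (MvPowerSeries Unit F) := NoZeroDivisors.to_isDomain _
    have h4 := congrArg (coeff (Finsupp.single () 1)) (IsNilpotent.eq_zero ⟨n, h3.symm⟩)
    simp [coeff_X] at h4

end

section
variable {ι : Type} (i j : ι)

open Classical in
/-- the parametrisation of the other matrices by the first two -/
def par {B : Type} [CommRing B] (v : Ix ι → B) (n : ι) : M2 B :=
  if n = i ∨ n = j then mat v n else v (n, 0, 0) • 1 + v (n, 0, 1) • mat v i +
    v (n, 1, 0) • mat v j + v (n, 1, 1) • (mat v i * mat v j)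

variable {i j}

theorem par_i {B : Type} [CommRing B] (v : Ix ι → B) : par i j v i = mat v i := if_pos (Or.inl rfl)

theorem par_j {B : Type} [CommRing B] (v : Ix ι → B) : par i j v j = mat v j := if_pos (Or.inr rfl)

theorem par_n {B : Type} [CommRing B] (v : Ix ι → B) {n : ι} (h1 : n ≠ i) (h2 : n ≠ j) :
    par i j v n = v (n, 0, 0) • 1 + v (n, 0, 1) • mat v i +
      v (n, 1, 0) • mat v j + v (n, 1, 1) • (mat v i * mat v j) := if_neg (not_or.2 ⟨h1, h2⟩)

theorem par_map {B B' : Type} [CommRing B] [CommRing B'] (ψ : B →+* B') (v : Ix ι → B) (n : ι)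
    (a b : Fin 2) : ψ (par i j v n a b) = par i j (fun s => ψ (v s)) n a b := by
  unfold par
  split_ifs
  · rfl
  · simp [mat, Matrix.mul_apply, Fin.sum_univ_two, Matrix.one_apply, apply_ite ψ]

variable {F : Type} [Field F] [Fintype ι] {A : Type} [CommRing A]

/-- the invariant `f` comes from `A` -/
def In (i j : ι) (χ : A →+* MvPowerSeries (Ix ι) F)
    (f : ∀ (B : Type) [CommRing B], (ι → M2 B) → B) : Prop :=
  ∃ u, ∀ (B : Type) [CommRing B] (ψ : MvPowerSeries (Ix ι) F →+* B),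
    ψ (χ u) = f B (par i j fun s => ψ (X s))

/-- the basic invariants come from `A` -/
structure Bas (i j : ι) (χ : A →+* MvPowerSeries (Ix ι) F) : Prop where
  t : ∀ n, In i j χ fun _ _ m => (m n).trace
  d : ∀ n, In i j χ fun _ _ m => (m n).det
  t2 : ∀ n k, In i j χ fun _ _ m => (m n * m k).trace
  t3 : ∀ n k l, In i j χ fun _ _ m => (m n * m k * m l).trace

variable {χ : A →+* MvPowerSeries (Ix ι) F}

open Classical in
theorem In.step {S T : Set (Ix ι)} {f : ∀ (B : Type) [CommRing B], (ι → M2 B) → B}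
    (hf : In i j χ f) (hST : S ⊆ T) (E : Set (Ix ι)) (hE : ∀ s ∈ S, s ∉ E)
    (h0 : ∀ (B : Type) [CommRing B] (v : Ix ι → B), (∀ s ∈ T, v s = 0) → f B (par i j v) = 0)
    (h1 : ∃ n : ℕ, ∀ (B : Type) [CommRing B] (t : B),
      f B (par i j fun s => if s ∈ E then t else 0) = t ^ n)
    {k : ℕ} (h : D χ T k) : D χ S (k + 1) :=
  Dim.step χ hST E hE (fun B _ v => f B (par i j v)) hf h0 h1 h

theorem Bas.dl (H : Bas i j χ) (n k : ι) : In i j χ fun _ _ m => dl (m n) (m k) := by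
  obtain ⟨a, ha⟩ := H.t n
  obtain ⟨b, hb⟩ := H.t k
  obtain ⟨c, hc⟩ := H.d n
  obtain ⟨d, hd⟩ := H.d k
  obtain ⟨e, he⟩ := H.t2 n k
  exact ⟨e ^ 2 - a * b * e + c * b ^ 2 + d * a ^ 2 - 4 * c * d, fun B _ ψ => by
    simp only [map_sub, map_add, map_mul, map_pow, map_ofNat, ha, hb, hc, hd, he, Dim.dl]⟩

theorem Bas.ds (H : Bas i j χ) (n : ι) :
    In i j χ fun _ _ m => (m n).trace ^ 2 - 4 * (m n).det := by
  obtain ⟨a, ha⟩ := H.t n
  obtain ⟨c, hc⟩ := H.d n
  exact ⟨a ^ 2 - 4 * c, fun B _ ψ => by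
    simp only [map_sub, map_mul, map_pow, map_ofNat, ha, hc]⟩

theorem Bas.cm (H : Bas i j χ) (n : ι) :
    In i j χ fun _ _ m => (m n * m i * m j).trace - (m n * m j * m i).trace := by
  obtain ⟨a, ha⟩ := H.t3 n i j
  obtain ⟨c, hc⟩ := H.t3 n j i
  exact ⟨a - c, fun B _ ψ => by simp only [map_sub, ha, hc]⟩

/-- two matrices -/
theorem base (H : Bas i j χ) (hij : i ≠ j) : D χ {s | s.1 ≠ i ∧ s.1 ≠ j} 5 := by
  have hji := hij.symm
  set S : Set (Ix ι) := {s | s.1 ≠ i ∧ s.1 ≠ j} with hS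
  refine (H.dl i j).step (T := S ∪ {(i, 1, 0), (j, 1, 0)}) Set.subset_union_left {(i, 0, 1), (j, 1, 0)}
    (by rintro s hs (rfl | rfl) <;> simp [hS] at hs) (fun B _ v h => ?_)
    ⟨4, fun B _ t => ?_⟩ ((H.d j).step (T := S ∪ {(i, 1, 0), (j, 1, 0), (j, 1, 1)})
      (Set.union_subset_union_right _ (by rintro s (rfl | rfl) <;> simp)) {(j, 0, 0), (j, 1, 1)}
      (by rintro s hs (rfl | rfl) <;> simp [hS, hij, hji] at hs) (fun B _ v h => ?_)
      ⟨2, fun B _ t => ?_⟩ ((H.t j).step (T := S ∪ {(i, 1, 0), (j, 1, 0), (j, 1, 1), (j, 0, 0)})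
      (Set.union_subset_union_right _ (by rintro s (rfl | rfl | rfl) <;> simp)) {(j, 0, 0)}
      (by rintro s hs rfl; simp [hS, hij, hji] at hs) (fun B _ v h => ?_)
      ⟨1, fun B _ t => ?_⟩
      ((H.d i).step (T := S ∪ {(i, 1, 0), (j, 1, 0), (j, 1, 1), (j, 0, 0), (i, 1, 1)})
      (Set.union_subset_union_right _ (by rintro s (rfl | rfl | rfl | rfl) <;> simp))
      {(i, 0, 0), (i, 1, 1)}
      (by rintro s hs (rfl | rfl) <;> simp [hS, hij, hji] at hs) (fun B _ v h => ?_)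
      ⟨2, fun B _ t => ?_⟩ ((H.t i).step (T := Set.univ) (Set.subset_univ _) {(i, 0, 0)}
      (by rintro s hs rfl; simp [hS, hij, hji] at hs) (fun B _ v h => ?_)
      ⟨1, fun B _ t => ?_⟩ (d0 χ _)))))
  · simp only [par_i, par_j, dl, mat, Matrix.trace_fin_two, Matrix.det_fin_two, Matrix.mul_apply,
      Fin.sum_univ_two, Matrix.of_apply, h (i, 1, 0) (by simp), h (j, 1, 0) (by simp)]
    ring
  · simp [par_i, par_j, dl, mat, Matrix.trace_fin_two, Matrix.det_fin_two, Matrix.mul_apply,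
      Fin.sum_univ_two, hij, hji]
    ring
  · simp only [par_j, mat, Matrix.det_fin_two, Matrix.of_apply, h (j, 1, 0) (by simp),
      h (j, 1, 1) (by simp)]
    ring
  · simp [par_j, mat, Matrix.det_fin_two, sq]
  · simp only [par_j, mat, Matrix.trace_fin_two, Matrix.of_apply, h (j, 0, 0) (by simp),
      h (j, 1, 1) (by simp), add_zero]
  · simp [par_j, mat, Matrix.trace_fin_two]
  · simp only [par_i, mat, Matrix.det_fin_two, Matrix.of_apply, h (i, 1, 0) (by simp),
      h (i, 1, 1) (by simp)]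
    ring
  · simp [par_i, mat, Matrix.det_fin_two, sq]
  · simp only [par_i, mat, Matrix.trace_fin_two, Matrix.of_apply, h _ (Set.mem_univ _), add_zero]
  · simp [par_i, mat, Matrix.trace_fin_two]

/-- one more matrix -/
theorem more (H : Bas i j χ) (hij : i ≠ j) {n : ι} (h1 : n ≠ i) (h2 : n ≠ j) {S : Set (Ix ι)}
    (hS : ∀ s ∈ S, s.1 ≠ i ∧ s.1 ≠ j ∧ s.1 ≠ n) {k : ℕ} (h : D χ (S ∪ {s | s.1 = n}) k) :
    D χ S (k + 4) := by
  have hji := hij.symm
  have h3 := h1.symm
  have h4 := h2.symm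
  have a1 : ∀ a b, (i, a, b) ∉ S := fun a b h => (hS _ h).1 rfl
  have a2 : ∀ a b, (j, a, b) ∉ S := fun a b h => (hS _ h).2.1 rfl
  have a3 : ∀ a b, (n, a, b) ∉ S := fun a b h => (hS _ h).2.2 rfl
  refine (H.cm n).step (T := S ∪ {(n, 1, 1)}) Set.subset_union_left {(i, 0, 1), (j, 1, 0), (n, 1, 1)}
    (by rintro s hs (rfl | rfl | rfl) <;> simp [a1, a2, a3] at hs) (fun B _ v h => ?_)
    ⟨5, fun B _ t => ?_⟩ ((H.dl n i).step (T := S ∪ {(n, 1, 1), (n, 1, 0)})
      (Set.union_subset_union_right _ (by rintro s rfl; simp)) {(i, 0, 1), (j, 1, 0), (n, 1, 0)}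
      (by rintro s hs (rfl | rfl | rfl) <;> simp [a1, a2, a3, h3, h4] at hs)
      (fun B _ v h => ?_)
      ⟨6, fun B _ t => ?_⟩ ((H.ds n).step (T := S ∪ {(n, 1, 1), (n, 1, 0), (n, 0, 1)})
      (Set.union_subset_union_right _ (by rintro s (rfl | rfl) <;> simp)) {(i, 0, 0), (n, 0, 1)}
      (by rintro s hs (rfl | rfl) <;> simp [a1, a2, a3, h3, h4] at hs)
      (fun B _ v h => ?_) ⟨4, fun B _ t => ?_⟩
      ((H.d n).step (T := S ∪ {s | s.1 = n})
      (Set.union_subset_union_right _ (by rintro s (rfl | rfl | rfl) <;> simp)) {(n, 0, 0)}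
      (by rintro s hs rfl; simp [a3] at hs) (fun B _ v h => ?_)
      ⟨2, fun B _ t => ?_⟩ h)))
  · simp only [par_i, par_j, par_n _ h1 h2, h (n, 1, 1) (by simp), mat, Matrix.trace_fin_two,
      Matrix.mul_apply, Fin.sum_univ_two, Matrix.of_apply, Matrix.add_apply, Matrix.smul_apply,
      smul_eq_mul, Matrix.one_apply_eq, Matrix.one_apply_ne, ne_eq, zero_ne_one, one_ne_zero,
      not_false_eq_true]
    ring
  · simp [par_i, par_j, par_n _ h1 h2, mat, Matrix.trace_fin_two, Matrix.mul_apply,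
      Fin.sum_univ_two, hij, hji, h1, h2, h3, h4]
    ring
  · simp only [par_i, par_n _ h1 h2, h (n, 1, 1) (by simp), h (n, 1, 0) (by simp), dl, mat,
      Matrix.trace_fin_two, Matrix.det_fin_two,
      Matrix.mul_apply, Fin.sum_univ_two, Matrix.of_apply, Matrix.add_apply, Matrix.smul_apply,
      smul_eq_mul, Matrix.one_apply_eq, Matrix.one_apply_ne, ne_eq, zero_ne_one, one_ne_zero,
      not_false_eq_true]
    ring
  · simp [par_i, par_n _ h1 h2, dl, mat, Matrix.trace_fin_two, Matrix.det_fin_two,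
      Matrix.mul_apply, Fin.sum_univ_two, hij, hji, h1, h2, h3, h4]
    ring
  · simp only [par_n _ h1 h2, h (n, 1, 1) (by simp), h (n, 1, 0) (by simp), h (n, 0, 1) (by simp),
      Matrix.trace_fin_two, Matrix.det_fin_two, Matrix.add_apply, Matrix.smul_apply,
      smul_eq_mul, Matrix.one_apply_eq, Matrix.one_apply_ne, ne_eq, zero_ne_one, one_ne_zero,
      not_false_eq_true]
    ring
  · simp [par_n _ h1 h2, mat, Matrix.trace_fin_two, Matrix.det_fin_two,
      Matrix.mul_apply, Fin.sum_univ_two, hij, hji, h1, h2, h3, h4]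
    ring
  · simp [par_n _ h1 h2, h (n, 1, 1) (by simp), h (n, 1, 0) (by simp), h (n, 0, 1) (by simp),
      h (n, 0, 0) (by simp)]
  · simp [par_n _ h1 h2, mat, Matrix.det_fin_two, Matrix.mul_apply, Fin.sum_univ_two, hij, hji,
      h1, h2, h3, h4, sq]

theorem all (H : Bas i j χ) (hij : i ≠ j) (U : Finset ι) : (∀ n ∈ U, n ≠ i ∧ n ≠ j) →
    D χ {s | s.1 ≠ i ∧ s.1 ≠ j ∧ s.1 ∉ U} (5 + 4 * U.card) := by
  classical
  induction U using Finset.induction_on with
  | empty => intro _; simpa using base H hij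
  | insert n U hn ih =>
    intro h
    have hn' := h n (Finset.mem_insert_self _ _)
    rw [Finset.card_insert_of_notMem hn, show 5 + 4 * (U.card + 1) = 5 + 4 * U.card + 4 by ring]
    refine more H hij hn'.1 hn'.2 (fun s hs => ⟨hs.1, hs.2.1, fun e =>
      hs.2.2 (e ▸ Finset.mem_insert_self _ _)⟩) ?_
    convert ih fun m hm => h m (Finset.mem_insert_of_mem hm) using 1
    ext s
    by_cases e : s.1 = n
    · simp [e, hn, hn'.1, hn'.2]
    · simp [e]

end

/-- the basic invariants are values of `φ` -/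
structure Rg {R ι A : Type} [CommRing R] [CommRing A] (φ : A →+* MvPowerSeries (Ix ι) R) :
    Prop where
  t : ∀ n, ∃ u, φ u = (gx R ι n).trace
  d : ∀ n, ∃ u, φ u = (gx R ι n).det
  t2 : ∀ n k, ∃ u, φ u = (gx R ι n * gx R ι k).trace
  t3 : ∀ n k l, ∃ u, φ u = (gx R ι n * gx R ι k * gx R ι l).trace

/-- **the ring of traces of `n ≥ 2` generic matrices has dimension at least `4 n - 3`** -/
theorem dimS {F ι A : Type} [Field F] [Fintype ι] [CommRing A]
    (φ : A →+* MvPowerSeries (Ix ι) F) (h : Rg φ) (h2 : 2 ≤ Fintype.card ι) {k : ℕ}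
    (hk : k + 3 ≤ 4 * Fintype.card ι) :
    (k : WithBot ℕ∞) ≤ ringKrullDim (A ⧸ RingHom.ker φ) := by
  classical
  obtain ⟨i, j, hij⟩ := Fintype.exists_pair_of_one_lt_card h2
  obtain ⟨θ, -, hθ⟩ := ex_sub (F := F) (fun s : Ix ι => par i j X s.1 s.2.1 s.2.2) fun s => by
    rw [Cpl.mem_max_iff, par_map]
    unfold par
    split_ifs <;> simp [mat, Matrix.mul_apply]
  have e : ∀ (B : Type) [CommRing B] (ψ : MvPowerSeries (Ix ι) F →+* B) n a b,
      ψ (θ (X (n, a, b))) = par i j (fun s => ψ (X s)) n a b := fun B _ ψ n a b => by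
    rw [hθ, par_map]
  have H : Bas i j (θ.comp φ) :=
    ⟨fun n => (h.t n).imp fun u hu B _ ψ => by
      simp only [RingHom.comp_apply, hu, mat, Matrix.trace_fin_two, Matrix.of_apply, map_add, e],
    fun n => (h.d n).imp fun u hu B _ ψ => by
      simp only [RingHom.comp_apply, hu, mat, Matrix.det_fin_two, Matrix.of_apply, map_sub,
        map_mul, e],
    fun n k => (h.t2 n k).imp fun u hu B _ ψ => by
      simp only [RingHom.comp_apply, hu, mat, Matrix.trace_fin_two, Matrix.of_apply, map_add,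
        map_mul, Matrix.mul_apply, Fin.sum_univ_two, e],
    fun n k l => (h.t3 n k l).imp fun u hu B _ ψ => by
      simp only [RingHom.comp_apply, hu, mat, Matrix.trace_fin_two, Matrix.of_apply, map_add,
        map_mul, Matrix.mul_apply, Fin.sum_univ_two, e]⟩
  have h3 := all H hij ((Finset.univ.erase i).erase j) fun n hn =>
    ⟨(Finset.mem_erase.1 (Finset.mem_erase.1 hn).2).1, (Finset.mem_erase.1 hn).1⟩
  rw [Finset.card_erase_of_mem (by simp [hij.symm]), Finset.card_erase_of_mem (Finset.mem_univ _),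
    Finset.card_univ] at h3
  refine le_trans (by exact_mod_cast (by omega)) (dimGE_mono (fun x hx => ?_) h3)
  rw [RingHom.mem_ker] at hx ⊢
  rw [RingHom.comp_apply, RingHom.comp_apply, hx, map_zero, map_zero]

/-- the same hypothesis for the matrices `1 + gx` -/
theorem rg_one {R ι A : Type} [CommRing R] [CommRing A] (φ : A →+* MvPowerSeries (Ix ι) R)
    (Z : ι → M2 (MvPowerSeries (Ix ι) R)) (hZ : ∀ n, Z n = 1 + gx R ι n)
    (t : ∀ n, ∃ u, φ u = (Z n).trace) (d : ∀ n, ∃ u, φ u = (Z n).det)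
    (t2 : ∀ n k, ∃ u, φ u = (Z n * Z k).trace)
    (t3 : ∀ n k l, ∃ u, φ u = (Z n * Z k * Z l).trace) : Rg φ := by
  choose t ht using t
  choose d hd using d
  choose t2 h2 using t2
  choose t3 h3 using t3
  have e : ∀ n, gx R ι n = Z n - 1 := fun n => by rw [hZ, add_sub_cancel_left]
  refine ⟨fun n => ⟨t n - 2, ?_⟩, fun n => ⟨d n - t n + 1, ?_⟩,
    fun n k => ⟨t2 n k - t n - t k + 2, ?_⟩,
    fun n k l => ⟨t3 n k l - t2 n k - t2 n l - t2 k l + t n + t k + t l - 2, ?_⟩⟩ <;>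
  · simp only [map_sub, map_add, map_ofNat, map_one, ht, hd, h2, h3, e, Matrix.trace_fin_two,
      Matrix.det_fin_two, Matrix.mul_apply, Fin.sum_univ_two, Matrix.sub_apply,
      Matrix.one_apply_eq, Matrix.one_apply_ne, ne_eq, zero_ne_one, one_ne_zero,
      not_false_eq_true]
    ring

section
variable {O F ι A : Type} [CommRing O] [Field F] [Fintype ι] [CommRing A] (red : O →+* F) {ϖ : O}
  (hk : RingHom.ker red = Ideal.span {ϖ}) (φ : A →+* MvPowerSeries (Ix ι) O)
include hk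

theorem fib_eq : (Ideal.span {C ϖ}).comap φ = RingHom.ker ((MvPowerSeries.map red).comp φ) := by
  rw [← RingHom.comap_ker, ker_map red hk]

theorem fib_prime : ((Ideal.span {C ϖ}).comap φ).IsPrime := by
  haveI : IsDomain (MvPowerSeries (Ix ι) F) := NoZeroDivisors.to_isDomain _
  rw [fib_eq red hk]
  exact RingHom.ker_isPrime _

/-- the special fibre -/
theorem dimO (h : Rg φ) (h2 : 2 ≤ Fintype.card ι) {k : ℕ} (hn : k + 3 ≤ 4 * Fintype.card ι) :
    (k : WithBot ℕ∞) ≤ ringKrullDim (A ⧸ (Ideal.span {C ϖ}).comap φ) := by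
  rw [fib_eq red hk]
  refine dimS _ ⟨fun n => (h.t n).imp fun u hu => ?_, fun n => (h.d n).imp fun u hu => ?_,
    fun n k => (h.t2 n k).imp fun u hu => ?_, fun n k l => (h.t3 n k l).imp fun u hu => ?_⟩ h2 hn <;>
  simp only [RingHom.comp_apply, hu, mat, Matrix.trace_fin_two, Matrix.det_fin_two, Matrix.of_apply,
    map_add, map_sub, map_mul, Matrix.mul_apply, Fin.sum_univ_two, map_X]

/-- the whole ring -/
theorem dimO1 [IsDomain O] (h0 : ϖ ≠ 0) (hc : ∃ u, φ u = C ϖ) (h : Rg φ) (h2 : 2 ≤ Fintype.card ι)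
    {k : ℕ} (hn : k + 3 ≤ 4 * Fintype.card ι) :
    ((k + 1 : ℕ) : WithBot ℕ∞) ≤ ringKrullDim (A ⧸ RingHom.ker φ) := by
  haveI : IsDomain (MvPowerSeries (Ix ι) O) := NoZeroDivisors.to_isDomain _
  obtain ⟨u, hu⟩ := hc
  refine dimGE_succ (RingHom.ker_isPrime φ) (lt_of_le_of_ne (Ideal.ker_le_comap φ) fun e => ?_)
    (dimO red hk φ h h2 hn)
  have h1 : u ∈ RingHom.ker φ := by
    rw [e, Ideal.mem_comap, hu]; exact Ideal.mem_span_singleton_self _
  rw [RingHom.mem_ker, hu] at h1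
  exact h0 (by simpa using congrArg constantCoeff h1)

end

end Vale.Agent.P022S.Dim
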