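import Vale.Agent.P022G.Tor2
import Vale.Agent.P022G.Theta
import Vale.Agent.P022G.Dim

/-!
# P022S: the image of a prime in the ring of traces loses at most three dimensions
-/

set_option linter.all false

noncomputable section

namespace Vale.Agent.P022S.Dn

open IsLocalRing Polynomial Vale.Agent.P022G.Dim _root_.P022G.Th

section
variable {A B : Type} [CommRing A] [IsNoetherianRing A] [CommRing B] [Algebra A B] [IsDomain B]

/-- the dimension of the algebra generated by a finite set -/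
def dm (A : Type) [CommRing A] [Algebra A B] (F : Finset B) : WithBot ℕ∞ :=
  ringKrullDim (Algebra.adjoin A (F : Set B))

open Classical in
theorem quad (F : Finset B) (x u v w : B) (hu : u ∈ Algebra.adjoin A (F : Set B))
    (hv : v ∈ Algebra.adjoin A (F : Set B)) (hw : w ∈ Algebra.adjoin A (F : Set B)) (h0 : u ≠ 0)
    (h : u * x ^ 2 + v * x + w = 0) : dm A (insert x F) ≤ dm A F := by
  refine step0 F x ⟨C ⟨u, hu⟩ * X ^ 2 + C ⟨v, hv⟩ * X + C ⟨w, hw⟩, fun e => h0 ?_, ?_⟩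
  · have := congrArg (fun p => p.coeff 2) e
    simp only [coeff_add, coeff_C_mul, coeff_X_pow, if_true, mul_one, coeff_X, coeff_C,
      coeff_zero] at this
    simpa using congrArg Subtype.val this
  · simp only [map_add, map_mul, map_pow, aeval_C, aeval_X]
    exact h

open Classical in
theorem many (T F : Finset B) (h : ∀ x ∈ F, ∃ u ∈ Algebra.adjoin A (T : Set B), u ≠ 0 ∧
      u * x ∈ Algebra.adjoin A (T : Set B)) : dm A (F ∪ T) ≤ dm A T := by
  induction F using Finset.induction_on with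
  | empty => rw [Finset.empty_union]
  | insert x F hx ih =>
    rw [Finset.insert_union]
    refine le_trans ?_ (ih fun y hy => h y (Finset.mem_insert_of_mem hy))
    obtain ⟨u, hu, h0, hv⟩ := h x (Finset.mem_insert_self _ _)
    have hle : Algebra.adjoin A (T : Set B) ≤ Algebra.adjoin A ((F ∪ T : Finset B) : Set B) :=
      Algebra.adjoin_mono (by simp)
    exact quad _ x u (-(u * x)) 0 (hle hu) (neg_mem (hle hv)) (zero_mem _) h0 (by ring)

/-- a pair of matrices -/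
theorem pair (E : Finset B) (P Q : M2 B) (h1 : P.trace ∈ (⊥ : Subalgebra A B))
    (h2 : P.det ∈ (⊥ : Subalgebra A B)) (h3 : Q.trace ∈ (⊥ : Subalgebra A B))
    (h4 : Q.det ∈ (⊥ : Subalgebra A B)) (h5 : (P * Q).trace ∈ (⊥ : Subalgebra A B))
    (h0 : P 0 1 ≠ 0) : ∃ T : Finset B, E ⊆ T ∧ (∀ a b, P a b ∈ Algebra.adjoin A (T : Set B)) ∧
      (∀ a b, Q a b ∈ Algebra.adjoin A (T : Set B)) ∧
      dm A T ≤ ringKrullDim A + ((3 + E.card : ℕ) : WithBot ℕ∞) := by
  classical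
  rw [Matrix.trace_fin_two] at h1 h3 h5
  rw [Matrix.det_fin_two] at h2 h4
  simp only [Matrix.mul_apply, Fin.sum_univ_two] at h5
  set T0 : Finset B := insert (P 0 0) (insert (P 0 1) (insert (Q 0 1) E)) with hT0
  have d0 : dm A T0 ≤ ringKrullDim A + ((3 + E.card : ℕ) : WithBot ℕ∞) := by
    refine (adj_le T0).trans ?_
    gcongr
    have a1 := Finset.card_insert_le (P 0 0) (insert (P 0 1) (insert (Q 0 1) E))
    have a2 := Finset.card_insert_le (P 0 1) (insert (Q 0 1) E)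
    have a3 := Finset.card_insert_le (Q 0 1) E
    rw [hT0]
    omega
  have k : ∀ (T : Finset B) {x : B}, x ∈ (⊥ : Subalgebra A B) → x ∈ Algebra.adjoin A (T : Set B) :=
    fun T _ hx => (bot_le : (⊥ : Subalgebra A B) ≤ _) hx
  have m : ∀ (T : Finset B) {x : B}, x ∈ T → x ∈ Algebra.adjoin A (T : Set B) :=
    fun T _ hx => Algebra.subset_adjoin hx
  have pd : ∀ T : Finset B, T0 ⊆ T → P 1 1 ∈ Algebra.adjoin A (T : Set B) := fun T hT => by
    have := sub_mem (k T h1) (m T (hT (show P 0 0 ∈ T0 by simp [hT0])))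
    rwa [add_sub_cancel_left] at this
  set T1 : Finset B := insert (P 1 0) T0 with hT1
  have s1 : T0 ⊆ T1 := Finset.subset_insert _ _
  have d1 : dm A T1 ≤ dm A T0 := by
    refine quad T0 _ (P 0 1) (P 0 0 * P 1 1 - P 0 1 * P 1 0 - P 0 0 * P 1 1) 0
      (m _ (by simp [hT0])) (sub_mem (k _ h2) (mul_mem (m _ (by simp [hT0])) (pd _ le_rfl)))
      (zero_mem _) h0 (by ring)
  have p1 : ∀ T : Finset B, T1 ⊆ T → ∀ a b, P a b ∈ Algebra.adjoin A (T : Set B) := by
    intro T hT a b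
    fin_cases a <;> fin_cases b
    · exact m T (hT (s1 (show P 0 0 ∈ T0 by simp [hT0])))
    · exact m T (hT (s1 (show P 0 1 ∈ T0 by simp [hT0])))
    · exact m T (hT (Finset.mem_insert_self _ _))
    · exact pd T (s1.trans hT)
  have q1 : ∀ T : Finset B, T1 ⊆ T → Q 0 1 ∈ Algebra.adjoin A (T : Set B) := fun T hT =>
    m T (hT (s1 (show Q 0 1 ∈ T0 by simp [hT0])))
  set T2 : Finset B := insert (Q 0 0) T1 with hT2
  have s2 : T1 ⊆ T2 := Finset.subset_insert _ _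
  have d2 : dm A T2 ≤ dm A T1 := by
    have e := p1 T1 le_rfl
    have f := q1 T1 le_rfl
    refine quad T1 _ (P 0 1) (Q 0 1 * (P 1 1 - P 0 0) - P 0 1 * (Q 0 0 + Q 1 1))
      (P 0 1 * (Q 0 0 * Q 1 1 - Q 0 1 * Q 1 0) + Q 0 1 *
        ((P 0 0 * Q 0 0 + P 0 1 * Q 1 0 + (P 1 0 * Q 0 1 + P 1 1 * Q 1 1)) - P 1 0 * Q 0 1 -
          P 1 1 * (Q 0 0 + Q 1 1))) (e _ _)
      (sub_mem (mul_mem f (sub_mem (e _ _) (e _ _))) (mul_mem (e _ _) (k _ h3)))
      (add_mem (mul_mem (e _ _) (k _ h4)) (mul_mem f (sub_mem (sub_mem (k _ h5)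
        (mul_mem (e _ _) f)) (mul_mem (e _ _) (k _ h3))))) h0 (by ring)
  have qd : ∀ T : Finset B, T2 ⊆ T → Q 1 1 ∈ Algebra.adjoin A (T : Set B) := fun T hT => by
    have := sub_mem (k T h3) (m T (hT (Finset.mem_insert_self (Q 0 0) T1)))
    rwa [add_sub_cancel_left] at this
  set T3 : Finset B := insert (Q 1 0) T2 with hT3
  have s3 : T2 ⊆ T3 := Finset.subset_insert _ _
  have d3 : dm A T3 ≤ dm A T2 := by
    have e := p1 T2 s2
    have f := q1 T2 s2
    refine quad T2 _ (P 0 1) (P 0 0 * Q 0 0 + P 1 0 * Q 0 1 + P 1 1 * Q 1 1 -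
      (P 0 0 * Q 0 0 + P 0 1 * Q 1 0 + (P 1 0 * Q 0 1 + P 1 1 * Q 1 1))) 0 (e _ _)
      (sub_mem (add_mem (add_mem (mul_mem (e _ _) (m _ (Finset.mem_insert_self _ _)))
        (mul_mem (e _ _) f)) (mul_mem (e _ _) (qd _ le_rfl))) (k _ h5)) (zero_mem _) h0 (by ring)
  refine ⟨T3, fun x hx => s3 (s2 (s1 (by simp [hT0, hx]))), p1 T3 (s2.trans s3), fun a b => ?_,
    d3.trans (d2.trans (d1.trans d0))⟩
  fin_cases a <;> fin_cases b
  · exact m T3 (s3 (Finset.mem_insert_self _ _))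
  · exact q1 T3 (s2.trans s3)
  · exact m T3 (Finset.mem_insert_self _ _)
  · exact qd T3 s3

theorem del_off {P Q : M2 B} (h : del P Q ≠ 0) : P 0 1 ≠ 0 ∨ Q 0 1 ≠ 0 := by
  by_contra hn
  push Not at hn
  apply h
  simp only [del, Matrix.det_fin_two, Matrix.sub_apply, Matrix.mul_apply, Fin.sum_univ_two, hn.1,
    hn.2]
  ring

/-- a family of matrices -/
theorem fam {ι : Type} [Fintype ι] (E : Finset B) (P Q : M2 B) (Z : ι → M2 B)
    (h1 : P.trace ∈ (⊥ : Subalgebra A B)) (h2 : P.det ∈ (⊥ : Subalgebra A B))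
    (h3 : Q.trace ∈ (⊥ : Subalgebra A B)) (h4 : Q.det ∈ (⊥ : Subalgebra A B))
    (h5 : (P * Q).trace ∈ (⊥ : Subalgebra A B))
    (h6 : ∀ i, (Z i).trace ∈ (⊥ : Subalgebra A B) ∧ (Z i * P).trace ∈ (⊥ : Subalgebra A B) ∧
      (Z i * Q).trace ∈ (⊥ : Subalgebra A B) ∧ (Z i * (P * Q)).trace ∈ (⊥ : Subalgebra A B))
    (h0 : del P Q ≠ 0) : ∃ T : Finset B, E ⊆ T ∧
      (∀ i a b, Z i a b ∈ Algebra.adjoin A (T : Set B)) ∧
      dm A T ≤ ringKrullDim A + ((3 + E.card : ℕ) : WithBot ℕ∞) := by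
  classical
  obtain ⟨T, t1, t2, t3, t4⟩ : ∃ T : Finset B, E ⊆ T ∧
      (∀ a b, P a b ∈ Algebra.adjoin A (T : Set B)) ∧
      (∀ a b, Q a b ∈ Algebra.adjoin A (T : Set B)) ∧
      dm A T ≤ ringKrullDim A + ((3 + E.card : ℕ) : WithBot ℕ∞) := by
    rcases del_off h0 with h | h
    · exact pair E P Q h1 h2 h3 h4 h5 h
    · obtain ⟨T, t1, t2, t3, t4⟩ := pair E Q P h3 h4 h1 h2 (by rwa [Matrix.trace_mul_comm]) h
      exact ⟨T, t1, t3, t2, t4⟩
  have k : ∀ {x : B}, x ∈ (⊥ : Subalgebra A B) → x ∈ Algebra.adjoin A (T : Set B) :=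
    fun hx => (bot_le : (⊥ : Subalgebra A B) ≤ _) hx
  refine ⟨Finset.univ.image (fun p : ι × Fin 2 × Fin 2 => Z p.1 p.2.1 p.2.2) ∪ T,
    t1.trans Finset.subset_union_right, fun i a b => Algebra.subset_adjoin (by
      simp only [Finset.coe_union, Finset.coe_image]
      exact Or.inl ⟨(i, a, b), by simp, rfl⟩), (many T _ fun x hx => ?_).trans t4⟩
  obtain ⟨⟨i, a, b⟩, -, rfl⟩ := Finset.mem_image.1 hx
  obtain ⟨z0, z1, z2, z3⟩ := h6 i
  have two : (2 : B) ∈ Algebra.adjoin A (T : Set B) := ofNat_mem _ 2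
  have four : (4 : B) ∈ Algebra.adjoin A (T : Set B) := ofNat_mem _ 4
  have a1 := k h1
  have a2 := k h2
  have a3 := k h3
  have a4 := k h4
  have a5 := k h5
  have b0 := k z0
  have b1 := k z1
  have b2 := k z2
  have b3 := k z3
  refine ⟨del P Q, ?_, h0, ?_⟩
  · rw [del_eq, dl]
    repeat first | assumption | apply sub_mem | apply add_mem | apply mul_mem | apply pow_mem
  · have e := congrFun (congrFun (theta P Q (Z i)) a) b
    rw [Matrix.smul_apply, smul_eq_mul] at e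
    have o : (1 : M2 B) a b ∈ Algebra.adjoin A (T : Set B) := by
      rw [Matrix.one_apply]
      split_ifs
      · exact one_mem _
      · exact zero_mem _
    have pq : (P * Q) a b ∈ Algebra.adjoin A (T : Set B) := by
      rw [Matrix.mul_apply]
      exact sum_mem fun c _ => mul_mem (t2 _ _) (t3 _ _)
    have p := t2 a b
    have q := t3 a b
    rw [e, th]
    simp only [Matrix.add_apply, Matrix.smul_apply, smul_eq_mul, _root_.P022G.Th.h0,
      _root_.P022G.Th.h1, _root_.P022G.Th.h2, _root_.P022G.Th.h3]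
    repeat first
      | assumption | apply sub_mem | apply add_mem | apply mul_mem | apply pow_mem | apply neg_mem

end

open MvPowerSeries in
/-- **DOWN**, with a finite set `E` of further free elements -/
theorem down3' {σ O P₀ ι : Type} [CommRing O] [IsLocalRing O] [IsNoetherianRing O] [Fintype σ]
    [CommRing P₀] [IsNoetherianRing P₀] [Fintype ι] (φ : P₀ →+* MvPowerSeries σ O)
    (E : Finset (MvPowerSeries σ O)) (P Q : M2 (MvPowerSeries σ O))
    (Z : ι → M2 (MvPowerSeries σ O)) (hC : ∀ o, MvPowerSeries.C o ∈ φ.range)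
    (hX : ∀ s, ∃ u, MvPowerSeries.X s = φ u ∨ (∃ i a b, MvPowerSeries.X s = φ u + Z i a b) ∨
      ∃ e ∈ E, MvPowerSeries.X s = φ u + e)
    (h1 : P.trace ∈ φ.range) (h2 : P.det ∈ φ.range) (h3 : Q.trace ∈ φ.range)
    (h4 : Q.det ∈ φ.range) (h5 : (P * Q).trace ∈ φ.range)
    (h6 : ∀ i, (Z i).trace ∈ φ.range ∧ (Z i * P).trace ∈ φ.range ∧ (Z i * Q).trace ∈ φ.range ∧
      (Z i * (P * Q)).trace ∈ φ.range)
    (q : Ideal (MvPowerSeries σ O)) (hq : q.IsPrime) (h0 : del P Q ∉ q) :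
    ringKrullDim (MvPowerSeries σ O ⧸ q) ≤
      ringKrullDim (P₀ ⧸ q.comap φ) + ((3 + E.card : ℕ) : WithBot ℕ∞) := by
  classical
  haveI : IsDomain (MvPowerSeries σ O ⧸ q) := Ideal.Quotient.isDomain q
  have hs : Function.Surjective (Ideal.Quotient.mk q) := Ideal.Quotient.mk_surjective
  haveI : IsLocalRing (MvPowerSeries σ O ⧸ q) := .of_surjective' _ hs
  have hm : (maximalIdeal _).map (Ideal.Quotient.mk q) = maximalIdeal (MvPowerSeries σ O ⧸ q) :=
    map_maximalIdeal_of_surjective _ hs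
  letI : Algebra (P₀ ⧸ q.comap φ) (MvPowerSeries σ O ⧸ q) :=
    (Ideal.quotientMap q φ le_rfl).toAlgebra
  have hA : ∀ {x}, x ∈ φ.range →
      Ideal.Quotient.mk q x ∈ (⊥ : Subalgebra (P₀ ⧸ q.comap φ) (MvPowerSeries σ O ⧸ q)) := by
    rintro _ ⟨u, rfl⟩
    exact Subalgebra.algebraMap_mem _ (Ideal.Quotient.mk (q.comap φ) u)
  have tr : ∀ {M : M2 (MvPowerSeries σ O)}, M.trace ∈ φ.range →
      (M.map (Ideal.Quotient.mk q)).trace ∈
        (⊥ : Subalgebra (P₀ ⧸ q.comap φ) (MvPowerSeries σ O ⧸ q)) := fun {M} h => by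
    have := hA h
    rwa [Matrix.trace_fin_two, map_add, ← Matrix.map_apply (f := Ideal.Quotient.mk q),
      ← Matrix.map_apply (f := Ideal.Quotient.mk q), ← Matrix.trace_fin_two] at this
  have dt : ∀ {M : M2 (MvPowerSeries σ O)}, M.det ∈ φ.range →
      (M.map (Ideal.Quotient.mk q)).det ∈
        (⊥ : Subalgebra (P₀ ⧸ q.comap φ) (MvPowerSeries σ O ⧸ q)) := fun {M} h => by
    have := hA h
    rwa [RingHom.map_det] at this
  obtain ⟨T, t1, t2, t3⟩ := fam (A := P₀ ⧸ q.comap φ) (E.image (Ideal.Quotient.mk q))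
    (P.map (Ideal.Quotient.mk q)) (Q.map (Ideal.Quotient.mk q))
    (fun i => (Z i).map (Ideal.Quotient.mk q)) (tr h1) (dt h2) (tr h3) (dt h4)
    (by rw [← Matrix.map_mul]; exact tr h5)
    (fun i => by
      simp only [← Matrix.map_mul]
      exact ⟨tr (h6 i).1, tr (h6 i).2.1, tr (h6 i).2.2.1, tr (h6 i).2.2.2⟩)
    (by rw [← map_del]; exact mt Ideal.Quotient.eq_zero_iff_mem.1 h0)
  haveI := noeth (A := P₀ ⧸ q.comap φ) T
  have k : ∀ {x}, x ∈ φ.range → Ideal.Quotient.mk q x ∈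
      Algebra.adjoin (P₀ ⧸ q.comap φ) (T : Set (MvPowerSeries σ O ⧸ q)) :=
    fun hx => (bot_le : (⊥ : Subalgebra (P₀ ⧸ q.comap φ) _) ≤ _) (hA hx)
  refine (dense_le (Algebra.adjoin (P₀ ⧸ q.comap φ)
    (T : Set (MvPowerSeries σ O ⧸ q))).val.toRingHom fun x _ => ?_).trans (t3.trans ?_)
  · obtain ⟨f, rfl⟩ := hs x
    obtain ⟨p, hp, h7⟩ := P022G.Tor.lin ((Algebra.adjoin (P₀ ⧸ q.comap φ)
      (T : Set (MvPowerSeries σ O ⧸ q))).toSubring.comap (Ideal.Quotient.mk q))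
      (fun o => k (hC o)) (fun s => by
        obtain ⟨u, h | ⟨i, a, b, h⟩ | ⟨e, he, h⟩⟩ := hX s
        · exact k ⟨u, h.symm⟩
        · rw [h, Subring.mem_comap, map_add]
          exact add_mem (k ⟨u, rfl⟩) (t2 i a b)
        · rw [h, Subring.mem_comap, map_add]
          exact add_mem (k ⟨u, rfl⟩) (Algebra.subset_adjoin (t1 (Finset.mem_image_of_mem _ he)))) f
    exact ⟨⟨_, hp⟩, by
      change Ideal.Quotient.mk q f - Ideal.Quotient.mk q p ∈ _
      rw [← map_sub, ← hm, ← Ideal.map_pow]; exact Ideal.mem_map_of_mem _ h7⟩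
  · gcongr
    exact Finset.card_image_le

theorem cut {k e : ℕ} {x : WithBot ℕ∞} (h : ((k + e : ℕ) : WithBot ℕ∞) ≤ x + (e : ℕ)) :
    (k : WithBot ℕ∞) ≤ x := by
  induction x using WithBot.recBotCoe with
  | bot => simp at h
  | coe x =>
    induction x using ENat.recTopCoe with
    | top => exact le_top
    | coe x =>
      have : k + e ≤ x + e := by exact_mod_cast h
      exact_mod_cast (by omega : k ≤ x)

open MvPowerSeries in
/-- **DOWN** -/
theorem down3 {σ O P₀ ι : Type} [CommRing O] [IsLocalRing O] [IsNoetherianRing O] [Fintype σ]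
    [CommRing P₀] [IsNoetherianRing P₀] [Fintype ι] (φ : P₀ →+* MvPowerSeries σ O)
    (P Q : M2 (MvPowerSeries σ O)) (Z : ι → M2 (MvPowerSeries σ O))
    (hC : ∀ o, MvPowerSeries.C o ∈ φ.range)
    (hX : ∀ s, ∃ u, MvPowerSeries.X s = φ u ∨ ∃ i a b, MvPowerSeries.X s = φ u + Z i a b)
    (h1 : P.trace ∈ φ.range) (h2 : P.det ∈ φ.range) (h3 : Q.trace ∈ φ.range)
    (h4 : Q.det ∈ φ.range) (h5 : (P * Q).trace ∈ φ.range)
    (h6 : ∀ i, (Z i).trace ∈ φ.range ∧ (Z i * P).trace ∈ φ.range ∧ (Z i * Q).trace ∈ φ.range ∧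
      (Z i * (P * Q)).trace ∈ φ.range)
    (q : Ideal (MvPowerSeries σ O)) (hq : q.IsPrime) (h0 : del P Q ∉ q) (k : ℕ)
    (hk : ((k + 3 : ℕ) : WithBot ℕ∞) ≤ ringKrullDim (MvPowerSeries σ O ⧸ q)) :
    (k : WithBot ℕ∞) ≤ ringKrullDim (P₀ ⧸ q.comap φ) :=
  cut (hk.trans (down3' φ ∅ P Q Z hC (fun s => by
    obtain ⟨u, h | h⟩ := hX s
    · exact ⟨u, Or.inl h⟩
    · exact ⟨u, Or.inr (Or.inl h)⟩) h1 h2 h3 h4 h5 h6 q hq h0))

end Vale.Agent.P022S.Dn
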