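import Vale.Agent.P022S.Dn3
import Vale.Agent.P022G.Sum
import Vale.Agent.P022G.Conn.Dim
import Vale.Agent.P022D.Rl.Ch0

/-!
# P022S: the dimension of the ring of traces of generic matrices
-/

set_option linter.all false

noncomputable section

namespace Vale.Agent.P022S.Dn

open IsLocalRing MvPowerSeries _root_.P022G.Th _root_.P022G.Sum Vale.Agent.P022D.CA

/-- the quotient of a power series extension by the variables -/
theorem kill {P S κ : Type} [CommRing P] [CommRing S] [Fintype κ] {ψ : P →+* S} {z : κ → S}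
    (h : Ext ψ z) (η : Ideal P) :
    Nonempty ((S ⧸ (η.map ψ ⊔ Ideal.span (Set.range z))) ≃+* P ⧸ η) := by
  obtain ⟨e, e1, e2⟩ := h
  let f : S →+* P ⧸ η := (Ideal.Quotient.mk η).comp ((constantCoeff : MvPowerSeries κ P →+* P).comp
    e.symm.toRingHom)
  have fe : ∀ g, f (e g) = Ideal.Quotient.mk η (constantCoeff g) := fun g => by
    change Ideal.Quotient.mk η (constantCoeff (e.symm (e g))) = _
    rw [e.symm_apply_apply]
  have hs : Function.Surjective f := fun y => by
    obtain ⟨a, rfl⟩ := Ideal.Quotient.mk_surjective y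
    exact ⟨e (C a), by rw [fe, constantCoeff_C]⟩
  have hk : η.map ψ ⊔ Ideal.span (Set.range z) = RingHom.ker f := by
    refine le_antisymm (sup_le (Ideal.map_le_iff_le_comap.2 fun a ha => ?_)
      (Ideal.span_le.2 ?_)) fun x hx => ?_
    · rw [Ideal.mem_comap, RingHom.mem_ker, ← e1, fe, constantCoeff_C]
      exact Ideal.Quotient.eq_zero_iff_mem.2 ha
    · rintro _ ⟨i, rfl⟩
      rw [SetLike.mem_coe, RingHom.mem_ker, ← e2, fe, constantCoeff_X, map_zero]
    · obtain ⟨g, rfl⟩ := e.surjective x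
      rw [RingHom.mem_ker, fe, Ideal.Quotient.eq_zero_iff_mem] at hx
      obtain ⟨u, hu, -⟩ := Cpl.exists_decompV (g - C (constantCoeff g)) (by simp)
      rw [← add_sub_cancel (C (constantCoeff g)) g, hu, map_add, e1, map_sum]
      refine add_mem (Ideal.mem_sup_left (Ideal.mem_map_of_mem _ hx))
        (Ideal.mem_sup_right (sum_mem fun i _ => ?_))
      rw [map_mul, e2]
      exact Ideal.mul_mem_right _ _ (Ideal.subset_span ⟨i, rfl⟩)
  exact ⟨(Ideal.quotEquivOfEq hk).trans (RingHom.quotientKerEquivOfSurjective hs)⟩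

variable {O : Type} [CommRing O]

/-- the ideal of the variables outside `p` -/
def out (O : Type) [CommRing O] {σ : Type} (p : σ → Prop) : Ideal (MvPowerSeries σ O) :=
  Ideal.span {f | ∃ s, ¬ p s ∧ f = X s}

theorem kill_out {σ : Type} [Fintype σ] (p : σ → Prop) (I : Ideal O) :
    Nonempty ((MvPowerSeries σ O ⧸ (I.map C ⊔ out O p)) ≃+*
      MvPowerSeries {s // p s} O ⧸ I.map C) := by
  classical
  obtain ⟨e⟩ := kill (ext_emb (R := O) (Function.Embedding.subtype p))
    (I.map (C : O →+* MvPowerSeries {s // p s} O))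
  refine ⟨(Ideal.quotEquivOfEq ?_).trans e⟩
  congr 1
  · rw [Ideal.map_map]
    congr 1
    ext1 o
    exact (rename_C _ o).symm
  · rw [out]
    congr 1
    ext f
    constructor
    · rintro ⟨s, hs, rfl⟩
      exact ⟨⟨s, fun ⟨t, ht⟩ => hs (ht ▸ t.2)⟩, rfl⟩
    · rintro ⟨⟨s, hs⟩, rfl⟩
      exact ⟨s, fun h => hs ⟨⟨s, h⟩, rfl⟩, rfl⟩

variable [IsDomain O] [IsDiscreteValuationRing O]

theorem ker_res (σ : Type) : RingHom.ker (MvPowerSeries.map (σ := σ) (residue O)) =
    (maximalIdeal O).map C := by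
  obtain ⟨ϖ, hϖ⟩ := IsDiscreteValuationRing.exists_irreducible O
  rw [hϖ.maximalIdeal_eq, Ideal.map_span, Set.image_singleton]
  ext f
  rw [RingHom.mem_ker, Ideal.mem_span_singleton]
  constructor
  · intro h
    have k : ∀ n, ∃ c, coeff n f = ϖ * c := fun n => by
      have := congrArg (coeff n) h
      rw [coeff_map, coeff_zero, residue_eq_zero_iff, hϖ.maximalIdeal_eq,
        Ideal.mem_span_singleton] at this
      exact this
    choose c hc using k
    obtain ⟨g, hg⟩ : ∃ g : MvPowerSeries σ O, ∀ n, coeff n g = c n := ⟨c, fun _ => rfl⟩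
    refine ⟨g, ?_⟩
    ext n
    rw [coeff_C_mul, hc, hg]
  · rintro ⟨c, rfl⟩
    rw [map_mul, map_C, (residue_eq_zero_iff _).2 (by
      rw [hϖ.maximalIdeal_eq]; exact Ideal.mem_span_singleton_self _), map_zero, zero_mul]

/-- special fibre -/
theorem out_max {σ : Type} [Fintype σ] (p : σ → Prop) [DecidablePred p] :
    ((maximalIdeal O).map C ⊔ out O p).IsPrime ∧
      ((Fintype.card {s // p s} : ℕ) : WithBot ℕ∞) ≤
        ringKrullDim (MvPowerSeries σ O ⧸ ((maximalIdeal O).map C ⊔ out O p)) := by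
  obtain ⟨e⟩ := kill_out p (maximalIdeal O)
  obtain ⟨ϖ, hϖ⟩ := IsDiscreteValuationRing.exists_irreducible O
  haveI : IsDomain (MvPowerSeries {s // p s} (ResidueField O)) := NoZeroDivisors.to_isDomain _
  have hp : ((maximalIdeal O).map (C : O →+* MvPowerSeries {s // p s} O)).IsPrime := by
    rw [← ker_res]
    exact RingHom.ker_isPrime _
  haveI := Ideal.Quotient.isDomain ((maximalIdeal O).map (C : O →+* MvPowerSeries {s // p s} O))
  refine ⟨(Ideal.Quotient.isDomain_iff_prime _).1 (e.toMulEquiv.isDomain _), ?_⟩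
  rw [ringKrullDim_eq_of_ringEquiv e, hϖ.maximalIdeal_eq, Ideal.map_span, Set.image_singleton]
  have h := dimGE_sup (A := MvPowerSeries {s // p s} O) (I := ⊥) (x := C ϖ)
    (k := Fintype.card {s // p s}) ((Cpl.mem_max_iff _).2 (by
      rw [constantCoeff_C, hϖ.maximalIdeal_eq]; exact Ideal.mem_span_singleton_self _))
    (by rw [P022G.Conn.dim_quot_bot, (P022D.Rl.Ch0.reg hϖ.maximalIdeal_eq).2])
  rwa [bot_sup_eq] at h

/-- generic fibre -/
theorem out_zero {σ : Type} [Fintype σ] (p : σ → Prop) [DecidablePred p] :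
    (out O p).IsPrime ∧ ((Fintype.card {s // p s} + 1 : ℕ) : WithBot ℕ∞) ≤
        ringKrullDim (MvPowerSeries σ O ⧸ out O p) := by
  obtain ⟨e⟩ := kill_out p (⊥ : Ideal O)
  obtain ⟨ϖ, hϖ⟩ := IsDiscreteValuationRing.exists_irreducible O
  rw [Ideal.map_bot, Ideal.map_bot, bot_sup_eq] at e
  haveI : IsDomain (MvPowerSeries {s // p s} O) := NoZeroDivisors.to_isDomain _
  haveI : (⊥ : Ideal (MvPowerSeries {s // p s} O)).IsPrime := Ideal.bot_prime
  haveI := Ideal.Quotient.isDomain (⊥ : Ideal (MvPowerSeries {s // p s} O))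
  refine ⟨(Ideal.Quotient.isDomain_iff_prime _).1 (e.toMulEquiv.isDomain _), ?_⟩
  rw [ringKrullDim_eq_of_ringEquiv e, P022G.Conn.dim_quot_bot,
    (P022D.Rl.Ch0.reg hϖ.maximalIdeal_eq).2]

variable {ι : Type} [Fintype ι]

/-- the generic matrices which are congruent to one -/
def gz (O : Type) [CommRing O] {ι : Type} (i : ι) : M2 (MvPowerSeries (ι × Fin 2 × Fin 2) O) :=
  1 + Matrix.of fun a b => X (i, a, b)

theorem del_not (p : ι → Prop) {i0 j0 : ι} (h1 : p i0) (h2 : p j0) (hne : i0 ≠ j0) :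
    del (gz O i0) (gz O j0) ∉ (maximalIdeal O).map C ⊔ out O fun s => p s.1 := by
  classical
  haveI : IsDomain (MvPowerSeries Unit (ResidueField O)) := NoZeroDivisors.to_isDomain _
  haveI := Cpl.isAdicCompleteV (σ := Unit) (V := ResidueField O) inferInstance
  obtain ⟨θ, t1, t2⟩ := P022G.Conn.exists_ev (maximalIdeal (MvPowerSeries Unit (ResidueField O)))
    ((C : ResidueField O →+* _).comp (residue O))
    (fun s : ι × Fin 2 × Fin 2 => if s = (i0, 0, 1) ∨ s = (j0, 1, 0) then X () else 0)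
    (fun s => by
      split_ifs
      · exact (Cpl.mem_max_iff _).2 (by simp)
      · exact zero_mem _)
  intro h
  have hk : (maximalIdeal O).map C ⊔ (out O fun s : ι × Fin 2 × Fin 2 => p s.1) ≤
      RingHom.ker θ := by
    refine sup_le (Ideal.map_le_iff_le_comap.2 fun a ha => ?_) (Ideal.span_le.2 ?_)
    · rw [Ideal.mem_comap, RingHom.mem_ker, t1, RingHom.comp_apply, (residue_eq_zero_iff _).2 ha,
        map_zero]
    · rintro _ ⟨s, hs, rfl⟩
      rw [SetLike.mem_coe, RingHom.mem_ker, t2, if_neg]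
      rintro (rfl | rfl)
      · exact hs h1
      · exact hs h2
  have h3 := hk h
  have e1 : (gz O i0).map θ = !![1, X (); 0, 1] := by
    ext1 a b
    fin_cases a <;> fin_cases b <;> simp [gz, t2, hne]
  have e2 : (gz O j0).map θ = !![1, 0; X (), 1] := by
    ext1 a b
    fin_cases a <;> fin_cases b <;> simp [gz, t2, hne.symm]
  rw [RingHom.mem_ker, map_del, e1, e2] at h3
  have h4 : (X () : MvPowerSeries Unit (ResidueField O)) ^ 4 = 0 := by
    simp only [del, Matrix.det_fin_two, Matrix.sub_apply, Matrix.mul_apply, Fin.sum_univ_two,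
      Matrix.of_apply, Matrix.cons_val', Matrix.cons_val_zero, Matrix.cons_val_one,
      Matrix.cons_val_fin_one] at h3
    linear_combination -h3
  have h5 := congrArg (coeff (Finsupp.single () 1)) (pow_eq_zero_iff (by norm_num) |>.1 h4)
  rw [coeff_index_single_self_X, map_zero] at h5
  exact one_ne_zero h5

theorem card_sub (p : ι → Prop) [DecidablePred p] :
    Fintype.card {s : ι × Fin 2 × Fin 2 // p s.1} = 4 * Fintype.card {i // p i} := by
  rw [Fintype.card_congr (Equiv.prodSubtypeFstEquivSubtypeProd (p := p))]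
  simp [mul_comm]

variable {P₀ : Type} [CommRing P₀] [IsNoetherianRing P₀]
  (φ : P₀ →+* MvPowerSeries (ι × Fin 2 × Fin 2) O)

/-- the range contains the constants, the determinants and the traces of short words -/
structure Rg : Prop where
  c : ∀ o, C o ∈ φ.range
  d : ∀ i, (gz O i).det ∈ φ.range
  t1 : ∀ i, (gz O i).trace ∈ φ.range
  t2 : ∀ i j, (gz O i * gz O j).trace ∈ φ.range
  t3 : ∀ i j k, (gz O i * (gz O j * gz O k)).trace ∈ φ.range

variable {φ}

theorem Rg.down (H : Rg φ) (i0 j0 : ι) (q : Ideal (MvPowerSeries (ι × Fin 2 × Fin 2) O))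
    (hq : q.IsPrime) (h0 : del (gz O i0) (gz O j0) ∉ q) (k : ℕ)
    (hk : ((k + 3 : ℕ) : WithBot ℕ∞) ≤ ringKrullDim (MvPowerSeries (ι × Fin 2 × Fin 2) O ⧸ q)) :
    (k : WithBot ℕ∞) ≤ ringKrullDim (P₀ ⧸ q.comap φ) := by
  refine down3 φ _ _ (gz O) H.c (fun ⟨i, a, b⟩ => ⟨-(if a = b then 1 else 0), Or.inr ⟨i, a, b, ?_⟩⟩)
    (H.t1 _) (H.d _) (H.t1 _) (H.d _) (H.t2 _ _)
    (fun i => ⟨H.t1 _, H.t2 _ _, H.t2 _ _, H.t3 _ _ _⟩) q hq h0 k hk
  rw [gz, Matrix.add_apply, Matrix.one_apply, Matrix.of_apply]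
  split_ifs <;> simp

/-- **the special fibre**, the generators outside `p` are trivial -/
theorem Rg.fib (H : Rg φ) (p : ι → Prop) [DecidablePred p] {i0 j0 : ι} (h1 : p i0) (h2 : p j0)
    (hne : i0 ≠ j0) (k : ℕ) (hk : k + 3 ≤ 4 * Fintype.card {i // p i}) :
    (((maximalIdeal O).map C ⊔ out O fun s => p s.1).comap φ).IsPrime ∧ (k : WithBot ℕ∞) ≤
      ringKrullDim (P₀ ⧸ ((maximalIdeal O).map C ⊔ out O fun s => p s.1).comap φ) := by
  obtain ⟨a1, a2⟩ := out_max (O := O) (fun s : ι × Fin 2 × Fin 2 => p s.1)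
  refine ⟨Ideal.comap_isPrime _ _, H.down i0 j0 _ a1 (del_not p h1 h2 hne) k (le_trans ?_ a2)⟩
  rw [card_sub]
  exact_mod_cast hk

/-- **the generic fibre** -/
theorem Rg.gen (H : Rg φ) (p : ι → Prop) [DecidablePred p] {i0 j0 : ι} (h1 : p i0) (h2 : p j0)
    (hne : i0 ≠ j0) (k : ℕ) (hk : k + 2 ≤ 4 * Fintype.card {i // p i}) :
    ((out O fun s => p s.1).comap φ).IsPrime ∧ (k : WithBot ℕ∞) ≤
      ringKrullDim (P₀ ⧸ (out O fun s => p s.1).comap φ) := by
  obtain ⟨a1, a2⟩ := out_zero (O := O) (fun s : ι × Fin 2 × Fin 2 => p s.1)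
  refine ⟨Ideal.comap_isPrime _ _, H.down i0 j0 _ a1
    (fun h => del_not p h1 h2 hne (Ideal.mem_sup_right h)) k (le_trans ?_ a2)⟩
  rw [card_sub]
  exact_mod_cast (by omega : k + 3 ≤ 4 * Fintype.card {i // p i} + 1)

end Vale.Agent.P022S.Dn
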