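import Vale.Agent.P022D.Top.Setup
import Vale.Agent.P022D.St

/-!
P022S: every continuous representation over a finite extension of the 2-adic field has a residual
representation over a finite field (stable lattice).
-/

set_option linter.all false

open NumberField Matrix IsLocalRing

noncomputable section

namespace Vale.Agent.P022S.H1

open Vale.Agent.P022 Vale.Agent.P022D.Top

/-- the entries of a continuous representation of a compact group are bounded -/
lemma exists_bound {G E : Type*} [Group G] [TopologicalSpace G] [CompactSpace G]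
    [NontriviallyNormedField E] (r : G →* GL (Fin 2) E) (hr : Continuous r) :
    ∃ C : ℝ, 0 < C ∧ ∀ g i j, ‖(r g : Matrix (Fin 2) (Fin 2) E) i j‖ ≤ C := by
  have h : ∀ i j : Fin 2, ∃ C : ℝ, ∀ g : G, ‖(r g : Matrix (Fin 2) (Fin 2) E) i j‖ ≤ C := by
    intro i j
    obtain ⟨C, hC⟩ := isCompact_univ.exists_bound_of_continuousOn
      ((Units.continuous_val.comp hr).matrix_elem i j).continuousOn
    exact ⟨C, fun g => hC g (Set.mem_univ g)⟩
  choose C hC using h
  refine ⟨1 + ∑ i, ∑ j, |C i j|, by positivity, fun g i j => (hC i j g).trans ?_⟩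
  have h1 : |C i j| ≤ ∑ j, |C i j| :=
    Finset.single_le_sum (f := fun j => |C i j|) (fun _ _ => abs_nonneg _) (Finset.mem_univ j)
  have h2 : ∑ j, |C i j| ≤ ∑ i, ∑ j, |C i j| :=
    Finset.single_le_sum (f := fun i => ∑ j, |C i j|)
      (fun _ _ => Finset.sum_nonneg fun _ _ => abs_nonneg _) (Finset.mem_univ i)
  have := le_abs_self (C i j)
  linarith

/-- Cramer -/
lemma inv_mul_apply {E : Type*} [Field E] (P Q : Matrix (Fin 2) (Fin 2) E) (i j : Fin 2) :
    (P⁻¹ * Q) i j = (P.updateCol i (fun k => Q k j)).det * P.det⁻¹ := by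
  have h1 : (P⁻¹ * Q) i j = (P⁻¹ *ᵥ (fun k => Q k j)) i := rfl
  rw [h1, Matrix.inv_def, Matrix.smul_mulVec, ← Matrix.cramer_eq_adjugate_mulVec, Pi.smul_apply,
    Matrix.cramer_apply, Ring.inverse_eq_inv', smul_eq_mul, mul_comm]

/-- **the stable lattice**: conjugation to integral entries -/
theorem exists_conj {G E : Type*} [Group G] [TopologicalSpace G] [CompactSpace G]
    [NontriviallyNormedField E] [ProperSpace E] (r : G →* GL (Fin 2) E) (hr : Continuous r) :
    ∃ P : Matrix (Fin 2) (Fin 2) E, P.det ≠ 0 ∧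
      ∀ g i j, ‖(P⁻¹ * ((r g : Matrix (Fin 2) (Fin 2) E) * P)) i j‖ ≤ 1 := by
  obtain ⟨C, hC0, hC⟩ := exists_bound r hr
  let S : Set (Fin 2 → Fin 2 → E) :=
    {P | ∀ g i j, ‖∑ k, (r g : Matrix (Fin 2) (Fin 2) E) i k * P k j‖ ≤ 1}
  have hScl : IsClosed S := by
    have : S = ⋂ g, ⋂ i, ⋂ j,
        {P | ‖∑ k, (r g : Matrix (Fin 2) (Fin 2) E) i k * P k j‖ ≤ 1} := by
      ext P; simp [S]
    rw [this]
    refine isClosed_iInter fun g => isClosed_iInter fun i => isClosed_iInter fun j => ?_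
    refine isClosed_le (Continuous.norm ?_) continuous_const
    refine continuous_finsetSum _ fun k _ => continuous_const.mul ?_
    exact (continuous_apply j).comp (continuous_apply k)
  have hSb : S ⊆ Metric.closedBall 0 1 := by
    intro P hP
    rw [mem_closedBall_zero_iff, pi_norm_le_iff_of_nonneg zero_le_one]
    intro i
    rw [pi_norm_le_iff_of_nonneg zero_le_one]
    intro j
    have := hP 1 i j
    simpa [Matrix.one_apply] using this
  have hSc : IsCompact S := (isCompact_closedBall _ _).of_isClosed_subset hScl hSb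
  have hdc : Continuous fun P : Fin 2 → Fin 2 → E => ‖(Matrix.of P).det‖ := by
    refine Continuous.norm ?_
    simp only [Matrix.det_fin_two, Matrix.of_apply]
    fun_prop
  obtain ⟨c, hc0, hc⟩ : ∃ c : E, c ≠ 0 ∧ ‖c‖ ≤ C⁻¹ := by
    obtain ⟨c, h1, h2⟩ := NormedField.exists_norm_lt E (inv_pos.2 hC0)
    exact ⟨c, norm_pos_iff.1 h1, h2.le⟩
  have hcS : (fun i j => if i = j then c else 0 : Fin 2 → Fin 2 → E) ∈ S := by
    intro g i j
    simp only [mul_ite, mul_zero, Finset.sum_ite_eq', Finset.mem_univ, if_true]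
    rw [norm_mul]
    calc _ ≤ C * C⁻¹ := mul_le_mul (hC g i j) hc (norm_nonneg _) hC0.le
      _ = 1 := mul_inv_cancel₀ hC0.ne'
  obtain ⟨P, hPS, hP⟩ := hSc.exists_isMaxOn ⟨_, hcS⟩ hdc.continuousOn
  have hdet : (Matrix.of P).det ≠ 0 := by
    have h1 := hP hcS
    have h2 : (Matrix.of (fun i j => if i = j then c else 0 : Fin 2 → Fin 2 → E)).det
        = c * c := by
      simp [Matrix.det_fin_two]
    have h3 : 0 < ‖c * c‖ := norm_pos_iff.2 (mul_ne_zero hc0 hc0)
    simp only [Set.mem_ofPred_eq, h2] at h1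
    exact norm_pos_iff.1 (h3.trans_le h1)
  refine ⟨Matrix.of P, hdet, fun g i j => ?_⟩
  rw [inv_mul_apply, norm_mul, norm_inv, ← div_eq_mul_inv, div_le_one (norm_pos_iff.2 hdet)]
  set Q : Matrix (Fin 2) (Fin 2) E := (r g : Matrix (Fin 2) (Fin 2) E) * Matrix.of P with hQ
  have hmem : (fun a b => ((Matrix.of P).updateCol i (fun k => Q k j)) a b) ∈ S := by
    intro h a b
    by_cases hb : b = i
    · subst hb
      have h1 : ∑ k, (r h : Matrix (Fin 2) (Fin 2) E) a k *
          ((Matrix.of P).updateCol b (fun k => Q k j)) k b =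
          ∑ k, (r (h * g) : Matrix (Fin 2) (Fin 2) E) a k * P k j := by
        simp only [Matrix.updateCol_self]
        have h2 : ((r h : Matrix (Fin 2) (Fin 2) E) * Q) a j =
            ((r (h * g) : Matrix (Fin 2) (Fin 2) E) * Matrix.of P) a j := by
          rw [hQ, ← Matrix.mul_assoc, map_mul]
          rfl
        simpa [Matrix.mul_apply] using h2
      rw [h1]
      exact hPS _ _ _
    · have h1 : ∑ k, (r h : Matrix (Fin 2) (Fin 2) E) a k *
          ((Matrix.of P).updateCol i (fun k => Q k j)) k b =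
          ∑ k, (r h : Matrix (Fin 2) (Fin 2) E) a k * P k b := by
        refine Finset.sum_congr rfl fun k _ => ?_
        rw [Matrix.updateCol_ne hb]
        rfl
      rw [h1]
      exact hPS _ _ _
  exact hP hmem

theorem exRes (E : Type) [NontriviallyNormedField E] [NormedAlgebra ℚ_[2] E]
    [FiniteDimensional ℚ_[2] E]
    (r : (AlgebraicClosure ℚ ≃ₐ[ℚ] AlgebraicClosure ℚ) →* GL (Fin 2) E) (hc : Continuous r) :
    ∃ (k : Type) (_ : Field k) (_ : CharP k 2) (_ : Finite k)
      (ρ : (AlgebraicClosure ℚ ≃ₐ[ℚ] AlgebraicClosure ℚ) →* GL (Fin 2) k), St.IsRes r ρ := by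
  have hu : IsUltrametricDist E := IsUltrametricDist.of_normedAlgebra ℚ_[2]
  have hG : CompactSpace (AlgebraicClosure ℚ ≃ₐ[ℚ] AlgebraicClosure ℚ) := by
    have h1 : Algebra.IsAlgebraic ℚ (AlgebraicClosure ℚ) := AlgebraicClosure.isAlgebraic ℚ
    have h2 : IsAlgClosure ℚ (AlgebraicClosure ℚ) := ⟨inferInstance, inferInstance⟩
    have h3 : IsGalois ℚ (AlgebraicClosure ℚ) := IsAlgClosure.isGalois ℚ _
    infer_instance
  have hpr : ProperSpace E := FiniteDimensional.proper ℚ_[2] E
  obtain ⟨P, hP, hint⟩ := exists_conj r hc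
  have hPu : IsUnit P.det := isUnit_iff_ne_zero.2 hP
  let π : Ob E →+* ResidueField (Ob E) := residue (Ob E)
  let ι : Matrix (Fin 2) (Fin 2) (Ob E) →+* Matrix (Fin 2) (Fin 2) E := (Ob E).subtype.mapMatrix
  have hι : Function.Injective ι := by
    intro A A' h
    ext i j
    exact congrFun (congrFun h i) j
  let B0 : (AlgebraicClosure ℚ ≃ₐ[ℚ] AlgebraicClosure ℚ) → Matrix (Fin 2) (Fin 2) (Ob E) :=
    fun g => Matrix.of fun i j =>
      ⟨(P⁻¹ * ((r g : Matrix (Fin 2) (Fin 2) E) * P)) i j, mem_Ob.2 (hint g i j)⟩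
  have hB0 : ∀ g, ι (B0 g) = P⁻¹ * ((r g : Matrix (Fin 2) (Fin 2) E) * P) := fun g => by
    ext i j; rfl
  let B : (AlgebraicClosure ℚ ≃ₐ[ℚ] AlgebraicClosure ℚ) →* Matrix (Fin 2) (Fin 2) (Ob E) :=
    { toFun := B0
      map_one' := hι (by
        rw [hB0, map_one, map_one, Units.val_one, Matrix.one_mul, Matrix.nonsing_inv_mul P hPu])
      map_mul' := fun g h => hι (by
        rw [map_mul, hB0, hB0, hB0, map_mul, Units.val_mul]
        have h1 : P * P⁻¹ = 1 := Matrix.mul_nonsing_inv P hPu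
        calc P⁻¹ * ((r g : Matrix (Fin 2) (Fin 2) E) * (r h : Matrix (Fin 2) (Fin 2) E) * P)
            = P⁻¹ * ((r g : Matrix (Fin 2) (Fin 2) E) * (1 * ((r h : Matrix (Fin 2) (Fin 2) E)
              * P))) := by rw [Matrix.one_mul, Matrix.mul_assoc]
          _ = P⁻¹ * ((r g : Matrix (Fin 2) (Fin 2) E) * P) *
              (P⁻¹ * ((r h : Matrix (Fin 2) (Fin 2) E) * P)) := by
            rw [← h1]; simp only [Matrix.mul_assoc]) }
  have hB : ∀ g, ι (B g) = P⁻¹ * ((r g : Matrix (Fin 2) (Fin 2) E) * P) := hB0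
  let ρ : (AlgebraicClosure ℚ ≃ₐ[ℚ] AlgebraicClosure ℚ) →* GL (Fin 2) (ResidueField (Ob E)) :=
    ((π.mapMatrix : Matrix (Fin 2) (Fin 2) (Ob E) →+*
      Matrix (Fin 2) (Fin 2) (ResidueField (Ob E))).toMonoidHom.comp B).toHomUnits
  have hρ : ∀ g, (ρ g : Matrix (Fin 2) (Fin 2) (ResidueField (Ob E))) = π.mapMatrix (B g) :=
    fun g => rfl
  refine ⟨ResidueField (Ob E), inferInstance, char_Ob, fin_Ob, ρ, Ob E, π, fun x => mem_Ob,
    fun g => ⟨(B g).trace, (B g).det, ?_, ?_, ?_, ?_⟩⟩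
  · have h1 : (((B g).trace : Ob E) : E) = (ι (B g)).trace := by
      simp [Matrix.trace, ι]
    rw [h1, hB, Matrix.trace_mul_comm, Matrix.mul_assoc, Matrix.mul_nonsing_inv P hPu,
      Matrix.mul_one]
  · have h1 : (((B g).det : Ob E) : E) = (ι (B g)).det :=
      RingHom.map_det (Ob E).subtype (B g)
    rw [h1, hB, Matrix.det_mul, Matrix.det_mul, mul_comm, mul_assoc, ← Matrix.det_mul,
      Matrix.mul_nonsing_inv P hPu, Matrix.det_one, mul_one]
  · rw [hρ]
    simp [Matrix.trace]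
  · rw [hρ]
    exact RingHom.map_det π (B g)

end Vale.Agent.P022S.H1
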