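import Vale.Agent.P022S.ExResH1
import Vale.Agent.P022.H224.Sv.S3
import Vale.Agent.P022.H431.Sv.StDef

/-!
P022S: if the residue field has two elements, there is a residual representation with solvable
image.
-/

set_option linter.all false

open NumberField Matrix IsLocalRing

noncomputable section

namespace Vale.Agent.P022S.H1

open Vale.Agent.P022 Vale.Agent.P022D.Top

theorem exResK (E : Type) [NontriviallyNormedField E] [NormedAlgebra ℚ_[2] E]
    [IsUltrametricDist E] [FiniteDimensional ℚ_[2] E]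
    (r : (AlgebraicClosure ℚ ≃ₐ[ℚ] AlgebraicClosure ℚ) →* GL (Fin 2) E) (hc : Continuous r) :
    ∃ ρ : (AlgebraicClosure ℚ ≃ₐ[ℚ] AlgebraicClosure ℚ) →* GL (Fin 2) (ResidueField (Ob E)),
      St.IsRes r ρ := by
  have hG : CompactSpace (AlgebraicClosure ℚ ≃ₐ[ℚ] AlgebraicClosure ℚ) := by
    have h1 : Algebra.IsAlgebraic ℚ (AlgebraicClosure ℚ) := AlgebraicClosure.isAlgebraic ℚ
    have h2 : IsAlgClosure ℚ (AlgebraicClosure ℚ) := ⟨inferInstance, inferInstance⟩
    have h3 : IsGalois ℚ (AlgebraicClosure ℚ) := IsAlgClosure.isGalois ℚ _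
    infer_instance
  have hpr : ProperSpace E := FiniteDimensional.proper ℚ_[2] E
  obtain ⟨P, hP, hint⟩ := exists_conj r hc
  have hPu : IsUnit P.det := isUnit_iff_ne_zero.2 hP
  let π : Ob E →+* ResidueField (Ob E) := residue (Ob E)
  let ι : Matrix (Fin 2) (Fin 2) (Ob E) →+* Matrix (Fin 2) (Fin 2) E := (Ob E).subtype.mapMatrix
  have hι : Function.Injective ι := by
    intro A A' h
    ext i j
    exact congrFun (congrFun h i) j
  let B0 : (AlgebraicClosure ℚ ≃ₐ[ℚ] AlgebraicClosure ℚ) → Matrix (Fin 2) (Fin 2) (Ob E) :=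
    fun g => Matrix.of fun i j =>
      ⟨(P⁻¹ * ((r g : Matrix (Fin 2) (Fin 2) E) * P)) i j, mem_Ob.2 (hint g i j)⟩
  have hB0 : ∀ g, ι (B0 g) = P⁻¹ * ((r g : Matrix (Fin 2) (Fin 2) E) * P) := fun g => by
    ext i j; rfl
  let B : (AlgebraicClosure ℚ ≃ₐ[ℚ] AlgebraicClosure ℚ) →* Matrix (Fin 2) (Fin 2) (Ob E) :=
    { toFun := B0
      map_one' := hι (by
        rw [hB0, map_one, map_one, Units.val_one, Matrix.one_mul, Matrix.nonsing_inv_mul P hPu])
      map_mul' := fun g h => hι (by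
        rw [map_mul, hB0, hB0, hB0, map_mul, Units.val_mul]
        have h1 : P * P⁻¹ = 1 := Matrix.mul_nonsing_inv P hPu
        calc P⁻¹ * ((r g : Matrix (Fin 2) (Fin 2) E) * (r h : Matrix (Fin 2) (Fin 2) E) * P)
            = P⁻¹ * ((r g : Matrix (Fin 2) (Fin 2) E) * (1 * ((r h : Matrix (Fin 2) (Fin 2) E)
              * P))) := by rw [Matrix.one_mul, Matrix.mul_assoc]
          _ = P⁻¹ * ((r g : Matrix (Fin 2) (Fin 2) E) * P) *
              (P⁻¹ * ((r h : Matrix (Fin 2) (Fin 2) E) * P)) := by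
            rw [← h1]; simp only [Matrix.mul_assoc]) }
  have hB : ∀ g, ι (B g) = P⁻¹ * ((r g : Matrix (Fin 2) (Fin 2) E) * P) := hB0
  let ρ : (AlgebraicClosure ℚ ≃ₐ[ℚ] AlgebraicClosure ℚ) →* GL (Fin 2) (ResidueField (Ob E)) :=
    ((π.mapMatrix : Matrix (Fin 2) (Fin 2) (Ob E) →+*
      Matrix (Fin 2) (Fin 2) (ResidueField (Ob E))).toMonoidHom.comp B).toHomUnits
  have hρ : ∀ g, (ρ g : Matrix (Fin 2) (Fin 2) (ResidueField (Ob E))) = π.mapMatrix (B g) :=
    fun g => rfl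
  refine ⟨ρ, Ob E, π, fun x => mem_Ob,
    fun g => ⟨(B g).trace, (B g).det, ?_, ?_, ?_, ?_⟩⟩
  · have h1 : (((B g).trace : Ob E) : E) = (ι (B g)).trace := by
      simp [Matrix.trace, ι]
    rw [h1, hB, Matrix.trace_mul_comm, Matrix.mul_assoc, Matrix.mul_nonsing_inv P hPu,
      Matrix.mul_one]
  · have h1 : (((B g).det : Ob E) : E) = (ι (B g)).det :=
      RingHom.map_det (Ob E).subtype (B g)
    rw [h1, hB, Matrix.det_mul, Matrix.det_mul, mul_comm, mul_assoc, ← Matrix.det_mul,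
      Matrix.mul_nonsing_inv P hPu, Matrix.det_one, mul_one]
  · rw [hρ]
    simp [Matrix.trace]
  · rw [hρ]
    exact RingHom.map_det π (B g)

theorem exTwo (E : Type) [NontriviallyNormedField E] [NormedAlgebra ℚ_[2] E]
    [FiniteDimensional ℚ_[2] E]
    (r : (AlgebraicClosure ℚ ≃ₐ[ℚ] AlgebraicClosure ℚ) →* GL (Fin 2) E) (hc : Continuous r)
    (h2 : St.ResTwo E) :
    ∃ (k : Type) (_ : Field k) (_ : CharP k 2) (_ : Finite k)
      (ρ : (AlgebraicClosure ℚ ≃ₐ[ℚ] AlgebraicClosure ℚ) →* GL (Fin 2) k),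
      St.IsRes r ρ ∧ Group.IsSolvable ρ.range := by
  have hu : IsUltrametricDist E := IsUltrametricDist.of_normedAlgebra ℚ_[2]
  obtain ⟨ρ, hρ⟩ := exResK E r hc
  have h : ∀ x : ResidueField (Ob E), x = 0 ∨ x = 1 := by
    intro x
    obtain ⟨y, rfl⟩ := residue_surjective x
    rcases h2 y (norm_Ob y) with h | h
    · exact Or.inl (res_Ob.2 h)
    · refine Or.inr (sub_eq_zero.1 ?_)
      rw [← map_one (residue (Ob E)), ← map_sub]
      exact res_Ob.2 h
  have hs := H224.Sv.gl2_solv (ResidueField (Ob E)) h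
  exact ⟨ResidueField (Ob E), inferInstance, char_Ob, fin_Ob, ρ, hρ, inferInstance⟩

/-- the field of 2-adic numbers has residue field with two elements -/
theorem resTwo : St.ResTwo ℚ_[2] := by
  intro x hx
  obtain ⟨z, rfl⟩ : ∃ z : ℤ_[2], (z : ℚ_[2]) = x := ⟨⟨x, hx⟩, rfl⟩
  obtain ⟨n, hn, h⟩ := PadicInt.exists_mem_range z
  rw [IsLocalRing.mem_maximalIdeal, PadicInt.mem_nonunits, PadicInt.norm_def, PadicInt.coe_sub,
    PadicInt.coe_natCast] at h
  interval_cases n
  · left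
    simpa only [Nat.cast_zero, Nat.cast_one, sub_zero] using h
  · right
    simpa only [Nat.cast_zero, Nat.cast_one, sub_zero] using h

end Vale.Agent.P022S.H1
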