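import Vale.Agent.P022S.Clf
import Vale.Agent.P022S.Sel.Defs
import Vale.Agent.P022G.Rw.Exq

/-!
# P022S: the auxiliary primes, with traces of Frobenius elements outside given surfaces
-/

set_option linter.all false

noncomputable section

namespace Vale.Agent.P022S.Exq

open NumberField IsLocalRing
open scoped Pointwise
open Vale.Agent.P022
open Vale.Agent.P027M.S (Inert)
open Vale.Agent.P022D.Sel (Ginf)
open _root_.P022S.Sel (Aux0 aux0)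

/-- two Frobenius elements are conjugate up to inertia -/
theorem frob_conj {l : ℕ} (hl : l.Prime) {φ φ' : GQ} (h : IsFrob l φ) (h' : IsFrob l φ') :
    ∃ (g : GQ) (Q : Ideal (𝓞 Qb)), Q.IsPrime ∧ (l : 𝓞 Qb) ∈ Q ∧ Inert Q (g * φ * g⁻¹ * φ'⁻¹) := by
  obtain ⟨P, hP, h1, h2⟩ := h
  obtain ⟨Q, hQ, h3, h4⟩ := h'
  obtain ⟨g, rfl⟩ := P027M.F.Tra.trans hl hP hQ h1 h3
  refine ⟨g, _, hQ, h3, fun x => ?_⟩
  have h6 := Ideal.smul_mem_pointwise_smul g _ P (h2 (g⁻¹ • φ'⁻¹ • x))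
  have h7 := h4 (φ'⁻¹ • x)
  rw [smul_sub, smul_pow', smul_inv_smul] at h6
  rw [smul_inv_smul] at h7
  have h8 := Ideal.sub_mem _ h6 h7
  rw [sub_sub_sub_cancel_right] at h8
  rw [mul_smul, mul_smul, mul_smul]
  exact h8

variable {A : Type} [CommRing A] [IsLocalRing A] [IsNoetherianRing A]

theorem tr_frob {t : GQ → A} {S : Finset ℕ} {E : Ideal A} (h : Clf.Sf t S E) {l : ℕ} (hl : l.Prime)
    (hS : l ∉ S) {φ φ' : GQ} (k : IsFrob l φ) (k' : IsFrob l φ') : t φ - t φ' ∈ E := by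
  obtain ⟨g, Q, a, b, c⟩ := frob_conj hl k k'
  have h1 := h.ur l hl hS Q a b _ c φ'
  have h2 : Ideal.Quotient.mk E (t (φ' * (g * φ * g⁻¹ * φ'⁻¹))) = Ideal.Quotient.mk E (t φ) := by
    have e1 := h.tf.comm φ' (g * φ * g⁻¹ * φ'⁻¹)
    have e2 := h.tf.comm (g * φ) g⁻¹
    rw [inv_mul_cancel_right] at e1
    rw [inv_mul_cancel_left] at e2
    exact e1.trans e2
  have h3 := Ideal.sub_mem _ h1 ((Ideal.Quotient.mk_eq_mk_iff_sub_mem _ _).1 h2)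
  rwa [sub_sub_sub_cancel_left] at h3

/-- **the primes of one level**; the exponent `c` does not depend on the level -/
theorem exq [IsAdicComplete (maximalIdeal A) A] [Finite (ResidueField A)] {t : GQ → A}
    {S : Finset ℕ} (h2 : 2 ∈ S) (s : Finset (Ideal A)) (hs : ∀ E ∈ s, Clf.Sf t S E)
    {U : Subgroup GQ} (hU : IsOpen (U : Set GQ)) (hn : U.Normal) {r : ℕ} (σ : Fin r → GQ)
    (hσ : ∀ i, σ i ∈ Ginf) (T₁ : Finset ℕ) :
    ∃ c : ℕ, ∀ (n : ℕ) (B : Finset ℕ), ∃ q : Fin r → ℕ, Function.Injective q ∧ ∀ i,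
      ((q i).Prime ∧ q i ∉ B ∪ S ∧ 2 ^ n ∣ q i - 1 ∧ (∃ z : ZMod (q i), z ^ 2 ^ n = 2) ∧
        ∀ φ, IsFrob (q i) φ → ∀ E ∈ s, t φ ∉ E ⊔ maximalIdeal A ^ c) ∧
      Aux0 U T₁ (σ i) (q i) := by
  classical
  choose u u1 u2 c V v1 v2 v3 v4 using fun i => Clf.good s hs hU hn (σ i)
  refine ⟨Finset.univ.sup c, fun n B => ?_⟩
  obtain ⟨W, hW, hc⟩ := P022D.Sel.cong n
  refine P022G.Exq.inj (fun i q => (q.Prime ∧ q ∉ B ∪ S ∧ 2 ^ n ∣ q - 1 ∧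
    (∃ z : ZMod q, z ^ 2 ^ n = 2) ∧ ∀ φ, IsFrob q φ → ∀ E ∈ s,
      t φ ∉ E ⊔ maximalIdeal A ^ Finset.univ.sup c) ∧ Aux0 U T₁ (σ i) q) fun i B' => ?_
  obtain ⟨q, hq, h1, φ, m, h3, h4, h5⟩ := aux0 (V i ⊓ W) ((v1 i).inter hW) (B' ∪ (B ∪ S) ∪ T₁)
    (σ i * u i)
  simp only [Finset.mem_union, not_or] at h1
  obtain ⟨k1, k2⟩ := hc q m (σ i * u i) φ hq (fun e => h1.1.2.2 (e ▸ h2))
    (Subgroup.mul_mem _ (hσ i) (u2 i)) h3 h5.2
  refine ⟨q, h1.1.1, ⟨hq, fun h => (Finset.mem_union.1 h).elim h1.1.2.1 h1.1.2.2, k1, k2,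
    fun φ' h' E hE k => v4 i m φ h4 h5.1 E hE ?_⟩, hq, h1.2, φ, m, h3, h4, ?_⟩
  · have k3 := Ideal.add_mem _ (Ideal.mem_sup_left (tr_frob (hs E hE) hq h1.1.2.2 h3 h')) k
    rw [sub_add_cancel] at k3
    exact sup_le_sup_left (Ideal.pow_le_pow_right (Finset.le_sup (Finset.mem_univ i))) E k3
  · have k4 := (QuotientGroup.eq_one_iff (N := U) _).2 (v3 i h5.1)
    have k5 := (QuotientGroup.eq_one_iff (N := U) _).2 (u1 i)
    refine (QuotientGroup.eq_one_iff (N := U) _).1 ?_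
    simp only [QuotientGroup.mk_mul, QuotientGroup.mk_pow, k5, mul_one] at k4 ⊢
    exact k4

end Vale.Agent.P022S.Exq
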