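import Vale.Agent.P022S.Kd

/-!
# P022S: the universal trace function of a free group over a ring of symbols
-/

set_option linter.all false

noncomputable section

namespace Vale.Agent.P022S.Ut

open Vale.Agent.P022.H346 Vale.Agent.P022G.Word _root_.P022G.Th MvPolynomial

variable {P : Type} [CommRing P] {n : ℕ} (p : Finset (Fin n) → P) (r : Fin n → Pˣ)

/-- the universal determinant -/
def dw : FreeGroup (Fin n) →* Pˣ := FreeGroup.lift r

theorem dw_of (i : Fin n) : dw r (FreeGroup.of i) = r i := FreeGroup.lift_apply_of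

/-- the relations of a trace function with the given symbols -/
def rel : Ideal (MvPolynomial (FreeGroup (Fin n)) P) := Ideal.span
  {f | f = X 1 - 2 ∨ (∃ g h, f = X (g * h) - X (h * g)) ∨
    (∃ g h, f = X g * X h - (X (g * h) + C (dw r h : P) * X (g * h⁻¹))) ∨
    ∃ s, f = X (wd FreeGroup.of s) - C (p s)}

/-- the structure map of the universal ring -/
def cu : P →+* MvPolynomial (FreeGroup (Fin n)) P ⧸ rel p r := (Ideal.Quotient.mk _).comp C

theorem tf_u : TF (fun w => Ideal.Quotient.mk (rel p r) (X w))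
    ((Units.map (cu p r).toMonoidHom).comp (dw r)) :=
  ⟨Ideal.Quotient.eq.2 (Ideal.subset_span (Or.inl rfl)),
    fun g h => Ideal.Quotient.eq.2 (Ideal.subset_span (Or.inr (Or.inl ⟨g, h, rfl⟩))),
    fun g h => Ideal.Quotient.eq.2 (Ideal.subset_span (Or.inr (Or.inr (Or.inl ⟨g, h, rfl⟩))))⟩

theorem rel_wd (s : Finset (Fin n)) : X (wd FreeGroup.of s) - C (p s) ∈ rel p r :=
  Ideal.subset_span (Or.inr (Or.inr (Or.inr ⟨s, rfl⟩)))

theorem ex_tw (w : FreeGroup (Fin n)) :
    ∃ u, cu p r u = Ideal.Quotient.mk (rel p r) (X w) :=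
  mem FreeGroup.of (cu p r).range (tf_u p r)
    (fun s => ⟨p s, Eq.symm (Ideal.Quotient.eq.2 (rel_wd p r s))⟩)
    (fun i => ⟨_, rfl⟩) (fun i => ⟨((dw r (FreeGroup.of i))⁻¹ : Pˣ), rfl⟩)
    (by rw [FreeGroup.closure_range_of]; trivial)

/-- the universal trace of a word -/
def tw (w : FreeGroup (Fin n)) : P := (ex_tw p r w).choose

/-- the relations between the symbols -/
def aT : Ideal P := RingHom.ker (cu p r)

variable {p r}

theorem lift_wd {G : Type} [Group G] (γ : Fin n → G) (s : Finset (Fin n)) :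
    FreeGroup.lift γ (wd FreeGroup.of s) = wd γ s := by
  rw [_root_.P022G.Kd.map_wd]
  exact congrArg (fun f => wd f s) (funext fun i => FreeGroup.lift_apply_of)

/-- **every trace function is a specialisation of the universal one** -/
theorem spec {G B : Type} [Group G] [CommRing B] {t : G → B} {d : G →* Bˣ} (T : TF t d)
    (γ : Fin n → G) (ψ : P →+* B) (hp : ∀ s, ψ (p s) = t (wd γ s))
    (hr : ∀ i, ψ (r i) = d (γ i)) :
    aT p r ≤ RingHom.ker ψ ∧ (∀ w, ψ (tw p r w) = t (FreeGroup.lift γ w)) ∧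
      ∀ w, ψ (dw r w) = d (FreeGroup.lift γ w) := by
  have hd : ∀ w, ψ (dw r w) = d (FreeGroup.lift γ w) := fun w => by
    have e : (Units.map ψ.toMonoidHom).comp (dw r) = d.comp (FreeGroup.lift γ) :=
      FreeGroup.ext_hom _ _ fun i => Units.ext (by
        rw [MonoidHom.comp_apply, MonoidHom.comp_apply, dw_of, FreeGroup.lift_apply_of]
        exact hr i)
    exact congrArg Units.val (DFunLike.congr_fun e w)
  let ev : MvPolynomial (FreeGroup (Fin n)) P →+* B := eval₂Hom ψ fun w => t (FreeGroup.lift γ w)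
  have eX : ∀ w, ev (X w) = t (FreeGroup.lift γ w) := fun w => eval₂Hom_X' _ _ _
  have eC : ∀ u, ev (C u) = ψ u := fun u => eval₂Hom_C _ _ _
  have k : rel p r ≤ RingHom.ker ev := Ideal.span_le.2 (by
    rintro f (rfl | ⟨g, h, rfl⟩ | ⟨g, h, rfl⟩ | ⟨s, rfl⟩) <;>
      rw [SetLike.mem_coe, RingHom.mem_ker, map_sub, sub_eq_zero]
    · rw [eX, map_one, T.one, map_ofNat]
    · rw [eX, eX, map_mul, map_mul, T.comm]
    · rw [map_mul, map_add, map_mul, eX, eX, eX, eX, eC, hd, map_mul, map_mul, map_inv, T.mul]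
    · rw [eX, eC, hp, lift_wd])
  refine ⟨fun u hu => ?_, fun w => ?_, hd⟩
  · exact (eC u).symm.trans (k (Ideal.Quotient.eq_zero_iff_mem.1 hu))
  · have := k (Ideal.Quotient.eq.1 (ex_tw p r w).choose_spec)
    rw [RingHom.mem_ker, map_sub, eC, eX, sub_eq_zero] at this
    exact this

/-- the case of matrices -/
theorem spec_mat {B : Type} [CommRing B] (Z : Fin n → M2 B) (hu : ∀ i, IsUnit (Z i)) (ψ : P →+* B)
    (hp : ∀ s, ψ (p s) = ((s.sort (· ≤ ·)).map Z).prod.trace) (hr : ∀ i, ψ (r i) = (Z i).det) :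
    aT p r ≤ RingHom.ker ψ ∧ (∀ w, ψ (tw p r w) = (Kd.fr Z hu w).trace) ∧
      ∀ w, ψ (dw r w) = (Kd.fr Z hu w).det := by
  have h := spec (_root_.P022G.Kd.tf_rep (Kd.fr Z hu)) FreeGroup.of ψ
    (fun s => by rw [hp, Kd.fr_wd]) fun i => by
      rw [hr]
      change _ = (Kd.fr Z hu (FreeGroup.of i)).det
      rw [Kd.fr_of]
  have e : ∀ w : FreeGroup (Fin n), FreeGroup.lift FreeGroup.of w = w := fun w =>
    DFunLike.congr_fun (FreeGroup.lift_of_eq_id _) w
  simp only [e] at h
  exact h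

/-- modulo the relations the universal traces form a trace function -/
theorem tf_a : TF (fun w => Ideal.Quotient.mk (aT p r) (tw p r w))
    ((Units.map (Ideal.Quotient.mk (aT p r)).toMonoidHom).comp (dw r)) ∧
    ∀ s, tw p r (wd FreeGroup.of s) - p s ∈ aT p r := by
  have e : ∀ w, cu p r (tw p r w) = Ideal.Quotient.mk (rel p r) (X w) := fun w =>
    (ex_tw p r w).choose_spec
  have T := tf_u p r
  refine ⟨⟨Ideal.Quotient.eq.2 ?_, fun g h => Ideal.Quotient.eq.2 ?_,
    fun g h => Ideal.Quotient.eq.2 ?_⟩, fun s => ?_⟩ <;>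
    rw [aT, RingHom.mem_ker, map_sub, sub_eq_zero]
  · rw [e]; exact T.one.trans (map_ofNat (cu p r) 2).symm
  · rw [e, e]; exact T.comm g h
  · rw [map_mul, map_add, map_mul, e, e, e, e]; exact T.mul g h
  · rw [e]
    exact Ideal.Quotient.eq.2 (rel_wd p r s)

end Vale.Agent.P022S.Ut
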