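import Vale.Agent.P022S.Gens0

/-!
# P022S: the minimal generators
-/

set_option linter.all false

noncomputable section

namespace Vale.Agent.P022S.Gens0

open NumberField
open Vale.Agent.P022 Vale.Agent.P022.H853
open Vale.Agent.P022E.GW (Ov Gn)
open Vale.Agent.P022E.Loc (Tm)
open Vale.Agent.P022S.Mod (Gen2)

theorem gen_min {T C : Finset ℕ} (hT : ∀ l ∈ T, l.Prime → l ≠ 2 → l ∈ C)
    (P : ℕ → Ideal (𝓞 Qb)) (τ φ : ℕ → GQ) (hP : ∀ l ∈ C, Ov l (P l))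
    (tm : ∀ l ∈ C, Tm l (P l) (τ l) (φ l)) {c x : GQ} (hc : IsConj c)
    (hx : (cyc 8 x : ZMod 8) = 5) :
    Gen2 T ∅ (Sum.elim ![x, c] fun l : C => τ l) :=
  Gen2.gen2 (fun l hl l2 m => by
      have m' := hT l (m.resolve_right (Finset.notMem_empty l)) hl l2
      exact ⟨Sum.inr ⟨l, m'⟩, P l, φ l, hP l m', tm l m'⟩)
    ⟨Sum.inl 1, hc⟩ ⟨Sum.inl 0, hx⟩

/-- a quadratic character which kills `x`, `c` and the tame generators is zero -/
theorem min0 {T C : Finset ℕ} (hT : ∀ l ∈ T, l.Prime → l ≠ 2 → l ∈ C)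
    (P : ℕ → Ideal (𝓞 Qb)) (τ φ : ℕ → GQ) (hP : ∀ l ∈ C, Ov l (P l))
    (tm : ∀ l ∈ C, Tm l (P l) (τ l) (φ l)) {c x : GQ} (hc : IsConj c)
    (hx : (cyc 8 x : ZMod 8) = 5) : ∀ χ ∈ Koch.Qc T, χ x = 0 → χ c = 0 →
      (∀ l : C, χ (τ l) = 0) → χ = 0 := fun χ h a b d =>
  qc_of (gen_min hT P τ φ hP tm hc hx) χ h fun i => by
    rcases i with i | i
    · fin_cases i
      · exact a
      · exact b
    · exact d i

end Vale.Agent.P022S.Gens0
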