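import Vale.Agent.P022S.Kd2
import Vale.Agent.P022S.Utr
import Vale.Agent.P022S.Mod.Gw
import Vale.Agent.P022S.Rep

/-!
# P022S: good ideals are framed objects up to the determinant of a commutator
-/

set_option linter.all false

noncomputable section

namespace Vale.Agent.P022S.Kd

open NumberField IsLocalRing
open Vale.Agent.P022 Vale.Agent.P022.H346 Vale.Agent.P022G.Word _root_.P022G.Th
open Vale.Agent.P022S.R Vale.Agent.P022S.Loc Vale.Agent.P022S.Mod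
open Vale.Agent.P027M.S (Inert mx)
open Vale.Agent.P022D.Core (PS Coef)
open Vale.Agent.P022E.Loc (Pl)
open Vale.Agent.P022E.As (Tg cc tt dd yy Gw)

variable {O F : Type} [CommRing O] [Field F] {S : Dat O F}

/-- the general form, for a trace function over a finite ring -/
theorem kdel0 [Finite F] {L : Pl O} (h1 : ∀ g, mx S.rb g = 1) (hW : L.W = ∅) {B : Type}
    [CommRing B] [Finite B] {t : GQ → B} {d : GQ →* Bˣ} (T : TF t d) (j : O →+* B)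
    {Q : Finset ℕ} (K : Subgroup GQ) [K.Normal] (ho : IsOpen (K : Set GQ)) (hK : K ≤ N t d)
    (unr : ∀ l : ℕ, l.Prime → l ∉ S.T → l ∉ Q → ∀ P : Ideal (𝓞 Qb), P.IsPrime →
      (l : 𝓞 Qb) ∈ P → ∀ s, Inert P s → s ∈ K)
    (d2 : ∀ g ∈ P022D.W.dec (L.P 2), (d g : B) = j (L.r g).det) (dc : (d L.c : B) = -1)
    (dl : ∀ l ∈ L.W ∪ L.C, (d (L.τ l) : B) = j (L.r (L.τ l)).det) {n : ℕ} (γ : Fin n → GQ)
    (hs : ∀ g, ∃ w ∈ Subgroup.closure (Set.range γ), g⁻¹ * w ∈ K)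
    {P0 P2 : Type} [CommRing P0] [CommRing P2] [IsLocalRing P2] [IsNoetherianRing P2]
    (ψ : P0 →+* B) (cO : O →+* P0)
    (hc : ∀ o, ψ (cO o) = j o) (p : Finset (Fin n) → P0) (r : Fin n → P0)
    (hp : ∀ s, ψ (p s) = t (wd γ s)) (hr : ∀ i, ψ (r i) = d (γ i)) (φ : P0 →+* P2)
    (res : P2 →+* F) (hres : ∀ u, res u ≠ 0 → IsUnit u) (hφ : ∀ o, res (φ (cO o)) = S.red o)
    (Z : Fin n → M2 P2) (hu : ∀ i, IsUnit (Z i)) (hZ : ∀ i, (Z i).map res = 1) (tt : Ideal P2)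
    (hp' : ∀ s, φ (p s) - ((s.sort (· ≤ ·)).map Z).prod.trace ∈ tt)
    (hr' : ∀ i, φ (r i) - (Z i).det ∈ tt) (α : ℕ → M2 P2) (a1 : ∀ l, (α l).map res = 1)
    (a2 : ∀ l ∉ S.T, α l = 1) (a3 : ∀ a b, (α S.l0 - 1) a b ∈ tt) (f : P2)
    (hf : ∀ (A : Type) [CommRing A] (X : Obj S A) (μ : P2 →+* A),
      (∀ s ∈ (RingHom.ker ψ).map φ ⊔ tt, μ s = 0) → (∀ s, X.π (μ s) = res s) →
      X.ι = μ.comp (φ.comp cO) →
      X.α = (fun l => (α l).map μ) → X.β = (fun l => ((α l)⁻¹).map μ) → Ty (ClG L S) Q A X →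
      (∀ w, X.ρ (FreeGroup.lift γ w) = (fr Z hu w).map μ) → (∀ i, X.ρ (γ i) = (Z i).map μ) →
      (∀ k ∈ K, X.ρ k = 1) → (∀ g u, ψ u = t g → (X.ρ g).trace = μ (φ u)) →
      (∀ g u, ψ u = d g → (X.ρ g).det = μ (φ u)) → μ f = 0) (a b : FreeGroup (Fin n)) :
    del (fr Z hu a) (fr Z hu b) * f ∈ (RingHom.ker ψ).map φ ⊔ tt := by
  obtain ⟨-, J, c1, c2⟩ := objs h1 hW T j K ho hK unr d2 dc dl γ hs ψ cO hc p r hp hr φ res hφ Z
    hu hZ tt hp' hr'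
  have hfI : f ∈ (RingHom.ker ψ).map φ ⊔ tt ⊔ J := by
    refine Vale.Agent.P022G.loc_test res hres _ f fun A _ _ μ π' b1 b2 b3 => ?_
    obtain ⟨X, y1, y2, y3, y4, y5, y6, y7, y8, y9, y10⟩ := c2 A μ π' b1 b2 b3
      (fun l => (α l).map μ) (fun l => ((α l)⁻¹).map μ)
      (fun l => by
        rw [← Matrix.map_mul, Matrix.mul_nonsing_inv _ ((Matrix.isUnit_iff_isUnit_det _).1
          (unit_of_res res hres (a1 l)))]
        exact Matrix.map_one _ (map_zero _) (map_one _))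
      (fun l => by
        rw [← a1 l]
        ext a b
        exact b2 _)
      (fun l hl => by
        rw [a2 l hl]
        exact Matrix.map_one _ (map_zero _) (map_one _))
      (by
        rw [← Matrix.map_one μ (map_zero _) (map_one _)]
        ext a b
        have := b3 _ (Ideal.mem_sup_left (Ideal.mem_sup_right (a3 a b)))
        rwa [Matrix.sub_apply, map_sub, sub_eq_zero] at this)
    exact hf A X μ (fun s hs => b3 s (Ideal.mem_sup_left hs)) (fun s => by rw [y2, b2]) y1 y3 y4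
      y5 y6 y7 y8 y9 y10
  obtain ⟨u, hu', s, hs', rfl⟩ := Submodule.mem_sup.1 hfI
  rw [mul_add]
  exact add_mem (Ideal.mul_mem_left _ _ hu') (c1 a b s hs')

/-- the form for good ideals -/
theorem kdelG [IsDomain O] [IsDiscreteValuationRing O] [Coef O] [Finite F] {L : Pl O} {ϖ : O}
    (h1 : ∀ g, mx S.rb g = 1) (hW : L.W = ∅) (odd : (L.r L.c).det = -1) (H : Fs ϖ L S.T)
    {Q : Finset ℕ} {m : ℕ} {𝔞 : Ideal (Tg O)} (h : Gs ϖ L S.T Q m 𝔞) {n : ℕ} (γ : Fin n → GQ)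
    (hG : Gen2 S.T Q γ)
    {P0 P2 : Type} [CommRing P0] [CommRing P2] [IsLocalRing P2] [IsNoetherianRing P2]
    (ψ : P0 →+* Tg O ⧸ 𝔞) (cO : O →+* P0)
    (hc : ∀ o, ψ (cO o) = Ideal.Quotient.mk 𝔞 (cc o)) (p : Finset (Fin n) → P0) (r : Fin n → P0)
    (hp : ∀ s, ψ (p s) = Ideal.Quotient.mk 𝔞 (tt (wd γ s)))
    (hr : ∀ i, ψ (r i) = Ideal.Quotient.mk 𝔞 (dd (γ i))) (φ : P0 →+* P2)
    (res : P2 →+* F) (hres : ∀ u, res u ≠ 0 → IsUnit u) (hφ : ∀ o, res (φ (cO o)) = S.red o)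
    (Z : Fin n → M2 P2) (hu : ∀ i, IsUnit (Z i)) (hZ : ∀ i, (Z i).map res = 1) (t0 : Ideal P2)
    (hp' : ∀ s, φ (p s) - ((s.sort (· ≤ ·)).map Z).prod.trace ∈ t0)
    (hr' : ∀ i, φ (r i) - (Z i).det ∈ t0) (α : ℕ → M2 P2) (a1 : ∀ l, (α l).map res = 1)
    (a2 : ∀ l ∉ S.T, α l = 1) (a3 : ∀ a b, (α S.l0 - 1) a b ∈ t0) (f : P2)
    (hf : ∀ (A : Type) [CommRing A] (X : Obj S A) (μ : P2 →+* A),
      (∀ s ∈ (RingHom.ker ψ).map φ ⊔ t0, μ s = 0) → (∀ s, X.π (μ s) = res s) →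
      X.ι = μ.comp (φ.comp cO) →
      X.α = (fun l => (α l).map μ) → X.β = (fun l => ((α l)⁻¹).map μ) → Ty (ClG L S) Q A X →
      (∀ w, X.ρ (FreeGroup.lift γ w) = (fr Z hu w).map μ) → (∀ i, X.ρ (γ i) = (Z i).map μ) →
      (∀ k, (∀ g, tt (g * k) - tt g ∈ 𝔞) → dd k - 1 ∈ 𝔞 → X.ρ k = 1) →
      (∀ g u, ψ u = Ideal.Quotient.mk 𝔞 (tt g) → (X.ρ g).trace = μ (φ u)) →
      (∀ g u, ψ u = Ideal.Quotient.mk 𝔞 (dd g) → (X.ρ g).det = μ (φ u)) → μ f = 0)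
    (a b : FreeGroup (Fin n)) :
    del (fr Z hu a) (fr Z hu b) * f ∈ (RingHom.ker ψ).map φ ⊔ t0 := by
  haveI := h.gw.fin
  haveI := N_normal (gw_tf h.gw)
  refine kdel0 h1 hW (gw_tf h.gw) ((Ideal.Quotient.mk 𝔞).comp MvPolynomial.C) _ h.N_open le_rfl
    h.N_unr (fun g hg => Ideal.Quotient.eq.2 (h.gw.cld g (Or.inl hg))) ?_
    (fun l hl => Ideal.Quotient.eq.2 (h.gw.cld _ (Or.inr (Or.inr (Or.inl ⟨l, hl, rfl⟩))))) γ
    (hG.mod _ h.N_open (H.pow_N h.gw) h.N_unr) ψ cO hc p r hp hr φ res hres hφ Z hu hZ t0 hp' hr'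
    α a1 a2 a3 f (fun A _ X μ b1 b2 b3 b4 b5 b6 b7 b8 b9 b10 b11 => hf A X μ b1 b2 b3 b4 b5 b6 b7 b8
      (fun k k1 k2 => b9 k ((Mod.mem_N h.gw).2 ⟨k1, k2⟩)) b10 b11) a b
  have := Ideal.Quotient.eq.2 (h.gw.cld _ (Or.inr (Or.inl rfl)))
  rw [odd] at this
  rw [dq_val, this]
  change Ideal.Quotient.mk 𝔞 (MvPolynomial.C (-1)) = -1
  rw [map_neg, map_one, map_neg, map_one]

/-- the universal discriminant maps to the determinant of the commutator -/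
theorem del_tw {P0 P2 : Type} [CommRing P0] [CommRing P2] {n : ℕ} (p : Finset (Fin n) → P0)
    (r : Fin n → P0ˣ) (φ : P0 →+* P2) (Z : Fin n → M2 P2) (hu : ∀ i, IsUnit (Z i)) (I : Ideal P2)
    (hp' : ∀ s, φ (p s) - ((s.sort (· ≤ ·)).map Z).prod.trace ∈ I)
    (hr' : ∀ i, φ (r i) - (Z i).det ∈ I) :
    (Ut.aT p r).map φ ≤ I ∧ (∀ w, φ (Ut.tw p r w) - (fr Z hu w).trace ∈ I) ∧
      (∀ w, φ (Ut.dw r w) - (fr Z hu w).det ∈ I) ∧
      ∀ a b, φ (Rep.δ (Ut.tw p r) (Ut.dw r) a b) - del (fr Z hu a) (fr Z hu b) ∈ I := by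
  let R := _root_.P022G.Kd.red (Ideal.Quotient.mk I) (fr Z hu)
  obtain ⟨k1, k2, k3⟩ := Ut.spec (p := p) (r := r) (_root_.P022G.Kd.tf_rep R) FreeGroup.of
    ((Ideal.Quotient.mk I).comp φ)
    (fun s => by
      rw [_root_.P022G.Kd.red_trace, fr_wd]
      exact Ideal.Quotient.eq.2 (hp' s))
    fun i => by
      change _ = (R (FreeGroup.of i)).det
      rw [_root_.P022G.Kd.red_det, fr_of]
      exact Ideal.Quotient.eq.2 (hr' i)
  have e : ∀ w : FreeGroup (Fin n), FreeGroup.lift FreeGroup.of w = w := fun w =>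
    DFunLike.congr_fun (FreeGroup.lift_of_eq_id _) w
  have k2' : ∀ w, Ideal.Quotient.mk I (φ (Ut.tw p r w)) =
      Ideal.Quotient.mk I (fr Z hu w).trace := fun w => by
    rw [← _root_.P022G.Kd.red_trace]
    exact (k2 w).trans (by rw [e])
  have k3' : ∀ w, Ideal.Quotient.mk I (φ (Ut.dw r w)) =
      Ideal.Quotient.mk I (fr Z hu w).det := fun w => by
    rw [← _root_.P022G.Kd.red_det]
    exact (k3 w).trans (by rw [e]; rfl)
  refine ⟨Ideal.map_le_iff_le_comap.2 fun u hu' =>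
    (Ideal.Quotient.eq_zero_iff_mem (I := I) (a := φ u)).1 (k1 hu'),
    fun w => Ideal.Quotient.eq.1 (k2' w), fun w => Ideal.Quotient.eq.1 (k3' w),
    fun a b => Ideal.Quotient.eq.1 ?_⟩
  rw [del_eq, ← map_mul, Rep.δ]
  simp only [dl, map_add, map_sub, map_mul (Ideal.Quotient.mk I), map_mul φ, map_pow, map_neg,
    map_ofNat, k2', k3']

end Vale.Agent.P022S.Kd
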