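import Vale.Agent.P022S.Typ
import Vale.Agent.P022S.Mod.Gw

/-! # P022S, block NICE, part 2: words in the generators -/

set_option linter.all false

noncomputable section

namespace Vale.Agent.P022S.Nice

open NumberField IsLocalRing Vale.Agent.P022 Vale.Agent.P022G.Nice
open Vale.Agent.P022D.Sel (Ginf M2)
open _root_.P022G.Sel (mr rd tI Lv)

variable {V : Type} [CommRing V] [IsDomain V] [IsDiscreteValuationRing V] [CharP V 2] {t : V}
  [Finite (ResidueField V)] {T : Finset ℕ} {D : ℕ → Set GQ} {ι : Type} {γ : ι → GQ}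

theorem fin_t (ht : Irreducible t) (N : ℕ) : Finite (V ⧸ tI t N) := by
  have : Finite (V ⧸ Ideal.span {t}) := by
    rw [← ht.maximalIdeal_eq]
    exact ‹Finite (ResidueField V)›
  rw [tI, ← Ideal.span_singleton_pow]
  exact Ideal.finite_quotient_pow ⟨{t}, by simp⟩ N

/-- modulo `t ^ N` every element is a positive word in the generators -/
theorem gen_w (hγ : Mod.Gen2 T ∅ γ) (ht : Irreducible t) (ρ : GQ →* GL (Fin 2) V)
    (lv : ∀ N, Lv (rd (tI t N) ρ) T D) (res : ∀ g a b, t ∣ (mr ρ g - 1) a b) (N : ℕ) (g : GQ) :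
    ∃ l : List ι, ∀ a b, t ^ N ∣ mr ρ g a b - mr ρ (l.map γ).prod a b := by
  haveI := fin_t ht N
  have k := hγ _ (rd (tI t N) ρ) (lv N).opn
    (fun g => ⟨N, by
      rw [← map_pow]
      exact rd_two ρ ((rd_one ρ 1 g).2 fun a b => by rw [pow_one]; exact res g a b) N⟩)
    (fun l hl hT _ P hP hm s hs => (lv N).unr l hT P ⟨hl, hP, hm⟩ s hs) g
  rw [← Subgroup.mem_toSubmonoid, Subgroup.closure_toSubmonoid_of_finite] at k
  have e : ∀ u ∈ Submonoid.closure (Set.range fun i => rd (tI t N) ρ (γ i)),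
      ∃ l : List ι, u = rd (tI t N) ρ (l.map γ).prod := fun u hu => by
    induction hu using Submonoid.closure_induction with
    | mem x hx =>
      obtain ⟨i, rfl⟩ := hx
      exact ⟨[i], by simp⟩
    | one => exact ⟨[], by simp⟩
    | mul x y _ _ hx hy =>
      obtain ⟨l, rfl⟩ := hx
      obtain ⟨l', rfl⟩ := hy
      exact ⟨l ++ l', by rw [List.map_append, List.prod_append, map_mul]⟩
  obtain ⟨l, hl⟩ := e _ k
  refine ⟨l, fun a b => ?_⟩
  rw [← Ideal.mem_span_singleton, ← Ideal.Quotient.eq]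
  exact congrArg (fun u : GL (Fin 2) (V ⧸ tI t N) => (u : M2 (V ⧸ tI t N)) a b) hl

/-- two words which generate an absolutely irreducible representation -/
theorem ex_w (hγ : Mod.Gen2 T ∅ γ) (ht : Irreducible t) (ρ : GQ →* GL (Fin 2) V)
    (lv : ∀ N, Lv (rd (tI t N) ρ) T D) (res : ∀ g a b, t ∣ (mr ρ g - 1) a b) {s k : GQ}
    (h : (mr ρ s * mr ρ k - mr ρ k * mr ρ s).det ≠ 0) : ∃ l l' : List ι,
      (mr ρ (l.map γ).prod * mr ρ (l'.map γ).prod -
        mr ρ (l'.map γ).prod * mr ρ (l.map γ).prod).det ≠ 0 := by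
  obtain ⟨N, hN⟩ : ∃ N, ¬ t ^ N ∣ (mr ρ s * mr ρ k - mr ρ k * mr ρ s).det :=
    not_forall.1 fun e => h (sep_max _ fun n => by
      rw [ht.maximalIdeal_eq, Ideal.span_singleton_pow, Ideal.mem_span_singleton]
      exact e n)
  obtain ⟨l, hl⟩ := gen_w hγ ht ρ lv res N s
  obtain ⟨l', hl'⟩ := gen_w hγ ht ρ lv res N k
  refine ⟨l, l', fun e => hN ?_⟩
  have q : ∀ {X Y : M2 V}, (∀ a b, t ^ N ∣ X a b - Y a b) →
      (Ideal.Quotient.mk (tI t N)).mapMatrix X = (Ideal.Quotient.mk (tI t N)).mapMatrix Y :=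
    fun h => Matrix.ext fun a b => Ideal.Quotient.eq.2 (Ideal.mem_span_singleton.2 (h a b))
  rw [← Ideal.mem_span_singleton, ← Ideal.Quotient.eq_zero_iff_mem, RingHom.map_det, map_sub,
    map_mul, map_mul, q hl, q hl', ← map_mul, ← map_mul, ← map_sub, ← RingHom.map_det, e, map_zero]

/-- the same with elements of the free group -/
theorem ex_fw (hγ : Mod.Gen2 T ∅ γ) (ht : Irreducible t) (ρ : GQ →* GL (Fin 2) V)
    (lv : ∀ N, Lv (rd (tI t N) ρ) T D) (res : ∀ g a b, t ∣ (mr ρ g - 1) a b) {s k : GQ}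
    (h : (mr ρ s * mr ρ k - mr ρ k * mr ρ s).det ≠ 0) : ∃ u v : FreeGroup ι,
      (mr ρ (FreeGroup.lift γ u) * mr ρ (FreeGroup.lift γ v) -
        mr ρ (FreeGroup.lift γ v) * mr ρ (FreeGroup.lift γ u)).det ≠ 0 := by
  obtain ⟨l, l', e⟩ := ex_w hγ ht ρ lv res h
  have k : ∀ l : List ι, FreeGroup.lift γ (l.map FreeGroup.of).prod = (l.map γ).prod := fun l => by
    rw [map_list_prod, List.map_map]
    exact congrArg (fun f => (l.map f).prod) (funext fun i => FreeGroup.lift_apply_of)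
  exact ⟨(l.map FreeGroup.of).prod, (l'.map FreeGroup.of).prod, by rwa [k l, k l']⟩

end Vale.Agent.P022S.Nice
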