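import Vale.Agent.P022G.Rw.PcB

/-!
# P022S: small Jacobian kernels at all levels give a limit system with a non zero minor
-/

set_option linter.all false

noncomputable section

namespace Vale.Agent.P022S.Jcl

open IsLocalRing MvPowerSeries Filter
open Vale.Agent.P022D.Core (PS Coef)
open _root_.P022G.Sel (tI)

theorem core {O σ G V : Type} [CommRing O] [IsDomain O] [IsDiscreteValuationRing O] [Coef O]
    [Fintype σ] [Fintype G] [CommRing V] [IsDomain V] [IsDiscreteValuationRing V]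
    [Finite (ResidueField V)] {t : V} (ht : Irreducible t) (θ : PS O (σ ⊕ G) →+* V)
    (K : ℕ → Ideal (PS O (σ ⊕ G))) {d s c e : ℕ} (hs : s + d = Fintype.card G)
    (h : ∀ n, Nat.card {v : G → V ⧸ tI t c // ∀ f : K n, ∑ z, Ideal.Quotient.mk (tI t c)
      (θ (pderiv O (Sum.inr z) f.1)) * v z = 0} * Nat.card (V ⧸ tI t c) ^ e ≤
        c * Nat.card (V ⧸ tI t c) ^ (d + e)) :
    ∃ (W : Ultrafilter ℕ) (kn : ℕ → Fin s → PS O (σ ⊕ G)) (k : Fin s → PS O (σ ⊕ G))
      (col : Fin s → σ ⊕ G), (W : Filter ℕ) ≤ atTop ∧ (∀ n a, kn n a ∈ K n) ∧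
      (∀ a, P022D.PA.Cv (W : Filter ℕ) (fun n => kn n a) (k a)) ∧
      (∀ a, col a ∉ Set.range Sum.inl) ∧ θ (P022G.Rel.mn k col) ≠ 0 := by
  classical
  have hf := P022G.Tw.fin_tI ht
  have hj : ∀ n, ∃ (k : Fin s → K n) (cl : Fin s → G),
      (Matrix.of fun a b => θ (pderiv O (Sum.inr (cl b)) (k a).1)).det ∣ (t ^ c) ^ s := fun n => by
    have h4 := P022G.PcB.lt_card ht hf c
    have := hf c
    obtain ⟨k, cl, -, h5⟩ := _root_.P022G.Jac.jac (t ^ c) s
      (fun (f : K n) (z : G) => θ (pderiv O (Sum.inr z) f.1)) (by omega) (by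
        have e1 : Fintype.card G - s + 1 = d + 1 := by omega
        rw [e1]
        refine Nat.lt_of_mul_lt_mul_right (a := Nat.card (V ⧸ tI t c) ^ e) ((h n).trans_lt ?_)
        calc c * Nat.card (V ⧸ tI t c) ^ (d + e)
            < Nat.card (V ⧸ tI t c) * Nat.card (V ⧸ tI t c) ^ (d + e) :=
              Nat.mul_lt_mul_of_pos_right h4 (Nat.pow_pos (by omega))
          _ = _ := by ring)
    exact ⟨k, cl, h5⟩
  choose kn cl hkn using hj
  let W : Ultrafilter ℕ := Ultrafilter.of atTop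
  obtain ⟨col, hcol⟩ := Ultrafilter.eq_pure_of_finite (W.map cl)
  have hcol' : ∀ᶠ n in (W : Filter ℕ), cl n = col := by
    have : {col} ∈ W.map cl := by rw [hcol]; exact Ultrafilter.mem_pure.2 rfl
    exact this
  have b0 := P022D.As.base O (σ ⊕ G)
  choose k hk using fun a => P022D.PA.lim (PS O (σ ⊕ G)) W fun n => (kn n a).1
  refine ⟨W, fun n a => (kn n a).1, k, fun a => Sum.inr (col a), Ultrafilter.of_le _,
    fun n a => (kn n a).2, hk, ?_, ?_⟩
  · rintro a ⟨x, hx⟩
    cases hx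
  · refine P022G.PcB.mn_ne ht θ (W : Filter ℕ) (fun n a => (kn n a).1) k _ hk (c * s)
      (hcol'.mono fun n hn => ?_)
    rw [pow_mul, ← hn]
    exact hkn n

end Vale.Agent.P022S.Jcl
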