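import Vale.Agent.P022.H346.FAlg

/-!
# P022S: the traces of all words are generated by the traces of words without repetition
-/

set_option linter.all false

namespace Vale.Agent.P022S

open Vale.Agent.P022.H346

variable {G B ι : Type} [Group G] [CommRing B] {t : G → B} {d : G →* Bˣ}

/-- the value of a letter -/
def lt (γ : ι → G) (x : ι × Bool) : G := if x.2 then γ x.1 else (γ x.1)⁻¹

/-- the value of a word -/
def wd (γ : ι → G) (w : List (ι × Bool)) : G := (w.map (lt γ)).prod

/-- the inverse word -/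
def iv (w : List (ι × Bool)) : List (ι × Bool) := (w.map fun x => (x.1, !x.2)).reverse

variable {γ : ι → G}

theorem wd_app (u v : List (ι × Bool)) : wd γ (u ++ v) = wd γ u * wd γ v := by simp [wd]

theorem wd_cons (x : ι × Bool) (v : List (ι × Bool)) : wd γ (x :: v) = lt γ x * wd γ v := by
  simp [wd]

theorem wd_iv (u : List (ι × Bool)) : wd γ (iv u) = (wd γ u)⁻¹ := by
  induction u with
  | nil => simp [wd, iv]
  | cons x u ih =>
    have e : iv (x :: u) = iv u ++ [(x.1, !x.2)] := by simp [iv]
    rw [e, wd_app, ih, wd_cons, wd_cons, mul_inv_rev]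
    rcases x with ⟨i, _ | _⟩ <;> simp [lt, wd]

theorem ex_wd {g : G} (hg : g ∈ Subgroup.closure (Set.range γ)) : ∃ w, wd γ w = g := by
  induction hg using Subgroup.closure_induction with
  | mem x hx =>
    obtain ⟨i, rfl⟩ := hx
    exact ⟨[(i, true)], by simp [wd, lt]⟩
  | one => exact ⟨[], rfl⟩
  | mul x y _ _ h k =>
    obtain ⟨u, rfl⟩ := h
    obtain ⟨v, rfl⟩ := k
    exact ⟨u ++ v, wd_app u v⟩
  | inv x _ h =>
    obtain ⟨u, rfl⟩ := h
    exact ⟨iv u, wd_iv u⟩

variable {R : Subring B}

theorem d_wd (hd : ∀ i, (d (γ i) : B) ∈ R ∧ (((d (γ i))⁻¹ : Bˣ) : B) ∈ R) (w : List (ι × Bool)) :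
    (d (wd γ w) : B) ∈ R := by
  induction w with
  | nil => simpa [wd] using R.one_mem
  | cons x w ih =>
    rw [wd_cons, map_mul, Units.val_mul]
    refine R.mul_mem ?_ ih
    rcases x with ⟨i, _ | _⟩
    · simpa [lt] using (hd i).2
    · exact (hd i).1

theorem t_wd (T : TF t d) (hd : ∀ i, (d (γ i) : B) ∈ R ∧ (((d (γ i))⁻¹ : Bˣ) : B) ∈ R)
    (ht : ∀ l : List ι, l.Nodup → t (l.map γ).prod ∈ R) (n : ℕ) :
    ∀ w : List (ι × Bool), w.length ≤ n → t (wd γ w) ∈ R := by
  classical
  induction n with
  | zero =>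
    intro w hw
    rw [List.length_eq_zero_iff.1 (Nat.le_zero.1 hw)]
    exact ht [] List.nodup_nil
  | succ n ih =>
    suffices H : ∀ (k : ℕ) (w : List (ι × Bool)), w.length ≤ n + 1 →
        w.countP (fun x => !x.2) ≤ k → t (wd γ w) ∈ R from fun w hw => H _ w hw le_rfl
    intro k
    induction k with
    | zero =>
      intro w hw hk
      have pos : ∀ x ∈ w, x.2 = true := fun x hx => by
        have := List.countP_eq_zero.1 (Nat.le_zero.1 hk) x hx
        simpa using this
      by_cases hn : (w.map Prod.fst).Nodup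
      · have e : wd γ w = ((w.map Prod.fst).map γ).prod := by
          rw [wd, List.map_map]
          exact congrArg _ (List.map_congr_left fun x hx => by simp [lt, pos x hx])
        exact e ▸ ht _ hn
      · have hn' : ¬ w.Nodup := fun c => hn (c.map_on fun x hx y hy e =>
          Prod.ext e ((pos x hx).trans (pos y hy).symm))
        obtain ⟨x, hx⟩ := List.exists_duplicate_iff_not_nodup.2 hn'
        obtain ⟨u, v, z, rfl⟩ : ∃ u v z, w = u ++ x :: (v ++ x :: z) := by
          have h1 := List.duplicate_iff_sublist.1 hx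
          obtain ⟨u, w1, rfl, a, b⟩ := List.cons_sublist_iff.1 h1
          obtain ⟨u1, u2, rfl⟩ := List.append_of_mem a
          obtain ⟨v, z, rfl⟩ := List.append_of_mem (List.singleton_sublist.1 b)
          exact ⟨u1, u2 ++ v, z, by simp⟩
        simp only [List.length_append, List.length_cons] at hw
        have e1 := T.mul (wd γ (x :: v)) (wd γ (x :: (z ++ u)))
        have e2 : t (wd γ (x :: v) * wd γ (x :: (z ++ u))) = t (wd γ (u ++ x :: (v ++ x :: z))) := by
          rw [wd_app u, T.comm (wd γ u)]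
          simp only [wd_cons, wd_app, mul_assoc]
        have e3 : t (wd γ (x :: v) * (wd γ (x :: (z ++ u)))⁻¹) = t (wd γ (v ++ iv (z ++ u))) := by
          rw [wd_cons, wd_cons, mul_assoc, T.comm, wd_app v, wd_iv, mul_inv_rev]
          simp only [mul_assoc, inv_mul_cancel, mul_one]
        rw [e2, e3] at e1
        rw [← sub_eq_iff_eq_add.2 e1]
        refine R.sub_mem (R.mul_mem (ih _ ?_) (ih _ ?_)) (R.mul_mem (d_wd hd _) (ih _ ?_)) <;>
          simp only [List.length_append, List.length_cons, iv, List.length_reverse,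
            List.length_map] <;> omega
    | succ k ik =>
      intro w hw hk
      by_cases h0 : w.countP (fun x => !x.2) ≤ k
      · exact ik w hw h0
      obtain ⟨⟨i, b⟩, hx, hb⟩ := List.countP_pos_iff.1 (show 0 < w.countP (fun x => !x.2) by omega)
      obtain rfl : b = false := by simpa using hb
      obtain ⟨u, v, rfl⟩ := List.append_of_mem hx
      simp only [List.length_append, List.length_cons] at hw
      have e1 := T.mul (wd γ (v ++ u)) (γ i)
      have e2 : t (wd γ (v ++ u) * γ i) = t (wd γ (u ++ (i, true) :: v)) := by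
        rw [wd_app u, wd_cons, ← mul_assoc, T.comm _ (wd γ v), wd_app, mul_assoc]
        rfl
      have e3 : t (wd γ (v ++ u) * (γ i)⁻¹) = t (wd γ (u ++ (i, false) :: v)) := by
        rw [wd_app u, wd_cons, ← mul_assoc, T.comm _ (wd γ v), wd_app, mul_assoc]
        rfl
      rw [e2, e3] at e1
      have e4 : t (wd γ (u ++ (i, false) :: v)) = (((d (γ i))⁻¹ : Bˣ) : B) *
          (t (wd γ (v ++ u)) * t (γ i) - t (wd γ (u ++ (i, true) :: v))) := by
        rw [e1, add_sub_cancel_left, ← mul_assoc, Units.inv_mul, one_mul]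
      rw [e4]
      refine R.mul_mem (hd i).2 (R.sub_mem (R.mul_mem (ih _ ?_) ?_) (ik _ ?_ ?_))
      · simp only [List.length_append]; omega
      · simpa using ht [i] (List.nodup_singleton i)
      · simp only [List.length_append, List.length_cons]; omega
      · simp only [List.countP_append, List.countP_cons] at hk ⊢
        simp at hk ⊢
        omega

/-- **Fricke, Horowitz** -/
theorem fricke (T : TF t d) (hd : ∀ i, (d (γ i) : B) ∈ R ∧ (((d (γ i))⁻¹ : Bˣ) : B) ∈ R)
    (ht : ∀ l : List ι, l.Nodup → t (l.map γ).prod ∈ R) {g : G}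
    (hg : g ∈ Subgroup.closure (Set.range γ)) : t g ∈ R ∧ (d g : B) ∈ R := by
  obtain ⟨w, rfl⟩ := ex_wd hg
  exact ⟨t_wd T hd ht _ w le_rfl, d_wd hd w⟩

end Vale.Agent.P022S
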