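import Vale.Agent.P022S.Flat2
import Vale.Agent.P022S.Utr

/-!
# P022S: the chart for the universal trace function
-/

set_option linter.all false

noncomputable section

namespace Vale.Agent.P022S.Fl

open _root_.P022G.Sum _root_.P022G.Th MvPowerSeries Matrix IsLocalRing
open Vale.Agent.P022.H346

variable {P S K M : Type} [CommRing P] [CommRing S] {ψ : P →+* S} {n : ℕ}

/-- the framed ring over the ring of symbols -/
structure Cu (ψ : P →+* S) (K M : Type) (n : ℕ) (c : Ideal P) (𝔱 : Ideal S) where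
  z : (K ⊕ (Fin n × Fin 2 × Fin 2)) ⊕ M → S
  Z : Fin n → M2 S
  z0 : Fin n → M2 P
  gm : M → S
  p : Finset (Fin n) → P
  r : Fin n → Pˣ
  hu : ∀ i, IsUnit (Z i)
  ext : Ext ψ z
  hZ : ∀ i a b, Z i a b = ψ (z0 i a b) + z (.inl (.inr (i, a, b)))
  hg : ∀ A : Subring S, Sub ψ (fun s => z (.inl s)) A → ∀ m, gm m ∈ A
  hc : Ut.aT p r ≤ c
  tp : ∀ s, ψ (p s) - ((s.sort (· ≤ ·)).map Z).prod.trace ∈ 𝔱
  tr : ∀ i, ψ (r i) - (Z i).det ∈ 𝔱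
  tm : ∀ m, z (.inr m) - gm m ∈ 𝔱
  le : ∀ J : Ideal S, (∀ s, ψ (p s) - ((s.sort (· ≤ ·)).map Z).prod.trace ∈ J) →
    (∀ i, ψ (r i) - (Z i).det ∈ J) → (∀ m, z (.inr m) - gm m ∈ J) → 𝔱 ≤ J

variable {c : Ideal P} {𝔱 : Ideal S} (D : Cu ψ K M n c 𝔱)

def Cu.cg : Cg ψ K M (Fin n) (FreeGroup (Fin n)) c where
  z := D.z
  y := FreeGroup.of
  Z := Kd.fr D.Z D.hu
  z0 := D.z0
  gm := D.gm
  t := fun w => Ideal.Quotient.mk c (Ut.tw D.p D.r w)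
  d := (Units.map (Ideal.Quotient.mk c).toMonoidHom).comp (Ut.dw D.r)
  ext := D.ext
  gen := FreeGroup.closure_range_of _
  tf := P022G.Kd.tf_comp (Ut.tf_a (p := D.p) (r := D.r)).1 (MonoidHom.id _)
    (Ideal.Quotient.factor D.hc)
  hZ := fun i a b => by rw [Kd.fr_of, D.hZ]
  hg := D.hg

theorem Cu.lo (Q : Type) [CommRing Q] (μ : S →+* Q) (h : c.map ψ ⊔ 𝔱 ≤ RingHom.ker μ) :
    D.cg.Good μ := by
  have e : ∀ {u v}, u - v ∈ 𝔱 → μ u = μ v := fun k =>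
    sub_eq_zero.1 ((map_sub μ _ _).symm.trans (h (Ideal.mem_sup_right k)))
  have e' : ∀ {u v}, Ideal.Quotient.mk c u = Ideal.Quotient.mk c v → μ (ψ u) = μ (ψ v) :=
    fun k => sub_eq_zero.1 (by
      rw [← map_sub, ← map_sub]
      exact h (Ideal.mem_sup_left (Ideal.mem_map_of_mem _ (Ideal.Quotient.eq.1 k))))
  obtain ⟨-, k1, k2⟩ := Ut.spec (p := D.p) (r := D.r)
    (P022G.Kd.tf_rep (P022G.Kd.red μ (Kd.fr D.Z D.hu))) FreeGroup.of (μ.comp ψ)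
    (fun s => by rw [P022G.Kd.red_trace, Kd.fr_wd]; exact e (D.tp s)) fun i => by
      change _ = (P022G.Kd.red μ (Kd.fr D.Z D.hu) (FreeGroup.of i)).det
      rw [P022G.Kd.red_det, Kd.fr_of]
      exact e (D.tr i)
  have l : ∀ w : FreeGroup (Fin n), FreeGroup.lift FreeGroup.of w = w := fun w =>
    DFunLike.congr_fun (FreeGroup.lift_of_eq_id _) w
  refine ⟨fun w u hw => (e' hw).trans ?_, fun w u hw => (e' hw).trans ?_, fun m => e (D.tm m)⟩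
  · have := k1 w
    rw [l, P022G.Kd.red_trace] at this
    exact this
  · have := k2 w
    rw [l] at this
    exact this.trans (P022G.Kd.red_det _ _ _)

theorem Cu.hi (Q : Type) [CommRing Q] (μ : S →+* Q) (h : c.map ψ ≤ RingHom.ker μ)
    (k : D.cg.Good μ) : 𝔱 ≤ RingHom.ker μ := by
  refine D.le _ (fun s => ?_) (fun i => ?_) fun m => ?_ <;>
    rw [RingHom.mem_ker, map_sub, sub_eq_zero]
  · rw [← Kd.fr_wd D.Z D.hu]
    exact k.t _ _ (Ideal.Quotient.eq.2 (D.hc ((Ut.tf_a (p := D.p) (r := D.r)).2 s))).symm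
  · rw [← Kd.fr_of D.Z D.hu]
    exact k.d _ _ (congrArg (fun u : Pˣ => Ideal.Quotient.mk c u) (Ut.dw_of D.r i)).symm
  · exact k.m m

variable [IsNoetherianRing P] [IsLocalRing S] [IsAdicComplete (maximalIdeal S) S] [Fintype K]
  [Fintype M] (a b : FreeGroup (Fin n))

/-- **FLAT** -/
theorem Cu.col (𝔭 : Ideal S) [𝔭.IsPrime] (hd : del (Kd.fr D.Z D.hu a) (Kd.fr D.Z D.hu b) ∉ 𝔭) :
    P022G.Pt.Col ψ c 𝔱 𝔭 := D.cg.col D.lo D.hi a b 𝔭 hd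

/-- **UP** -/
theorem Cu.up [IsLocalRing P] [IsNoetherianRing S] [IsRegularLocalRing (MvPowerSeries W8 S)]
    {𝔭 : Ideal S} (hp : 𝔭.IsPrime) (ht : 𝔱 ≤ 𝔭)
    (hd : del (Kd.fr D.Z D.hu a) (Kd.fr D.Z D.hu b) ∉ 𝔭) {k : ℕ} (ha : k ≤ Fintype.card K + 3)
    (η : Ideal P) (hη : η.IsPrime) (h1 : c ≤ η) (h2 : η ≤ 𝔭.comap ψ) :
    ∃ η' : Ideal S, η'.IsPrime ∧ η' ≤ 𝔭 ∧ η.map ψ ⊔ 𝔱 ≤ η' ∧
      ((k : ℕ) : WithBot ℕ∞) + ringKrullDim (P ⧸ η) ≤ ringKrullDim (S ⧸ η') :=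
  D.cg.up D.lo D.hi a b hp ht hd ha η hη h1 h2

end Vale.Agent.P022S.Fl
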