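import Vale.Agent.P022S.Rows
import Vale.Agent.P022S.Wx.Hd

/-!
# P022S: the last step without the principal series part
-/

set_option linter.all false

noncomputable section

namespace Vale.Agent.P022S

open NumberField IsLocalRing MvPowerSeries Filter
open Vale.Agent.P022 Vale.Agent.P022S.R Vale.Agent.P022S.Loc
open Vale.Agent.P022D.Core (PS io y1 Coef)
open Vale.Agent.P022E.Loc (Pl)
open Vale.Agent.P022E.As (Tg cc tt dd yy Gw Gm Out2)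
open Vale.Agent.P022G (subL resJ Tr)
open Vale.Agent.P022G.Chain (Pd Cn)
open Vale.Agent.P022S.Wx (HDX AqS)
open Vale.Agent.P022G

section forms
variable {O F : Type} [CommRing O] [IsLocalRing O] [Field F]

/-- the forms side for the places `L'` and the set `T'` -/
def AllX (ps : Prop) (ϖ : O) (F : Type) [Field F] (L' : Pl O)
    (T' : Finset ℕ) (Φ : ∀ (I : Type) (Y0 : I → Type) (W0 : Type) [∀ i, AddCommGroup (Y0 i)]
      [∀ i, Module (Tg O) (Y0 i)] [AddCommGroup W0] [Module (Tg O) W0],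
      (Finset L'.C → I) → Prop) : Prop :=
  ∀ (Sf : P022D.R.Dat O F) (I : Type) (Y0 : I → Type) (W0 : Type) [∀ i, AddCommGroup (Y0 i)]
    [∀ i, Module (Tg O) (Y0 i)] [AddCommGroup W0] [Module (Tg O) W0] (ses : I → I → I → Prop)
    (ig ib : I) (iJ : Finset L'.C → I), Sf.T = T' → HDX ps ϖ Sf L' Y0 W0 ses ig ib iJ →
    Φ I Y0 W0 iJ

variable {ϖ : O} {S : P022D.R.Dat O F} {L : Pl O} {I : Type} {Y0 : I → Type} {W0 : Type}
  [∀ i, AddCommGroup (Y0 i)] [∀ i, Module (Tg O) (Y0 i)] [AddCommGroup W0] [Module (Tg O) W0]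
  {ses : I → I → I → Prop} {ig ib : I} {iJ : Finset L.C → I}

theorem hd4_of (h : HDX True ϖ S L Y0 W0 ses ig ib iJ) : HD4 ϖ S L Y0 W0 ses ig ib iJ :=
  { comb := h.comb, low := h.low trivial, gm0 := h.gm0, gmW := h.gmW, dm0 := h.dm0, dmW := h.dmW
    pi0 := h.pi0, sb0 := h.sb0, det0 := h.det0, big := h.big
    lev := fun r => by
      obtain ⟨b, c, n₀, A, k⟩ := h.lev r
      refine ⟨b, c, n₀, A, fun n q h1 h2 => ?_⟩
      obtain ⟨τ, φ, Yb, Wc, Pc, i1, i2, i3, i4, i5, i6, e1, e2, e3, e4⟩ :=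
        k n q h1 fun i => ⟨(h2 i).prime, (h2 i).out, (h2 i).one, (h2 i).two⟩
      exact ⟨τ, φ, Yb, Wc, Pc, i1, i2, i3, i4, i5, i6, e1, e2, e3, e4 trivial⟩ }

theorem HD4.hdx (h : HD4 ϖ S L Y0 W0 ses ig ib iJ) (ps : Prop) :
    HDX ps ϖ S L Y0 W0 ses ig ib iJ :=
  { comb := h.comb, low := fun _ => h.low, gm0 := h.gm0, gmW := h.gmW, dm0 := h.dm0, dmW := h.dmW
    pi0 := h.pi0, sb0 := h.sb0, det0 := h.det0, big := h.big
    lev := fun r => by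
      obtain ⟨b, c, n₀, A, k⟩ := h.lev r
      refine ⟨b, c, n₀, A, fun n q h1 h2 => ?_⟩
      obtain ⟨τ, φ, Yb, Wc, Pc, i1, i2, i3, i4, i5, i6, e1, e2, e3, e4⟩ :=
        k n q h1 fun i => ⟨(h2 i).prime, (h2 i).out, (h2 i).one, (h2 i).two⟩
      exact ⟨τ, φ, Yb, Wc, Pc, i1, i2, i3, i4, i5, i6, e1, e2, e3, fun _ => e4⟩ }

end forms

def FINAL2 : Prop := All fun O F _ _ _ _ _ _ _ ϖ S L X as β τ ι' _ _ _ K n G =>
  AllX False ϖ F (subL L X) (S.T \ X) fun I Y0 W0 _ _ _ _ iJ => ∀ Z C0 p : Ideal (PS O (Sy n)),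
    Z.IsPrime → G.aP ≤ Z → (∀ a : L.C, (a : ℕ) ∈ X → tauP G.rc id (G.iτ a) ⊆ Z) → C ϖ ∉ Z →
    Z ≤ C0 → Pd (G.aP ⊔ Ideal.span {C ϖ}) 2 C0 → C0 ≤ p → Chain.Cv p →
    (∀ h : as ∈ L.C, G.fr ⟨as, h⟩ ∈ p) →
    (∀ J : Finset L.C, (∀ a ∈ J, (a : ℕ) ∉ X) → G.IT ϖ J ≤ p →
      ∃ E, Pd (G.IT ϖ J) 2 E ∧ E ≤ p ∧ G.An (Y0 (iJ (resJ X J))) ≤ E) → G.An W0 ≤ Z

/-- **the Galois side**, final form -/
def L2X : Prop := ∀ (O F : Type) [CommRing O] [IsDomain O] [IsDiscreteValuationRing O] [Coef O]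
  [Field F] [Finite F] [CharP F 2] (ϖ : O) (S : Dat O F) (L : Pl O) (X : Finset ℕ) (as : ℕ),
  Irreducible ϖ → Cx S L X as →
  AllX True ϖ F L S.T fun I Y0 W0 _ _ _ _ iJ =>
    AllX False ϖ F (subL L X) (S.T \ X) fun I' Y0' W0' _ _ _ _ iJ' =>
      (∀ J : Finset L.C, (∀ a ∈ J, (a : ℕ) ∉ X) → Tr O (Y0 (iJ J)) (Y0' (iJ' (resJ X J)))) →
      Out2 ϖ (subL L X) W0'

end Vale.Agent.P022S
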