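import Vale.Agent.P022S.Rw.L2xH26
import Vale.Agent.P022S.Rw.Gens
import Vale.Agent.P022S.Rw.GpoH94
import Vale.Agent.P022S.Rw.Crv
import Vale.Agent.P022S.Rw.Kdel
import Vale.Agent.P022S.Rw.Nice
import Vale.Agent.P022S.Rw.Cobj
import Vale.Agent.P022S.Rw.Repo
import Vale.Agent.P022S.Rw.TanvH67
import Vale.Agent.P022S.Rw.Pcex
import Vale.Agent.P022S.Rw.ExqH65
import Vale.Agent.P022S.Rw.RcovH90
import Vale.Agent.P022S.Rw.Rfl
import Vale.Agent.P022S.Rw.Rgal0
import Vale.Agent.P022S.Rw.Rgal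
import Vale.Agent.P022S.Rw.Rloc
import Vale.Agent.P022S.Rw.MtH96
import Vale.Agent.P022S.Rw.Rok
import Vale.Agent.P022S.Rw.Presc
import Vale.Agent.P022S.Rw.Zed
import Vale.Agent.P022S.Rw.Seed
import Vale.Agent.P022S.Rw.Jr
import Vale.Agent.P022S.Rw.FinH78
import Vale.Agent.P022S.Loc.All2
import Vale.Agent.P022S.Top.MidH86
import Vale.Agent.P022S.Top.Fin

/-!
# P022S: the theorem when all residual traces vanish
-/

set_option linter.all false

open Matrix

namespace Vale.Agent.P022S.H12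

open Vale.Agent.P022 Vale.Agent.P022D

theorem l2xC : L2X := by
  have rcov := H90.rcovC cobjC
  have rgal0 := rgal0C kdelC rcov
  have rgal := rgalC kdelC
  have rca := H96.rcaC cobjC
  have rok := rokC rcov rfl0 (rupC rcov) rgal0 rlocC rca
  have cpk := cpkC CrvR.crv niceC (pcexC (H67.tanvC repoC) CrvR.lam) (X65.exqS H94.gpo) CrvR.lam0
    cobjC
  have pk := H78.pkgC cpk rgal rcov
  exact L2H26.l2x Loc.locg2 gensC CrvR.crv niceC typC (prescC CrvR.crv) (connjC CrvR.crv niceC)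
    zedC (seedS H94.gpw CrvR.crv typC) (Jr.patch_of pk rcov rok) (Jr.lower_of pk rcov rok rca)
    (H78.final2C cpk rgal rgal0 rok rcov (H96.rfinC cobjC)) H94.outg H94.tra

theorem finalS (E : Type) [NontriviallyNormedField E] [NormedAlgebra ℚ_[2] E]
    [FiniteDimensional ℚ_[2] E] (r : GQ →* GL (Fin 2) E) (hc : Continuous r)
    (ho : St.OddRep r) (hi : St.AbsIrr r) (hS : {p : ℕ | p.Prime ∧ ¬ St.UnrAt r p}.Finite)
    (k : Type) [Field k] [CharP k 2] (ρ : GQ →* GL (Fin 2) k) (hr : St.IsRes r ρ)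
    (h1 : ∀ g, (ρ g : Matrix (Fin 2) (Fin 2) k).trace = 0) : St.Q1Concl r :=
  Top.finS (Top.core fun E _ _ _ _ _ r U X as N _ f => H86.mid l2xC E r U X as N f f.omX)
    E r hc ho hi hS k ρ hr h1

end Vale.Agent.P022S.H12
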