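import Vale.Agent.P022S.Flat0
import Vale.Agent.P022S.Rep
import Vale.Agent.P022G.Kdel
import Vale.Agent.P022G.Up

/-!
# P022S: the framed ring is flat over the ring of traces at an irreducible point
-/

set_option linter.all false

noncomputable section

namespace Vale.Agent.P022S.Fl

open Vale.Agent.P022G.Flat _root_.P022G.Sum _root_.P022G.Th MvPowerSeries Matrix
open Vale.Agent.P022.H346

variable {P S K M I : Type} [CommRing P] [CommRing S] {ψ : P →+* S}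

/-- the five equations of a pair -/
def e5 {R : Type} [CommRing R] (p : Fin 5 → R) (X Y : M2 R) : Fin 5 → R :=
  ![X.trace - p 0, X.det - p 1, Y.trace - p 2, Y.det - p 3, (X * Y).trace - p 4]

/-- the solved form -/
def u4 {R : Type} [CommRing R] (b : R) : Fin 4 → R := ![1, b, 1, b ^ 2]

def g4 {R : Type} [CommRing R] (p : Fin 5 → R) (a b f e : R) : Fin 4 → R :=
  ![p 0 - a, a * (p 0 - a) - p 1, p 2 - e,
    b * (p 4 - a * e - (p 0 - a) * (p 2 - e)) - (a * (p 0 - a) - p 1) * f]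

def v4 {R : Type} (X Y : M2 R) : Fin 4 → R := ![X 1 1, X 1 0, Y 1 1, Y 1 0]

theorem rel {R : Type} [CommRing R] (p : Fin 5 → R) (X Y : M2 R) (G : Fin 4 → R)
    (hG : ∀ i, G i = u4 (X 0 1) i * v4 X Y i - g4 p (X 0 0) (X 0 1) (Y 0 1) (Y 0 0) i) :
    G 0 = e5 p X Y 0 ∧ G 1 = X 0 0 * G 0 - e5 p X Y 1 ∧ G 2 = e5 p X Y 2 ∧
    G 3 = X 0 1 * e5 p X Y 4 - Y 0 1 * G 1 - X 0 1 * (p 2 - Y 0 0) * G 0 - X 0 1 * X 1 1 * G 2 ∧
    cq p (X 0 0) (X 0 1) (Y 0 1) (Y 0 0) =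
      X 0 1 ^ 2 * e5 p X Y 3 - X 0 1 ^ 2 * Y 0 0 * G 2 + Y 0 1 * G 3 := by
  simp only [hG, u4, v4, g4, e5, cq, det_fin_two, trace_fin_two, mul_apply, Fin.sum_univ_two,
    cons_val]
  refine ⟨?_, ?_, ?_, ?_, ?_⟩ <;> ring

/-- the names of the entries of the pair -/
def n8 : (Fin 3 ⊕ Unit) ⊕ Fin 4 → Fin 2 × Fin 2 × Fin 2 :=
  Sum.elim (Sum.elim ![(0, 0, 0), (0, 0, 1), (1, 0, 1)] fun _ => (1, 0, 0))
    ![(0, 1, 1), (0, 1, 0), (1, 1, 1), (1, 1, 0)]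

def sh (K : Type) : ((Fin 3 ⊕ K) ⊕ Unit) ⊕ Fin 4 ≃ ((Fin 3 ⊕ Unit) ⊕ Fin 4) ⊕ K where
  toFun := Sum.elim (Sum.elim (Sum.elim (fun i => .inl (.inl (.inl i))) .inr)
    fun u => .inl (.inl (.inr u))) fun i => .inl (.inr i)
  invFun := Sum.elim (Sum.elim (Sum.elim (fun i => .inl (.inl (.inl i))) fun u => .inl (.inr u))
    .inr) fun k => .inl (.inl (.inr k))
  left_inv := by rintro (((_ | _) | _) | _) <;> rfl
  right_inv := by rintro (((_ | _) | _) | _) <;> rfl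

def e8 (K : Type) : ((Fin 3 ⊕ K) ⊕ Unit) ⊕ Fin 4 ≃ (Fin 2 × Fin 2 × Fin 2) ⊕ K :=
  (sh K).trans ((Equiv.ofBijective n8 (by decide)).sumCongr (Equiv.refl K))

/-- **a pair of matrices with given invariants** -/
theorem col_pair [IsNoetherianRing P] [Fintype K] {z : (Fin 2 × Fin 2 × Fin 2) ⊕ K → S}
    (h : Ext ψ z) (x0 y0 : M2 P) (X Y : M2 S) (hX : ∀ a b, X a b = ψ (x0 a b) + z (.inl (0, a, b)))
    (hY : ∀ a b, Y a b = ψ (y0 a b) + z (.inl (1, a, b))) (p : Fin 5 → P) :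
    Col ψ ⊥ (Ideal.span (Set.range (e5 (fun i => ψ (p i)) X Y))) (X 0 1) := by
  obtain ⟨ψ₂, e2, q1, q2, q3, q4, q5, -⟩ := split (h.congr (e8 K))
  haveI : IsNoetherianRing (MvPowerSeries ((Fin 3 ⊕ K) ⊕ Unit) P) := inferInstance
  have ha : X 0 0 ∈ ψ₂.range := hX 0 0 ▸ add_mem (q4 _) (q5 (.inl (.inl 0)))
  have hb : X 0 1 ∈ ψ₂.range := hX 0 1 ▸ add_mem (q4 _) (q5 (.inl (.inl 1)))
  have hf : Y 0 1 ∈ ψ₂.range := hY 0 1 ▸ add_mem (q4 _) (q5 (.inl (.inl 2)))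
  have he : Y 0 0 ∈ ψ₂.range := hY 0 0 ▸ add_mem (q4 _) (q5 (.inr ()))
  have hu : ∀ i, u4 (X 0 1) i ∈ ψ₂.range := fun i => by
    fin_cases i
    exacts [one_mem _, hb, one_mem _, pow_mem hb 2]
  let G : Fin 4 → S := fun i =>
    u4 (X 0 1) i * v4 X Y i - g4 (fun i => ψ (p i)) (X 0 0) (X 0 1) (Y 0 1) (Y 0 0) i
  have k := (col_conic (ext_C ((Fin 3 ⊕ K) ⊕ Unit)) ![x0 0 0, x0 0 1, y0 0 1, y0 0 0] p).comp
    (col_graph e2 (u4 (X 0 1)) (fun i => g4 (fun i => ψ (p i)) (X 0 0) (X 0 1) (Y 0 1) (Y 0 0) i -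
      u4 (X 0 1) i * ψ (v4 x0 y0 i)) hu fun i => sub_mem (by
        have := q4 (p 0)
        have := q4 (p 1)
        have := q4 (p 2)
        have := q4 (p 4)
        fin_cases i <;> simp only [g4, Fin.reduceFinMk, cons_val] <;>
          apply_rules [sub_mem, mul_mem]) (mul_mem (hu i) (q4 _)))
  have r0 : ψ₂ (C (x0 0 0) + MvPowerSeries.X (.inl (.inl 0))) = X 0 0 := by
    rw [map_add, q2, q3, hX]; rfl
  have r1 : ψ₂ (C (x0 0 1) + MvPowerSeries.X (.inl (.inl 1))) = X 0 1 := by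
    rw [map_add, q2, q3, hX]; rfl
  have r2 : ψ₂ (C (y0 0 1) + MvPowerSeries.X (.inl (.inl 2))) = Y 0 1 := by
    rw [map_add, q2, q3, hY]; rfl
  have r3 : ψ₂ (C (y0 0 0) + MvPowerSeries.X (.inr ())) = Y 0 0 := by
    rw [map_add, q2, q3, hY]; rfl
  have r4 : (fun i => u4 (X 0 1) i * (z ∘ e8 K) (.inr i) -
      (g4 (fun i => ψ (p i)) (X 0 0) (X 0 1) (Y 0 1) (Y 0 0) i - u4 (X 0 1) i * ψ (v4 x0 y0 i))) =
      G := funext fun i => by
    have : v4 X Y i = ψ (v4 x0 y0 i) + (z ∘ e8 K) (.inr i) := by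
      fin_cases i
      exacts [hX 1 1, hX 1 0, hY 1 1, hY 1 0]
    simp only [G, this]
    ring
  have r5 : ∀ a b f e, ψ₂ (cq (fun i => C (p i)) a b f e) =
      cq (fun i => ψ (p i)) (ψ₂ a) (ψ₂ b) (ψ₂ f) (ψ₂ e) := fun a b f e => by
    simp only [cq, map_sub, map_mul, map_pow, q2]
  rw [q1, Ideal.map_span, Set.image_singleton, r4, r5] at k
  simp only [cons_val, r0, r1, r2, r3] at k
  obtain ⟨s0, s1, s2, s3, s4⟩ := rel (fun i => ψ (p i)) X Y G fun _ => rfl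
  refine (k.dvd (m := 4) ?_).chg ?_ ?_
  · rw [Fin.prod_univ_four]
    simp only [u4, cons_val]
    exact ⟨1, by ring⟩
  · refine le_trans ?_ (le_sup_right.trans (le_sat _ _))
    set N := Ideal.span (Set.range (e5 (fun i => ψ (p i)) X Y))
    have t : ∀ i, e5 (fun i => ψ (p i)) X Y i ∈ N := fun i => Ideal.subset_span ⟨i, rfl⟩
    have g0 : G 0 ∈ N := s0 ▸ t 0
    have g1 : G 1 ∈ N := s1 ▸ sub_mem (N.mul_mem_left _ g0) (t 1)
    have g2 : G 2 ∈ N := s2 ▸ t 2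
    have g3 : G 3 ∈ N := s3 ▸ sub_mem (sub_mem (sub_mem (N.mul_mem_left _ (t 4))
      (N.mul_mem_left _ g1)) (N.mul_mem_left _ g0)) (N.mul_mem_left _ g2)
    refine sup_le ((Ideal.span_singleton_le_iff_mem _).2 (s4 ▸ add_mem (sub_mem
      (N.mul_mem_left _ (t 3)) (N.mul_mem_left _ g2)) (N.mul_mem_left _ g3))) (Ideal.span_le.2 ?_)
    rintro _ ⟨i, rfl⟩
    fin_cases i
    exacts [g0, g1, g2, g3]
  · refine le_trans ?_ (sat_mono le_sup_right _)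
    set N := Ideal.span {cq (fun i => ψ (p i)) (X 0 0) (X 0 1) (Y 0 1) (Y 0 0)} ⊔
      Ideal.span (Set.range G)
    have t : ∀ i, G i ∈ N := fun i => Ideal.mem_sup_right (Ideal.subset_span ⟨i, rfl⟩)
    have t' : cq (fun i => ψ (p i)) (X 0 0) (X 0 1) (Y 0 1) (Y 0 0) ∈ N :=
      Ideal.mem_sup_left (Ideal.mem_span_singleton_self _)
    rw [Ideal.span_le]
    rintro _ ⟨i, rfl⟩
    fin_cases i
    · exact le_sat _ _ (s0 ▸ t 0)
    · refine le_sat _ _ ?_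
      convert sub_mem (N.mul_mem_left (X 0 0) (t 0)) (t 1) using 1
      rw [s1]
      exact (sub_sub_cancel _ _).symm
    · exact le_sat _ _ (s2 ▸ t 2)
    · refine ⟨2, ?_⟩
      convert sub_mem (add_mem t' (N.mul_mem_left (X 0 1 ^ 2 * Y 0 0) (t 2)))
        (N.mul_mem_left (Y 0 1) (t 3)) using 1
      rw [s4]
      show X 0 1 ^ 2 * e5 _ X Y 3 = _
      ring
    · refine ⟨1, ?_⟩
      convert add_mem (add_mem (add_mem (t 3) (N.mul_mem_left (Y 0 1) (t 1)))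
        (N.mul_mem_left (X 0 1 * (ψ (p 2) - Y 0 0)) (t 0))) (N.mul_mem_left (X 0 1 * X 1 1) (t 2))
        using 1
      rw [s3]
      show X 0 1 ^ 1 * e5 _ X Y 4 = _
      ring

theorem map_e5 {R R' : Type} [CommRing R] [CommRing R'] (f : R →+* R') (p : Fin 5 → R)
    (X Y : M2 R) (i : Fin 5) : f (e5 p X Y i) = e5 (fun i => f (p i)) (X.map f) (Y.map f) i := by
  fin_cases i <;> simp [e5, det_fin_two, trace_fin_two, mul_apply, Fin.sum_univ_two]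

/-- the solved equations of the other matrices -/
def eZ {R : Type} [CommRing R] (X Y : M2 R) (W : I → M2 R) (τ : I → Fin 4 → R)
    (s : I × Fin 2 × Fin 2) : R :=
  del X Y * W s.1 s.2.1 s.2.2 - th X Y (τ s.1 0) (τ s.1 1) (τ s.1 2) (τ s.1 3) s.2.1 s.2.2

theorem map_eZ {R R' : Type} [CommRing R] [CommRing R'] (f : R →+* R') (X Y : M2 R) (W : I → M2 R)
    (τ : I → Fin 4 → R) (s : I × Fin 2 × Fin 2) : f (eZ X Y W τ s) =
      eZ (X.map f) (Y.map f) (fun i => (W i).map f) (fun i k => f (τ i k)) s := by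
  rw [eZ, eZ, map_sub, map_mul, map_del, ← map_th]
  rfl

theorem col_Z [IsNoetherianRing P] [Fintype K] [Fintype I]
    {z : ((Fin 2 × Fin 2 × Fin 2) ⊕ K) ⊕ (I × Fin 2 × Fin 2) → S}
    (h : Ext ψ z) (x0 y0 : M2 P) (z0 : I → M2 P) (X Y : M2 S) (W : I → M2 S)
    (hX : ∀ a b, X a b = ψ (x0 a b) + z (.inl (.inl (0, a, b))))
    (hY : ∀ a b, Y a b = ψ (y0 a b) + z (.inl (.inl (1, a, b))))
    (hW : ∀ i a b, W i a b = ψ (z0 i a b) + z (.inr (i, a, b))) (p : Fin 5 → P)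
    (τ : I → Fin 4 → P) :
    Col ψ ⊥ (Ideal.span (Set.range (e5 (fun i => ψ (p i)) X Y)) ⊔
      Ideal.span (Set.range (eZ X Y W fun i k => ψ (τ i k)))) (X 0 1 * del X Y) := by
  obtain ⟨ψ₂, e2, q1, q2, q3, -⟩ := split h
  haveI : IsNoetherianRing (MvPowerSeries ((Fin 2 × Fin 2 × Fin 2) ⊕ K) P) := inferInstance
  let X' : M2 (MvPowerSeries ((Fin 2 × Fin 2 × Fin 2) ⊕ K) P) :=
    of fun a b => C (x0 a b) + MvPowerSeries.X (.inl (0, a, b))
  let Y' : M2 (MvPowerSeries ((Fin 2 × Fin 2 × Fin 2) ⊕ K) P) :=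
    of fun a b => C (y0 a b) + MvPowerSeries.X (.inl (1, a, b))
  have eX : X'.map ψ₂ = X := Matrix.ext fun a b => by
    rw [hX, ← q2, ← q3, ← map_add]; rfl
  have eY : Y'.map ψ₂ = Y := Matrix.ext fun a b => by
    rw [hY, ← q2, ← q3, ← map_add]; rfl
  have hd : del X Y ∈ ψ₂.range := ⟨del X' Y', by rw [map_del, eX, eY]⟩
  have k := (col_pair (ext_C _) x0 y0 X' Y' (fun _ _ => rfl) (fun _ _ => rfl) p).comp
    (col_graph e2 (fun _ => del X Y) (fun s => th X Y (ψ (τ s.1 0)) (ψ (τ s.1 1)) (ψ (τ s.1 2))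
      (ψ (τ s.1 3)) s.2.1 s.2.2 - del X Y * ψ (z0 s.1 s.2.1 s.2.2)) (fun _ => hd) fun s =>
      sub_mem ⟨th X' Y' (C (τ s.1 0)) (C (τ s.1 1)) (C (τ s.1 2)) (C (τ s.1 3)) s.2.1 s.2.2, by
        rw [← eX, ← eY, ← q2, ← q2, ← q2, ← q2, ← map_th]; rfl⟩ (mul_mem hd ⟨C _, q2 _⟩))
  have r1 : ψ₂ ∘ e5 (fun i => C (p i)) X' Y' = e5 (fun i => ψ (p i)) X Y := funext fun i => by
    rw [Function.comp, map_e5, eX, eY]
    simp only [q2]
  have r2 : (fun s : I × Fin 2 × Fin 2 => del X Y * z (.inr s) -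
      (th X Y (ψ (τ s.1 0)) (ψ (τ s.1 1)) (ψ (τ s.1 2)) (ψ (τ s.1 3)) s.2.1 s.2.2 -
        del X Y * ψ (z0 s.1 s.2.1 s.2.2))) = eZ X Y W fun i k => ψ (τ i k) := funext fun s => by
    rw [eZ, hW]
    ring
  rw [q1, Ideal.map_span, ← Set.range_comp, r1, r2] at k
  refine k.dvd (m := Fintype.card (I × Fin 2 × Fin 2) + 1) ?_
  rw [show ψ₂ (X' 0 1) = X 0 1 from congrFun (congrFun eX 0) 1, Finset.prod_const,
    Finset.card_univ, mul_pow]
  exact mul_dvd_mul (dvd_pow_self _ (Nat.succ_ne_zero _)) (pow_dvd_pow _ (Nat.le_succ _))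

/-- the data of the chart -/
structure Ch (ψ : P →+* S) (K M I H : Type) [Group H] (c : Ideal P) where
  z : (((Fin 2 × Fin 2 × Fin 2) ⊕ K) ⊕ (I × Fin 2 × Fin 2)) ⊕ M → S
  y : I → H
  g : H
  h : H
  Z : H →* M2 S
  X : M2 S
  Y : M2 S
  x0 : M2 P
  y0 : M2 P
  z0 : I → M2 P
  gm : M → S
  t : H → P ⧸ c
  d : H →* (P ⧸ c)ˣ
  ext : Ext ψ z
  gen : Subgroup.closure (Set.range y) = ⊤
  tf : TF t d
  hX : ∀ a b, X a b = ψ (x0 a b) + z (.inl (.inl (.inl (0, a, b))))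
  hY : ∀ a b, Y a b = ψ (y0 a b) + z (.inl (.inl (.inl (1, a, b))))
  hZ : ∀ i a b, Z (y i) a b = ψ (z0 i a b) + z (.inl (.inr (i, a, b)))
  hg : ∀ A : Subring S, Sub ψ (fun s => z (.inl s)) A → ∀ m, gm m ∈ A

variable {H : Type} [Group H] {c : Ideal P} (D : Ch ψ K M I H c)

/-- the points which satisfy the tautological relations -/
structure Ch.Good {Q : Type} [CommRing Q] (μ : S →+* Q) : Prop where
  x : D.X.map μ = (D.Z D.g).map μ
  y : D.Y.map μ = (D.Z D.h).map μ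
  t : ∀ w u, Ideal.Quotient.mk c u = D.t w → μ (ψ u) = μ (D.Z w).trace
  d : ∀ w u, Ideal.Quotient.mk c u = D.d w → μ (ψ u) = μ (D.Z w).det
  m : ∀ m, μ (D.z (.inr m)) = μ (D.gm m)

/-- a lift -/
def lf (c : Ideal P) (a : P ⧸ c) : P := Function.surjInv Ideal.Quotient.mk_surjective a

theorem mk_lf (a : P ⧸ c) : Ideal.Quotient.mk c (lf c a) = a := Function.surjInv_eq _ a

def Ch.p : Fin 5 → P :=
  fun i => lf c (![D.t D.g, D.d D.g, D.t D.h, D.d D.h, D.t (D.g * D.h)] i)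

def Ch.τ (i : I) : Fin 4 → P := fun k =>
  lf c (![D.t (D.y i), D.t (D.y i * D.g), D.t (D.y i * D.h), D.t (D.y i * (D.g * D.h))] k)

/-- the solved equations -/
def Ch.eqs : (Fin 5 ⊕ (I × Fin 2 × Fin 2)) ⊕ M → S :=
  Sum.elim (Sum.elim (e5 (fun i => ψ (D.p i)) D.X D.Y)
    (eZ D.X D.Y (fun i => D.Z (D.y i)) fun i k => ψ (D.τ i k))) fun m => D.z (.inr m) - D.gm m

theorem Ch.col0 [IsNoetherianRing P] [Fintype K] [Fintype I] [Fintype M] :
    Col ψ ⊥ (Ideal.span (Set.range D.eqs)) (D.X 0 1 * del D.X D.Y) := by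
  obtain ⟨ψ₂, e2, q1, q2, q3, q4⟩ := split D.ext
  let R := MvPowerSeries (((Fin 2 × Fin 2 × Fin 2) ⊕ K) ⊕ (I × Fin 2 × Fin 2)) P
  haveI : IsNoetherianRing R := inferInstance
  let X' : M2 R := of fun a b => C (D.x0 a b) + MvPowerSeries.X (.inl (.inl (0, a, b)))
  let Y' : M2 R := of fun a b => C (D.y0 a b) + MvPowerSeries.X (.inl (.inl (1, a, b)))
  let W' : I → M2 R := fun i => of fun a b => C (D.z0 i a b) + MvPowerSeries.X (.inr (i, a, b))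
  have eX : X'.map ψ₂ = D.X := Matrix.ext fun a b => by
    rw [D.hX, ← q2, ← q3, ← map_add]; rfl
  have eY : Y'.map ψ₂ = D.Y := Matrix.ext fun a b => by
    rw [D.hY, ← q2, ← q3, ← map_add]; rfl
  have eW : ∀ i, (W' i).map ψ₂ = D.Z (D.y i) := fun i => Matrix.ext fun a b => by
    rw [D.hZ, ← q2, ← q3, ← map_add]; rfl
  have k := (col_Z (ext_C _) D.x0 D.y0 D.z0 X' Y' W' (fun _ _ => rfl) (fun _ _ => rfl)
    (fun _ _ _ => rfl) D.p D.τ).comp
    (col_graph e2 (fun _ => 1) D.gm (fun _ => one_mem _) (D.hg _ q4))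
  have r1 : ψ₂ ∘ e5 (fun i => C (D.p i)) X' Y' = e5 (fun i => ψ (D.p i)) D.X D.Y :=
    funext fun i => by
      rw [Function.comp, map_e5, eX, eY]
      simp only [q2]
  have r2 : ψ₂ ∘ eZ X' Y' W' (fun i k => C (D.τ i k)) =
      eZ D.X D.Y (fun i => D.Z (D.y i)) fun i k => ψ (D.τ i k) := funext fun s => by
    rw [Function.comp, map_eZ, eX, eY]
    simp only [q2, eW]
  rw [q1, Ideal.map_sup, Ideal.map_span, Ideal.map_span, ← Set.range_comp, ← Set.range_comp, r1,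
    r2, map_mul, map_del, eX, eY, show ψ₂ (X' 0 1) = D.X 0 1 from congrFun (congrFun eX 0) 1,
    Finset.prod_const_one, mul_one] at k
  rw [Ch.eqs, Set.Sum.elim_range, Set.Sum.elim_range, Ideal.span_union, Ideal.span_union]
  simpa only [one_mul] using k

theorem tr_map {R R' : Type} [CommRing R] [CommRing R'] (f : R →+* R') (A : M2 R) :
    f A.trace = (A.map f).trace := by simp [trace_fin_two]

theorem det_map {R R' : Type} [CommRing R] [CommRing R'] (f : R →+* R') (A : M2 R) :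
    f A.det = (A.map f).det := by simp [det_fin_two]

variable {D}

theorem Ch.Good.eqs {Q : Type} [CommRing Q] {μ : S →+* Q} (h : D.Good μ) (s) :
    μ (D.eqs s) = 0 := by
  have t : ∀ w, μ (ψ (lf c (D.t w))) = ((D.Z w).map μ).trace := fun w =>
    (h.t w _ (mk_lf _)).trans (tr_map _ _)
  have d : ∀ w, μ (ψ (lf c (D.d w))) = ((D.Z w).map μ).det := fun w =>
    (h.d w _ (mk_lf _)).trans (det_map _ _)
  rcases s with (i | s) | m
  · rw [Ch.eqs, Sum.elim_inl, Sum.elim_inl, map_e5, h.x, h.y]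
    fin_cases i
    exacts [sub_eq_zero.2 (t _).symm, sub_eq_zero.2 (d _).symm, sub_eq_zero.2 (t _).symm,
      sub_eq_zero.2 (d _).symm,
      sub_eq_zero.2 (by rw [← Matrix.map_mul, ← map_mul]; exact (t _).symm)]
  · rw [Ch.eqs, Sum.elim_inl, Sum.elim_inr, map_eZ, h.x, h.y, eZ, sub_eq_zero]
    simp only [Ch.τ, cons_val, t, map_mul, Matrix.map_mul]
    exact congrFun (congrFun (theta _ _ _) _) _
  · exact (map_sub μ _ _).trans (sub_eq_zero.2 (h.m m))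

theorem Ch.good {Q : Type} [CommRing Q] {μ : S →+* Q} (hc : c.map ψ ≤ RingHom.ker μ)
    (he : ∀ s, μ (D.eqs s) = 0) (hu : IsUnit (μ (del D.X D.Y))) : D.Good μ := by
  let j : P ⧸ c →+* Q := Ideal.Quotient.lift c (μ.comp ψ) fun u hu =>
    hc (Ideal.mem_map_of_mem ψ hu)
  have hj : ∀ a, μ (ψ (lf c a)) = j a := fun a => by
    conv_rhs => rw [← mk_lf a]
    rfl
  have T := P022G.Kd.tf_comp D.tf (MonoidHom.id H) j
  have e : ∀ i, e5 (fun i => μ (ψ (D.p i))) (D.X.map μ) (D.Y.map μ) i = 0 := fun i =>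
    (map_e5 μ _ _ _ i).symm.trans (he (.inl (.inl i)))
  have e0 := (sub_eq_zero.1 (e 0)).trans (hj _)
  have e1 := (sub_eq_zero.1 (e 1)).trans (hj _)
  have e2 := (sub_eq_zero.1 (e 2)).trans (hj _)
  have e3 := (sub_eq_zero.1 (e 3)).trans (hj _)
  have e4 := (sub_eq_zero.1 (e 4)).trans (hj _)
  rw [map_del] at hu
  obtain ⟨σ, s1, s2, s3, s4, s5⟩ := Rep.rep T D.g D.h (D.X.map μ) (D.Y.map μ) e0 e1 e2 e3 e4
    (by rw [del_eq, e0, e1, e2, e3, e4] at hu; exact hu)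
  have k : σ = P022G.Kd.red μ D.Z := MonoidHom.eq_of_eqOn_dense D.gen (by
    rintro _ ⟨i, rfl⟩
    refine Matrix.ext fun a b => hu.mul_left_cancel ?_
    have k1 := he (.inl (.inr (i, a, b)))
    rw [Ch.eqs, Sum.elim_inl, Sum.elim_inr, map_eZ, eZ, sub_eq_zero] at k1
    simp only [Ch.τ, cons_val, hj] at k1
    exact (congrFun (congrFun (s5 (D.y i)) a) b).trans k1.symm)
  have k' : ∀ w, σ w = (D.Z w).map μ := fun w => by rw [k]; rfl
  refine ⟨by rw [← k', s3], by rw [← k', s4], fun w u hu => ?_, fun w u hu => ?_, fun m =>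
    sub_eq_zero.1 ((map_sub μ _ _).symm.trans (he (.inr m)))⟩
  · rw [tr_map, ← k', s1]
    exact congrArg j hu
  · rw [det_map, ← k', s2]
    exact congrArg j hu

variable (D) {𝔱 : Ideal S}
  (lo : ∀ (Q : Type) [CommRing Q] (μ : S →+* Q), c.map ψ ⊔ 𝔱 ≤ RingHom.ker μ → D.Good μ)
  (hi : ∀ (Q : Type) [CommRing Q] (μ : S →+* Q), c.map ψ ≤ RingHom.ker μ → D.Good μ →
    𝔱 ≤ RingHom.ker μ)

include lo in
theorem Ch.eqs_mem (s) : D.eqs s ∈ c.map ψ ⊔ 𝔱 :=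
  Ideal.Quotient.eq_zero_iff_mem.1 ((lo _ _ Ideal.mk_ker.ge).eqs s)

include lo hi

/-- **FLAT** -/
theorem Ch.flat [IsNoetherianRing P] [Fintype K] [Fintype I] [Fintype M] :
    Col ψ c 𝔱 (D.X 0 1 * del D.X D.Y) := by
  refine (D.col0.mono bot_le).chg (le_trans (Ideal.span_le.2 ?_) (le_sat _ _)) fun v hv => ?_
  · rintro _ ⟨s, rfl⟩
    exact D.eqs_mem lo s
  · set J := c.map ψ ⊔ Ideal.span (Set.range D.eqs)
    let L := Localization.Away (Ideal.Quotient.mk J (D.X 0 1 * del D.X D.Y))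
    let μ : S →+* L := (algebraMap _ L).comp (Ideal.Quotient.mk J)
    have hJ : J ≤ RingHom.ker μ := fun a ha => by
      show algebraMap _ L (Ideal.Quotient.mk J a) = 0
      rw [Ideal.Quotient.eq_zero_iff_mem.2 ha, map_zero]
    have hu : IsUnit (μ (D.X 0 1 * del D.X D.Y)) :=
      IsLocalization.Away.algebraMap_isUnit (S := L) (Ideal.Quotient.mk J _)
    rw [map_mul μ] at hu
    have k := hi L μ (le_sup_left.trans hJ) (Ch.good (le_sup_left.trans hJ)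
      (fun s => hJ (Ideal.mem_sup_right (Ideal.subset_span ⟨s, rfl⟩)))
      (isUnit_of_mul_isUnit_right hu)) hv
    obtain ⟨⟨_, n, rfl⟩, hn⟩ := (IsLocalization.map_eq_zero_iff
      (Submonoid.powers (Ideal.Quotient.mk J (D.X 0 1 * del D.X D.Y))) L _).1 k
    refine ⟨n, Ideal.Quotient.eq_zero_iff_mem.1 ?_⟩
    rw [map_mul, map_pow]
    exact hn

/-- **UP** -/
theorem Ch.up [IsNoetherianRing P] [IsLocalRing P] [IsRegularLocalRing S] [Fintype K] [Fintype I]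
    [Fintype M] {𝔭 : Ideal S} (hp : 𝔭.IsPrime) (ht : 𝔱 ≤ 𝔭) (hd : del D.X D.Y ∉ 𝔭) {a : ℕ}
    (ha : a ≤ Fintype.card K + 3) (η : Ideal P) (hη : η.IsPrime) (h1 : c ≤ η)
    (h2 : η ≤ 𝔭.comap ψ) :
    ∃ η' : Ideal S, η'.IsPrime ∧ η' ≤ 𝔭 ∧ η.map ψ ⊔ 𝔱 ≤ η' ∧
      ((a : ℕ) : WithBot ℕ∞) + ringKrullDim (P ⧸ η) ≤ ringKrullDim (S ⧸ η') := by
  refine _root_.P022G.Up.up D.ext hp D.eqs (fun s => (sup_le
    (Ideal.map_le_iff_le_comap.2 (h1.trans h2)) ht : _ ≤ 𝔭) (D.eqs_mem lo s)) ?_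
    (fun 𝔮 hq k1 k2 k3 => ?_) η hη h1 h2
  · simp only [Fintype.card_sum, Fintype.card_prod, Fintype.card_fin]
    omega
  · let μ : S →+* FractionRing (S ⧸ 𝔮) := (algebraMap (S ⧸ 𝔮) _).comp (Ideal.Quotient.mk 𝔮)
    have hk : RingHom.ker μ = 𝔮 := by
      rw [RingHom.ker_comp_of_injective _ (IsFractionRing.injective _ _), Ideal.mk_ker]
    rw [← hk]
    refine hi _ μ (hk.symm ▸ k2) (Ch.good (hk.symm ▸ k2) (fun s => ?_) (Ne.isUnit fun e => ?_))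
    · rw [← RingHom.mem_ker, hk]
      exact k3 s
    · rw [← RingHom.mem_ker, hk] at e
      exact hd (k1 e)

end Vale.Agent.P022S.Fl
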