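import Vale.Agent.P022G.Flat3

/-!
# P022S: the colon property for one quadratic equation and for a pair of matrices
-/

set_option linter.all false

noncomputable section

namespace Vale.Agent.P022S.Fl

open Vale.Agent.P022G.Flat _root_.P022G.Sum

section poly

open MvPolynomial

variable {A : Type} [CommRing A] (u β γ : A)

/-- the quadratic equation -/
def qd : MvPolynomial Unit A := C u * X () ^ 2 + C β * X () + C γ

theorem nf (v : MvPolynomial Unit A) : ∃ (k : ℕ) (a b : A),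
    C u ^ k * v - (C a * X () + C b) ∈ Ideal.span {qd u β γ} := by
  induction v using MvPolynomial.induction_on with
  | C a => exact ⟨0, 0, a, by simp⟩
  | add p q hp hq =>
    obtain ⟨k, a, b, h⟩ := hp
    obtain ⟨k', a', b', h'⟩ := hq
    refine ⟨k + k', u ^ k' * a + u ^ k * a', u ^ k' * b + u ^ k * b', ?_⟩
    convert Ideal.add_mem _ (Ideal.mul_mem_left _ (C u ^ k') h)
      (Ideal.mul_mem_left _ (C u ^ k) h') using 1
    simp only [map_add, map_mul, map_pow]
    ring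
  | mul_X p s hp =>
    obtain ⟨k, a, b, h⟩ := hp
    refine ⟨k + 1, u * b - a * β, -(a * γ), ?_⟩
    convert Ideal.add_mem _ (Ideal.mul_mem_left _ (C u * X ()) h)
      (Ideal.mul_mem_left _ (C a) (Ideal.mem_span_singleton_self (qd u β γ))) using 1
    simp only [map_sub, map_mul, map_neg, qd]
    ring

theorem inj (d : Ideal A) (a b : A)
    (h : C a * X () + C b ∈ d.map (C : A →+* MvPolynomial Unit A) ⊔ Ideal.span {qd u β γ}) :
    ∃ k : ℕ, u ^ k * a ∈ d ∧ u ^ k * b ∈ d := by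
  let L := Localization.Away (Ideal.Quotient.mk d u)
  let π : A →+* L := (algebraMap _ L).comp (Ideal.Quotient.mk d)
  obtain ⟨i, hi⟩ : ∃ i, π u * i = 1 :=
    (IsLocalization.Away.algebraMap_isUnit (S := L) (Ideal.Quotient.mk d u)).exists_right_inv
  let θ : MvPolynomial Unit A →+* QuadraticAlgebra L (-(π γ * i)) (-(π β * i)) :=
    eval₂Hom ((algebraMap L _).comp π) fun _ => ⟨0, 1⟩
  have tC : ∀ a, θ (C a) = ⟨π a, 0⟩ := fun a => eval₂Hom_C _ _ a
  have tX : θ (X ()) = ⟨0, 1⟩ := eval₂Hom_X' _ _ _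
  have h2 : d.map (C : A →+* MvPolynomial Unit A) ⊔ Ideal.span {qd u β γ} ≤ RingHom.ker θ := by
    refine sup_le (Ideal.map_le_iff_le_comap.2 fun a ha => ?_)
      ((Ideal.span_singleton_le_iff_mem _).2 ?_)
    · show θ (C a) = 0
      have : π a = 0 := by
        show algebraMap _ L (Ideal.Quotient.mk d a) = 0
        rw [Ideal.Quotient.eq_zero_iff_mem.2 ha, map_zero]
      rw [tC, this]
      rfl
    · show θ _ = 0
      rw [qd, map_add, map_add, map_mul, map_mul, pow_two, map_mul, tC, tC, tC, tX]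
      ext
      · simp only [QuadraticAlgebra.re_add, QuadraticAlgebra.re_mul, QuadraticAlgebra.im_mul,
          QuadraticAlgebra.re_zero]
        linear_combination -π γ * hi
      · simp only [QuadraticAlgebra.im_add, QuadraticAlgebra.re_mul, QuadraticAlgebra.im_mul,
          QuadraticAlgebra.im_zero]
        linear_combination -π β * hi
  have h3 : θ (C a * X () + C b) = 0 := h2 h
  rw [map_add, map_mul, tC, tC, tX] at h3
  have e1 : π b = 0 := by simpa using congrArg QuadraticAlgebra.re h3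
  have e2 : π a = 0 := by simpa using congrArg QuadraticAlgebra.im h3
  have key : ∀ a, π a = 0 → ∃ k : ℕ, u ^ k * a ∈ d := fun a ha => by
    obtain ⟨⟨_, k, rfl⟩, hk⟩ := (IsLocalization.map_eq_zero_iff
      (Submonoid.powers (Ideal.Quotient.mk d u)) L _).1 ha
    refine ⟨k, Ideal.Quotient.eq_zero_iff_mem.1 ?_⟩
    rw [map_mul, map_pow]
    exact hk
  obtain ⟨k, hk⟩ := key a e2
  obtain ⟨k', hk'⟩ := key b e1
  exact ⟨k + k', by rw [pow_add, mul_comm (u ^ k), mul_assoc]; exact d.mul_mem_left _ hk,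
    by rw [pow_add, mul_assoc]; exact d.mul_mem_left _ hk'⟩

theorem col_qd : Col (C : A →+* MvPolynomial Unit A) ⊥ (Ideal.span {qd u β γ}) (C u) := by
  intro d _ t v hv
  obtain ⟨k, a, b, h⟩ := nf u β γ v
  obtain ⟨m, h1, h2⟩ := inj u β γ d (t * a) (t * b) (by
    convert Ideal.sub_mem _ (Ideal.mul_mem_left _ (C u ^ k) hv)
      (Ideal.mem_sup_right (Ideal.mul_mem_left _ (C t) h)) using 1
    simp only [map_mul]
    ring)
  have g1 : C (u ^ m * a) ∈ (cl d t).map (C : A →+* MvPolynomial Unit A) :=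
    Ideal.mem_map_of_mem _ (by rw [mem_cl, mul_left_comm]; exact h1)
  have g2 : C (u ^ m * b) ∈ (cl d t).map (C : A →+* MvPolynomial Unit A) :=
    Ideal.mem_map_of_mem _ (by rw [mem_cl, mul_left_comm]; exact h2)
  refine ⟨m + k, ?_⟩
  convert Ideal.add_mem _ (Ideal.mem_sup_left (Ideal.add_mem _ (Ideal.mul_mem_right (X ()) _ g1) g2))
    (Ideal.mem_sup_right (Ideal.mul_mem_left _ (C u ^ m) h)) using 1
  simp only [map_mul, map_pow]
  ring

end poly

open MvPowerSeries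

variable {P S σ K M : Type} [CommRing P] [CommRing S] [IsNoetherianRing P] {ψ : P →+* S}

/-- from polynomials to power series -/
theorem col_pass [Fintype σ] {z : σ → S} (h : Ext ψ z) {N : Ideal (MvPolynomial σ P)}
    {δ : MvPolynomial σ P} (hc : Col (MvPolynomial.C : P →+* MvPolynomial σ P) ⊥ N δ) :
    Col ψ ⊥ (N.map (MvPolynomial.eval₂Hom ψ z)) (MvPolynomial.eval₂Hom ψ z δ) := by
  obtain ⟨E, p1, p2⟩ := h
  letI : Algebra (MvPolynomial σ P) S := (MvPolynomial.eval₂Hom ψ z).toAlgebra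
  have he : ∀ p, E (algebraMap (MvPolynomial σ P) (MvPowerSeries σ P) p) =
      MvPolynomial.eval₂Hom ψ z p := fun p => by
    have : E.toRingHom.comp (algebraMap (MvPolynomial σ P) (MvPowerSeries σ P)) =
        MvPolynomial.eval₂Hom ψ z := by
      refine MvPolynomial.ringHom_ext (fun u => ?_) fun t => ?_
      · rw [MvPolynomial.eval₂Hom_C]
        exact (congrArg E (MvPolynomial.coe_C u)).trans (p1 u)
      · rw [MvPolynomial.eval₂Hom_X']
        exact (congrArg E (MvPolynomial.coe_X t)).trans (p2 t)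
    exact RingHom.congr_fun this p
  haveI := flat_ps (A := P) (σ := σ)
  let E' : S ≃ₐ[MvPolynomial σ P] MvPowerSeries σ P :=
    (AlgEquiv.ofRingEquiv (f := E) he).symm
  haveI : Module.Flat (MvPolynomial σ P) S := Module.Flat.of_linearEquiv E'.toLinearEquiv
  let a := algebraMap (MvPolynomial σ P) S
  have hC : ∀ u, a (MvPolynomial.C u) = ψ u := fun u => MvPolynomial.eval₂Hom_C _ _ u
  have hm : ∀ d : Ideal P, (d.map (MvPolynomial.C : P →+* MvPolynomial σ P) ⊔ N).map a =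
      d.map ψ ⊔ N.map a := fun d => by
    rw [Ideal.map_sup, Ideal.map_map]
    congr 2
    exact RingHom.ext hC
  intro d _ u v hv
  change _ ∈ d.map ψ ⊔ N.map a at hv
  change _ ∈ sat (_ ⊔ N.map a) (a δ)
  rw [← hm, ← hC] at hv
  refine (Ideal.map_le_iff_le_comap.2 fun w hw => ?_ : _ ≤ sat _ _) (flat_cl _ _ _ hv)
  obtain ⟨k, hk⟩ := hc d bot_le u w hw
  refine ⟨k, ?_⟩
  rw [← hm, ← map_pow, ← map_mul]
  exact Ideal.mem_map_of_mem a hk

/-- **one quadratic equation** -/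
theorem col_quad {z : Unit → S} (h : Ext ψ z) (u β γ : S) (hu : u ∈ ψ.range) (hβ : β ∈ ψ.range)
    (hγ : γ ∈ ψ.range) : Col ψ ⊥ (Ideal.span {u * z () ^ 2 + β * z () + γ}) u := by
  obtain ⟨u, rfl⟩ := hu
  obtain ⟨β, rfl⟩ := hβ
  obtain ⟨γ, rfl⟩ := hγ
  have := col_pass h (col_qd u β γ)
  rw [Ideal.map_span, Set.image_singleton] at this
  simpa only [qd, map_add, map_mul, map_pow, MvPolynomial.eval₂Hom_C,
    MvPolynomial.eval₂Hom_X'] using this

/-- free variables -/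
theorem col_free [Fintype σ] {z : σ → S} (h : Ext ψ z) : Col ψ ⊥ ⊥ 1 := by
  have h0 : Col (MvPolynomial.C : P →+* MvPolynomial σ P) ⊥ ⊥ 1 := by
    intro d _ u v hv
    refine le_sat _ _ (Ideal.mem_sup_left ?_)
    rw [sup_bot_eq, MvPolynomial.mem_map_C_iff] at hv
    rw [MvPolynomial.mem_map_C_iff]
    intro n
    have := hv n
    rwa [MvPolynomial.coeff_C_mul] at this
  have := col_pass h h0
  rwa [Ideal.map_bot, map_one] at this

/-- the subrings which are used to express that a function depends on some variables only -/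
def Sub (ψ : P →+* S) (z : σ → S) (A : Subring S) : Prop :=
  (∀ a, ψ a ∈ A) ∧ (∀ t, z t ∈ A) ∧ ∀ w ∈ A, IsUnit w → ∃ w' ∈ A, w * w' = 1

/-- the first block of a splitting -/
theorem split {z : σ ⊕ M → S} (h : Ext ψ z) : ∃ ψ₂ : MvPowerSeries σ P →+* S,
    Ext ψ₂ (fun m => z (Sum.inr m)) ∧ ψ₂.comp C = ψ ∧ (∀ a, ψ₂ (C a) = ψ a) ∧
      (∀ t, ψ₂ (X t) = z (Sum.inl t)) ∧ Sub ψ (fun t => z (Sum.inl t)) ψ₂.range := by
  obtain ⟨ψ₂, e2, q1, q2⟩ := ext_split h
  have q3 : ∀ a, ψ₂ (C a) = ψ a := fun a => RingHom.congr_fun q1 a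
  refine ⟨ψ₂, e2, q1, q3, q2, fun a => ⟨C a, q3 a⟩, fun t => ⟨X t, q2 t⟩, ?_⟩
  rintro _ ⟨w, rfl⟩ hw
  obtain ⟨E, p1, -⟩ := e2
  rw [← p1, MulEquiv.isUnit_map, isUnit_iff_constantCoeff, constantCoeff_C] at hw
  obtain ⟨w', e⟩ := hw.exists_right_inv
  exact ⟨ψ₂ w', ⟨w', rfl⟩, by rw [← map_mul, e, map_one]⟩

/-- the equation of the conic -/
def cq {R : Type} [CommRing R] (p : Fin 5 → R) (a b f e : R) : R :=
  b ^ 2 * (e * (p 2 - e) - p 3) -
    f * (b * (p 4 - a * e - (p 0 - a) * (p 2 - e)) - (a * (p 0 - a) - p 1) * f)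

theorem col_conic [Fintype K] {z : (Fin 3 ⊕ K) ⊕ Unit → S} (h : Ext ψ z) (c : Fin 4 → P)
    (p : Fin 5 → P) :
    Col ψ ⊥ (Ideal.span {cq (fun i => ψ (p i)) (ψ (c 0) + z (.inl (.inl 0)))
      (ψ (c 1) + z (.inl (.inl 1))) (ψ (c 2) + z (.inl (.inl 2))) (ψ (c 3) + z (.inr ()))})
      (ψ (c 1) + z (.inl (.inl 1))) := by
  obtain ⟨ψ₂, e2, q1, -, -, q4, q5, -⟩ := split h
  haveI : IsNoetherianRing (MvPowerSeries (Fin 3 ⊕ K) P) := inferInstance
  set a := ψ (c 0) + z (.inl (.inl 0))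
  set b := ψ (c 1) + z (.inl (.inl 1))
  set f := ψ (c 2) + z (.inl (.inl 2))
  have ha : a ∈ ψ₂.range := add_mem (q4 _) (q5 _)
  have hb : b ∈ ψ₂.range := add_mem (q4 _) (q5 _)
  have hf : f ∈ ψ₂.range := add_mem (q4 _) (q5 _)
  have k := (col_free (ext_C (Fin 3 ⊕ K))).comp (col_quad e2 (b ^ 2)
    (2 * b ^ 2 * ψ (c 3) - (b ^ 2 * ψ (p 2) + f * b * (2 * a - ψ (p 0))))
    (-cq (fun i => ψ (p i)) a b f (ψ (c 3))) (pow_mem hb 2)
    (sub_mem (mul_mem (mul_mem (ofNat_mem _ 2) (pow_mem hb 2)) (q4 _))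
      (add_mem (mul_mem (pow_mem hb 2) (q4 _))
        (mul_mem (mul_mem hf hb) (sub_mem (mul_mem (ofNat_mem _ 2) ha) (q4 _)))))
    (by
      have := q4 (c 3)
      have := q4 (p 0)
      have := q4 (p 1)
      have := q4 (p 2)
      have := q4 (p 3)
      have := q4 (p 4)
      unfold cq
      apply_rules [neg_mem, sub_mem, mul_mem, pow_mem]))
  rw [q1, Ideal.map_bot, bot_sup_eq, map_one, one_mul, ← Ideal.span_singleton_neg] at k
  refine Col.dvd (m := 2) ?_ dvd_rfl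
  have e : cq (fun i => ψ (p i)) a b f (ψ (c 3) + z (.inr ())) = -(b ^ 2 * z (.inr ()) ^ 2 +
      (2 * b ^ 2 * ψ (c 3) - (b ^ 2 * ψ (p 2) + f * b * (2 * a - ψ (p 0)))) * z (.inr ()) +
      -cq (fun i => ψ (p i)) a b f (ψ (c 3))) := by
    unfold cq
    ring
  rw [e]
  exact k

end Vale.Agent.P022S.Fl
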