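import Vale.Agent.P022S.Flat
import Vale.Agent.P022G.Pt.Defs2
import Vale.Agent.P022D.NR.Ev

/-!
# P022S: the chart without variables for the pair
-/

set_option linter.all false

noncomputable section

namespace Vale.Agent.P022S.Fl

open Vale.Agent.P022G.Flat _root_.P022G.Sum _root_.P022G.Th MvPowerSeries Matrix IsLocalRing
open Vale.Agent.P022.H346

variable {P S K M I : Type} [CommRing P] [CommRing S] {ψ : P →+* S}

theorem ext_trans {σ : Type} {z : σ → S} (h : Ext ψ z) (ω : Type) :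
    Ext ((C : S →+* MvPowerSeries ω S).comp ψ) (Sum.elim (fun s => C (z s)) X) := by
  obtain ⟨e, p1, p2⟩ := h
  let E : MvPowerSeries ω (MvPowerSeries σ P) ≃+* MvPowerSeries ω S :=
    RingEquiv.ofRingHom (MvPowerSeries.map e.toRingHom) (MvPowerSeries.map e.symm.toRingHom)
      (by rw [← MvPowerSeries.map_comp, RingEquiv.toRingHom_comp_symm_toRingHom,
        MvPowerSeries.map_id])
      (by rw [← MvPowerSeries.map_comp, RingEquiv.symm_toRingHom_comp_toRingHom,
        MvPowerSeries.map_id])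
  refine ⟨(sumEquiv σ ω P).trans E, fun r => ?_, ?_⟩
  · rw [RingEquiv.trans_apply, sumEquiv_C]
    exact (MvPowerSeries.map_C e.toRingHom (C r)).trans (congrArg C (p1 r))
  · rintro (s | s)
    · rw [RingEquiv.trans_apply, sumEquiv_X_inl]
      exact (MvPowerSeries.map_C e.toRingHom (X s)).trans (congrArg C (p2 s))
    · rw [RingEquiv.trans_apply, sumEquiv_X_inr]
      exact MvPowerSeries.map_X e.toRingHom s

theorem ex_cst [IsLocalRing S] {σ : Type} {z : σ → S} (h : Ext ψ z) (s : S) :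
    ∃ p, s - ψ p ∈ maximalIdeal S := by
  obtain ⟨e, p1, -⟩ := h
  obtain ⟨f, rfl⟩ := e.surjective s
  refine ⟨constantCoeff f, fun hu => ?_⟩
  rw [← p1, ← map_sub, MulEquiv.isUnit_map, isUnit_iff_constantCoeff, map_sub, constantCoeff_C,
    sub_self, isUnit_zero_iff] at hu
  have := congrArg ψ hu
  rw [map_zero, map_one] at this
  exact zero_ne_one this

/-- the data of the framed ring -/
structure Cg (ψ : P →+* S) (K M I H : Type) [Group H] (c : Ideal P) where
  z : (K ⊕ (I × Fin 2 × Fin 2)) ⊕ M → S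
  y : I → H
  Z : H →* M2 S
  z0 : I → M2 P
  gm : M → S
  t : H → P ⧸ c
  d : H →* (P ⧸ c)ˣ
  ext : Ext ψ z
  gen : Subgroup.closure (Set.range y) = ⊤
  tf : TF t d
  hZ : ∀ i a b, Z (y i) a b = ψ (z0 i a b) + z (.inl (.inr (i, a, b)))
  hg : ∀ A : Subring S, Sub ψ (fun s => z (.inl s)) A → ∀ m, gm m ∈ A

variable {H : Type} [Group H] {c : Ideal P} (D : Cg ψ K M I H c)

/-- the points which satisfy the tautological relations -/
structure Cg.Good {Q : Type} [CommRing Q] (μ : S →+* Q) : Prop where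
  t : ∀ w u, Ideal.Quotient.mk c u = D.t w → μ (ψ u) = μ (D.Z w).trace
  d : ∀ w u, Ideal.Quotient.mk c u = D.d w → μ (ψ u) = μ (D.Z w).det
  m : ∀ m, μ (D.z (.inr m)) = μ (D.gm m)

abbrev W8 : Type := Fin 2 × Fin 2 × Fin 2

def s8 (K I M : Type) : ((W8 ⊕ K) ⊕ I) ⊕ M ≃ ((K ⊕ I) ⊕ M) ⊕ W8 where
  toFun := Sum.elim (Sum.elim (Sum.elim .inr fun k => .inl (.inl (.inl k)))
    fun i => .inl (.inl (.inr i))) fun m => .inl (.inr m)
  invFun := Sum.elim (Sum.elim (Sum.elim (fun k => .inl (.inl (.inr k))) fun i => .inl (.inr i))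
    .inr) fun w => .inl (.inl (.inl w))
  left_inv := by rintro (((_ | _) | _) | _) <;> rfl
  right_inv := by rintro (((_ | _) | _) | _) <;> rfl

/-- the chart with eight more variables -/
def Cg.ch (g h : H) (x0 y0 : M2 P) :
    Ch ((C : S →+* MvPowerSeries W8 S).comp ψ) K M I H c where
  z := Sum.elim (fun s => C (D.z s)) X ∘ s8 K (I × Fin 2 × Fin 2) M
  y := D.y
  g := g
  h := h
  Z := P022G.Kd.red C D.Z
  X := of fun a b => C (ψ (x0 a b)) + X (0, a, b)
  Y := of fun a b => C (ψ (y0 a b)) + X (1, a, b)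
  x0 := x0
  y0 := y0
  z0 := D.z0
  gm := fun m => C (D.gm m)
  t := D.t
  d := D.d
  ext := (ext_trans D.ext W8).congr _
  gen := D.gen
  tf := D.tf
  hX := fun _ _ => rfl
  hY := fun _ _ => rfl
  hZ := fun i a b => (congrArg C (D.hZ i a b)).trans (map_add _ _ _)
  hg := fun A hA => D.hg (A.comap C) ⟨hA.1, fun s => by
      rcases s with s | s
      exacts [hA.2.1 (.inl (.inr s)), hA.2.1 (.inr s)], fun w hw hu => by
      obtain ⟨w', h1, h2⟩ := hA.2.2 _ hw (hu.map C)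
      obtain ⟨v, hv⟩ := hu.exists_right_inv
      refine ⟨v, ?_, hv⟩
      have : (C v : MvPowerSeries W8 S) = w' := by
        rw [← mul_one (C v), ← h2, ← mul_assoc, ← map_mul, mul_comm v, hv, map_one, one_mul]
      rw [Subring.mem_comap, this]
      exact h1⟩

variable {𝔱 : Ideal S}
  (lo : ∀ (Q : Type) [CommRing Q] (μ : S →+* Q), c.map ψ ⊔ 𝔱 ≤ RingHom.ker μ → D.Good μ)
  (hi : ∀ (Q : Type) [CommRing Q] (μ : S →+* Q), c.map ψ ≤ RingHom.ker μ → D.Good μ →
    𝔱 ≤ RingHom.ker μ)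

include lo hi in
theorem Cg.pre [IsLocalRing S] [IsAdicComplete (maximalIdeal S) S] (g h : H) :
    ∃ (x0 y0 : M2 P) (ev : MvPowerSeries W8 S →+* S) (T : Ideal (MvPowerSeries W8 S)),
      (∀ s, ev (C s) = s) ∧ (∀ w, ev (X w) ∈ maximalIdeal S) ∧ (∀ w, X w - C (ev (X w)) ∈ T) ∧
      (D.ch g h x0 y0).X.map ev = D.Z g ∧ (D.ch g h x0 y0).Y.map ev = D.Z h ∧
      𝔱.map C ≤ T ∧ T ≤ 𝔱.comap ev ∧
      (∀ (Q : Type) [CommRing Q] (μ : MvPowerSeries W8 S →+* Q),
        c.map ((C : S →+* _).comp ψ) ⊔ T ≤ RingHom.ker μ → (D.ch g h x0 y0).Good μ) ∧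
      ∀ (Q : Type) [CommRing Q] (μ : MvPowerSeries W8 S →+* Q),
        c.map ((C : S →+* _).comp ψ) ≤ RingHom.ker μ → (D.ch g h x0 y0).Good μ →
          T ≤ RingHom.ker μ := by
  choose p hp using ex_cst D.ext
  let v : W8 → S := fun w => D.Z (![g, h] w.1) w.2.1 w.2.2 - ψ (p (D.Z (![g, h] w.1) w.2.1 w.2.2))
  obtain ⟨ev, e1, e2⟩ := P022D.NR.exists_ev (maximalIdeal S) (RingHom.id S) v fun w => hp _
  refine ⟨of fun a b => p (D.Z g a b), of fun a b => p (D.Z h a b), ev,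
    𝔱.map C ⊔ Ideal.span (Set.range fun w => X w - C (v w)), e1, fun w => e2 w ▸ hp _,
    fun w => e2 w ▸ Ideal.mem_sup_right (Ideal.subset_span ⟨w, rfl⟩),
    Matrix.ext fun a b => ?_, Matrix.ext fun a b => ?_, le_sup_left, sup_le ?_ ?_,
    fun Q _ μ hμ => ?_, fun Q _ μ hμ k => ?_⟩
  · exact (map_add ev _ _).trans (by rw [e1, e2]; exact add_sub_cancel _ _)
  · exact (map_add ev _ _).trans (by rw [e1, e2]; exact add_sub_cancel _ _)
  · exact Ideal.map_le_iff_le_comap.2 fun s hs => by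
      rwa [Ideal.mem_comap, Ideal.mem_comap, e1]
  · rw [Ideal.span_le]
    rintro _ ⟨w, rfl⟩
    show ev _ ∈ 𝔱
    rw [map_sub, e1, e2, RingHom.id_apply, sub_self]
    exact zero_mem _
  · have k := lo Q (μ.comp C) (by
      rw [← RingHom.comap_ker, ← Ideal.map_le_iff_le_comap, Ideal.map_sup, Ideal.map_map]
      exact le_trans (sup_le_sup_left le_sup_left _) hμ)
    have k2 : ∀ w, μ (X w) = μ (C (v w)) := fun w => sub_eq_zero.1 ((map_sub μ _ _).symm.trans
      (hμ (Ideal.mem_sup_right (Ideal.mem_sup_right (Ideal.subset_span ⟨w, rfl⟩)))))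
    refine ⟨Matrix.ext fun a b => ?_, Matrix.ext fun a b => ?_, fun w u e => ?_, fun w u e => ?_,
      k.m⟩
    · refine (map_add μ _ _).trans ?_
      rw [k2, ← map_add, ← map_add]
      exact congrArg (fun s => μ (C s)) (add_sub_cancel _ _)
    · refine (map_add μ _ _).trans ?_
      rw [k2, ← map_add, ← map_add]
      exact congrArg (fun s => μ (C s)) (add_sub_cancel _ _)
    · exact (k.t w u e).trans (congrArg μ (tr_map C (D.Z w)))
    · exact (k.d w u e).trans (congrArg μ (det_map C (D.Z w)))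
  · refine sup_le (Ideal.map_le_iff_le_comap.2 ?_) (Ideal.span_le.2 ?_)
    · rw [RingHom.comap_ker]
      refine hi Q (μ.comp C) ?_ ⟨fun w u e => (k.t w u e).trans
        (congrArg μ (tr_map (C : S →+* MvPowerSeries W8 S) (D.Z w))).symm,
        fun w u e => (k.d w u e).trans
        (congrArg μ (det_map (C : S →+* MvPowerSeries W8 S) (D.Z w))).symm, k.m⟩
      rwa [← RingHom.comap_ker, ← Ideal.map_le_iff_le_comap, Ideal.map_map]
    · rintro _ ⟨⟨i, a, b⟩, rfl⟩
      show μ (X _ - C (_ - _)) = 0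
      rw [map_sub C, ← sub_add, sub_add_eq_add_sub, add_comm, map_sub, sub_eq_zero]
      fin_cases i
      exacts [congrFun (congrFun k.x a) b, congrFun (congrFun k.y a) b]

include lo hi

/-- **FLAT** -/
theorem Cg.flat [IsNoetherianRing P] [IsLocalRing S] [IsAdicComplete (maximalIdeal S) S]
    [Fintype K] [Fintype I] [Fintype M] (g h : H) :
    Col ψ c 𝔱 (D.Z g 0 1 * del (D.Z g) (D.Z h)) := by
  obtain ⟨x0, y0, ev, T, e1, -, -, e2, e3, e4, e5, e6, e7⟩ := D.pre lo hi g h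
  have hm : ∀ d : Ideal P, d.map ((C : S →+* _).comp ψ) ⊔ T ≤ (d.map ψ ⊔ 𝔱).comap ev := fun d =>
    sup_le (Ideal.map_le_iff_le_comap.2 fun a ha => by
      rw [Ideal.mem_comap, Ideal.mem_comap, RingHom.comp_apply, e1]
      exact Ideal.mem_sup_left (Ideal.mem_map_of_mem _ ha))
      (e5.trans (Ideal.comap_mono le_sup_right))
  intro d hd u v hv
  obtain ⟨k, hk⟩ := (D.ch g h x0 y0).flat e6 e7 d hd u (C v) (by
    rw [RingHom.comp_apply, ← map_mul, ← Ideal.map_map]
    have := Ideal.mem_map_of_mem (C : S →+* MvPowerSeries W8 S) hv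
    rw [Ideal.map_sup] at this
    exact (sup_le_sup_left e4 _) this)
  have := hm _ hk
  rw [Ideal.mem_comap, map_mul, map_pow, map_mul, e1, map_del, e2, e3] at this
  exact ⟨k, by rw [← e2]; rw [← e2] at this; exact this⟩

/-- the form at a prime which does not contain the discriminant -/
theorem Cg.col [IsNoetherianRing P] [IsLocalRing S] [IsAdicComplete (maximalIdeal S) S]
    [Fintype K] [Fintype I] [Fintype M] (g h : H) (𝔭 : Ideal S) [hp : 𝔭.IsPrime]
    (hd : del (D.Z g) (D.Z h) ∉ 𝔭) : P022G.Pt.Col ψ c 𝔱 𝔭 := by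
  by_cases h1 : D.Z g 0 1 ∈ 𝔭
  · have e : del (D.Z h) (D.Z g) = del (D.Z g) (D.Z h) := by
      simp only [del, det_fin_two, Matrix.sub_apply, mul_apply, Fin.sum_univ_two]; ring
    refine (D.flat lo hi h g).pt 𝔭 fun k => (hp.mem_or_mem k).elim (fun h2 => hd ?_)
      fun k => hd (e ▸ k)
    rw [← Ideal.Quotient.eq_zero_iff_mem] at h1 h2 ⊢
    rw [map_del]
    simp only [del, det_fin_two, Matrix.sub_apply, mul_apply, Fin.sum_univ_two, map_apply, h1, h2]
    ring
  · exact (D.flat lo hi g h).pt 𝔭 fun k => (hp.mem_or_mem k).elim h1 hd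

/-- **UP** -/
theorem Cg.up [IsNoetherianRing P] [IsLocalRing P] [IsLocalRing S] [IsNoetherianRing S]
    [IsAdicComplete (maximalIdeal S) S] [IsRegularLocalRing (MvPowerSeries W8 S)] [Fintype K]
    [Fintype I] [Fintype M] (g h : H) {𝔭 : Ideal S} (hp : 𝔭.IsPrime) (ht : 𝔱 ≤ 𝔭)
    (hd : del (D.Z g) (D.Z h) ∉ 𝔭) {a : ℕ} (ha : a ≤ Fintype.card K + 3) (η : Ideal P)
    (hη : η.IsPrime) (h1 : c ≤ η) (h2 : η ≤ 𝔭.comap ψ) :
    ∃ η' : Ideal S, η'.IsPrime ∧ η' ≤ 𝔭 ∧ η.map ψ ⊔ 𝔱 ≤ η' ∧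
      ((a : ℕ) : WithBot ℕ∞) + ringKrullDim (P ⧸ η) ≤ ringKrullDim (S ⧸ η') := by
  obtain ⟨x0, y0, ev, T, e1, e8, e9, e2, e3, e4, e5, e6, e7⟩ := D.pre lo hi g h
  obtain ⟨q, q1, q2, q3, q4⟩ := (D.ch g h x0 y0).up e6 e7 (Ideal.comap_isPrime ev 𝔭)
    (e5.trans (Ideal.comap_mono ht)) (by rwa [Ideal.mem_comap, map_del, e2, e3]) ha η hη h1
    (fun u hu => by
      rw [Ideal.mem_comap, Ideal.mem_comap, RingHom.comp_apply, e1]
      exact h2 hu)
  refine ⟨q.comap C, Ideal.comap_isPrime _ _, fun s hs => e1 s ▸ q2 hs, ?_, q4.trans ?_⟩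
  · rw [← Ideal.map_le_iff_le_comap, Ideal.map_sup, Ideal.map_map]
    exact (sup_le_sup_left e4 _).trans q3
  · haveI : Nontrivial (MvPowerSeries W8 S ⧸ q) := Ideal.Quotient.nontrivial_iff.2 q1.ne_top
    haveI : IsLocalRing (MvPowerSeries W8 S ⧸ q) :=
      .of_surjective' (Ideal.Quotient.mk q) Ideal.Quotient.mk_surjective
    haveI := P022D.NR.haus_of_le (maximalIdeal.isMaximal (MvPowerSeries W8 S ⧸ q)).ne_top
    haveI : IsLocalHom (Ideal.Quotient.mk q) := .of_surjective _ Ideal.Quotient.mk_surjective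
    have k : Ideal.Quotient.mk q = ((Ideal.Quotient.mk q).comp C).comp ev :=
      P022D.NR.ev_ext (maximalIdeal _) (fun s => by
        rw [RingHom.comp_apply, e1]; rfl)
        (fun w => Ideal.Quotient.eq.2 (q3 (Ideal.mem_sup_right (e9 w)))) fun w hu => by
          have := (isUnit_map_iff _ _).1 hu
          rw [isUnit_iff_constantCoeff, constantCoeff_X] at this
          exact not_isUnit_zero this
    refine (ringKrullDim_eq_of_ringEquiv (RingEquiv.ofBijective (Ideal.quotientMap q C le_rfl)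
      ⟨Ideal.quotientMap_injective, fun x => ?_⟩)).ge
    obtain ⟨f, rfl⟩ := Ideal.Quotient.mk_surjective x
    exact ⟨Ideal.Quotient.mk _ (ev f), (RingHom.congr_fun k f).symm⟩

end Vale.Agent.P022S.Fl
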