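import Vale.Agent.P022S.Mod.Gw
import Vale.Agent.P022G.Nice1
import Vale.Agent.P022G.Pres.Defs
import Vale.Agent.P022E.GW.TauG
import Vale.Agent.P022E.Loc.Defs
import Vale.Agent.P027M.F.Tra

/-!
# P022S: generators of the finite quotients which are `2`-groups
-/

set_option linter.all false

noncomputable section

namespace Vale.Agent.P022S.Gen2

open NumberField
open Vale.Agent.P022 Vale.Agent.P022.H853 Vale.Agent.P022.H443
open Vale.Agent.P027M.S (Inert mx)
open Vale.Agent.P022D.Sel (M2)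
open Vale.Agent.P022E.GW (Ov H1)
open Vale.Agent.P022E.Loc (Tm)
open Vale.Agent.P022S.Mod (Gen2)
open scoped Pointwise

/-- a quadratic character which kills the tame generator is unramified -/
theorem unr (χ : GQ →* Multiplicative (ZMod 2)) (ho : IsOpen {g | χ g = 1}) {l : ℕ}
    {P : Ideal (𝓞 Qb)} (hP : Ov l P) {τ φ : GQ} (tm : Tm l P τ φ) (h : χ τ = 1)
    {P' : Ideal (𝓞 Qb)} (hP' : Ov l P') {s : GQ} (hs : Inert P' s) : χ s = 1 := by
  obtain ⟨t, rfl⟩ := P027M.F.Tra.trans hP.1 hP.2.1 hP'.2.1 hP.2.2 hP'.2.2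
  obtain ⟨N, hN⟩ := tm.tame _ χ ho
  obtain ⟨k, p, pN, e⟩ := hN.cyc _ (P022E.GW.Tg.inert_conj hs)
  obtain ⟨m, ⟨n, rfl⟩, hm⟩ := hN.odd p pN
  have s1 : ∀ a : Multiplicative (ZMod 2), a ^ 2 = 1 := by decide
  rw [pow_succ, pow_mul, s1, one_pow, one_mul] at hm
  have := congrArg χ e
  rwa [map_mul, map_mul, map_mul, map_pow, h, hm, one_pow, one_mul, mul_right_comm, ← map_mul,
    inv_mul_cancel, map_one, one_mul] at this

/-- **generation**: tame generators, a complex conjugation and one more element -/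
theorem gen2 {T Q : Finset ℕ} {ι : Type} {γ : ι → GQ}
    (ht : ∀ l : ℕ, l.Prime → l ≠ 2 → l ∈ T ∨ l ∈ Q → ∃ i P φ, Ov l P ∧ Tm l P (γ i) φ)
    (hc : ∃ i, IsConj (γ i)) (hx : ∃ i, (cyc 8 (γ i) : ZMod 8) = 5) : Gen2 T Q γ := by
  intro Γ _ _ f ho h2 hu g
  obtain ⟨i, hc⟩ := hc
  obtain ⟨j, hx⟩ := hx
  have hp : IsPGroup 2 f.range := by
    rintro ⟨_, g, rfl⟩
    exact (h2 g).imp fun k hk => Subtype.ext hk
  have key := H601.gen_of_chars hp (Set.range fun i => f.rangeRestrict (γ i)) fun χ hχ => by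
    let ψ := χ.comp f.rangeRestrict
    have a : ∀ i, ψ (γ i) = 1 := fun i => hχ _ ⟨i, rfl⟩
    have k : ∀ g, f g = 1 → ψ g = 1 := fun g hg => by
      rw [MonoidHom.comp_apply, show f.rangeRestrict g = 1 from Subtype.ext hg, map_one]
    have o : IsOpen (ψ.ker : Set GQ) := Subgroup.isOpen_mono (H₁ := f.ker) k ho
    have q := fun h => P022G.Nice.quad8 ψ o (fun l hl l2 σ ⟨P, p1, p2, p3⟩ => by
      by_cases m : l ∈ T ∨ l ∈ Q
      · obtain ⟨i, P', φ, a1, a2⟩ := ht l hl l2 m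
        exact unr ψ o a1 a2 (a i) ⟨hl, p1, p2⟩ p3
      · exact k σ (hu l hl (fun e => m (Or.inl e)) (fun e => m (Or.inr e)) P p1 p2 σ p3)) (h := h)
    refine MonoidHom.ext fun x => ?_
    obtain ⟨g, rfl⟩ := f.rangeRestrict_surjective x
    show ψ g = 1
    rcases P022G.Nice.cls8 hc hx g with h | h | h | h <;> have := q _ h
    · exact this
    · rwa [map_mul, a, one_mul] at this
    · rwa [map_mul, a, one_mul] at this
    · rwa [map_mul, map_mul, a, a, one_mul, one_mul] at this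
  have m : f.rangeRestrict g ∈ Subgroup.closure (Set.range fun i => f.rangeRestrict (γ i)) :=
    key ▸ Subgroup.mem_top _
  have := Subgroup.mem_map_of_mem f.range.subtype m
  rwa [MonoidHom.map_closure, ← Set.range_comp] at this

/-- the generation clause of the presentation, for the trivial representation -/
theorem ok_gen {T : Finset ℕ} {ι : Type} {γ : ι → GQ} (hG : Gen2 T ∅ γ) {F : Type} [Field F]
    [Finite F] [CharP F 2] {ρ : GQ →* GL (Fin 2) F} (h1 : ∀ g, ρ g = 1) :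
    ∀ c ∈ H1 ρ T ⊤, (∀ i, c (γ i) = 0) → c = 0 := by
  intro c ⟨c1, _, ⟨U, hU, c2⟩, c3⟩ h
  have ad : ∀ g k, c (g * k) = c g + c k := fun g k => by
    rw [c1 g trivial k trivial, mx, mx, h1, h1, Units.val_one, one_mul, mul_one]
  let f : GQ →* Multiplicative (M2 F) := MonoidHom.mk' (fun g => Multiplicative.ofAdd (c g))
    fun g k => congrArg Multiplicative.ofAdd (ad g k)
  funext g
  have m := hG _ f (Subgroup.isOpen_mono (H₁ := U) (H₂ := f.ker) c2 hU)
    (fun g => ⟨1, by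
      rw [pow_one, pow_two]
      exact Matrix.ext fun a b => CharTwo.add_self_eq_zero (c g a b)⟩)
    (fun l hl a _ P p1 p2 s hs => c3 l a P ⟨hl, p1, p2⟩ s hs) g
  have : Subgroup.closure (Set.range fun i => f (γ i)) ≤ ⊥ :=
    (Subgroup.closure_le _).2 (by rintro _ ⟨i, rfl⟩; exact h i)
  exact this m

theorem mono {T Q T' Q' : Finset ℕ} {ι κ : Type} {γ : ι → GQ} {γ' : κ → GQ} (h : Gen2 T Q γ)
    (hT : ∀ l : ℕ, l.Prime → l ∈ T' ∨ l ∈ Q' → l ∈ T ∨ l ∈ Q) (hγ : ∀ i, ∃ k, γ' k = γ i) :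
    Gen2 T' Q' γ' := fun Γ _ _ f ho h2 hu g => by
  refine Subgroup.closure_mono ?_ (h Γ f ho h2 (fun l hl a b => hu l hl
    (fun e => (hT l hl (Or.inl e)).elim a b) fun e => (hT l hl (Or.inr e)).elim a b) g)
  rintro _ ⟨i, rfl⟩
  obtain ⟨k, e⟩ := hγ i
  exact ⟨k, congrArg f e⟩

theorem ex_x : ∃ x : GQ, (cyc 8 x : ZMod 8) = 5 := P022G.Nice.ex_cg.elim fun _ h =>
  h.imp fun _ k => k.2

end Vale.Agent.P022S.Gen2
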