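import Vale.Agent.P022S.Gen2
import Vale.Agent.P022S.Koch.Gen

/-!
# P022S: generators with names
-/

set_option linter.all false

noncomputable section

namespace Vale.Agent.P022S.Gens0

open NumberField
open Vale.Agent.P022 Vale.Agent.P022.H853
open Vale.Agent.P022E.GW (Ov Gn)
open Vale.Agent.P022E.Loc (Tm)
open Vale.Agent.P022S.Mod (Gen2)

/-- the quadratic characters which vanish on generators -/
theorem qc_of {T : Finset ℕ} {ι : Type} {γ : ι → GQ} (hG : Gen2 T ∅ γ) :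
    ∀ x ∈ Koch.Qc T, (∀ i, x (γ i) = 0) → x = 0 := by
  intro c ⟨c1, ⟨U, hU, c2⟩, c3⟩ h
  let f : GQ →* Multiplicative (ZMod 2) := MonoidHom.mk' (fun g => Multiplicative.ofAdd (c g))
    fun g k => congrArg Multiplicative.ofAdd (c1 g k)
  have s1 : ∀ a : Multiplicative (ZMod 2), a ^ 2 ^ 1 = 1 := by decide
  funext g
  have := hG _ f (Subgroup.isOpen_mono (H₁ := U) (H₂ := f.ker)
    (fun u hu => congrArg Multiplicative.ofAdd (c2 u hu)) hU) (fun g => ⟨1, s1 _⟩)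
    (fun l a1 a2 _ P a4 a5 s a6 => congrArg Multiplicative.ofAdd (c3 l a2 P ⟨a1, a4, a5⟩ s a6)) g
  have e : Subgroup.closure (Set.range fun i => f (γ i)) ≤ ⊥ := (Subgroup.closure_le _).2 (by
    rintro _ ⟨i, rfl⟩
    exact congrArg Multiplicative.ofAdd (h i))
  exact congrArg Multiplicative.toAdd (Subgroup.mem_bot.1 (e this))

/-- generators of level zero and tame generators at `Q` generate at level `Q` -/
theorem lev {T : Finset ℕ} (h2 : 2 ∈ T) {ι ι' : Type} {γ : ι → GQ} (hG : Gen2 T ∅ γ)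
    (Q : Finset ℕ) (γ' : ι' → GQ) (h1 : ∀ i, ∃ k, γ' k = γ i)
    (hτ : ∀ q ∈ Q, q ∉ T → ∃ i P, Ov q P ∧ Gn q P (γ' i)) : Gen2 T Q γ' :=
  fun Γ _ _ f a b c g => Koch.gen2 h2 (qc_of hG) Q γ' h1 hτ Γ f a b c g

theorem app {T : Finset ℕ} (h2 : 2 ∈ T) {n : ℕ} {γ : Fin n → GQ} (hG : Gen2 T ∅ γ) (r : ℕ)
    (q : Fin r → ℕ) (τ' : Fin r → GQ) (h : ∀ i, ∃ P, Ov (q i) P ∧ Gn (q i) P (τ' i)) :
    Gen2 T (Finset.univ.image q) (Fin.append γ τ') :=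
  lev h2 hG _ _ (fun i => ⟨Fin.castAdd r i, Fin.append_left _ _ _⟩) fun l hl _ => by
    obtain ⟨i, -, rfl⟩ := Finset.mem_image.1 hl
    obtain ⟨P, a⟩ := h i
    exact ⟨Fin.natAdd n i, P, by rwa [Fin.append_right]⟩

/-- **generators with names** -/
theorem gens0 {T C : Finset ℕ} (hT : ∀ l ∈ T, l.Prime → l ≠ 2 → l ∈ C) (h2 : 2 ∈ T)
    (P : ℕ → Ideal (𝓞 Qb)) (τ φ : ℕ → GQ) (hP : ∀ l ∈ C, Ov l (P l))
    (tm : ∀ l ∈ C, Tm l (P l) (τ l) (φ l)) {c x : GQ} (hc : IsConj c)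
    (hx : (cyc 8 x : ZMod 8) = 5) {κ : Type} [Fintype κ] (gk : κ → GQ) :
    ∃ (n : ℕ) (γ : Fin n → GQ) (ix ic : Fin n) (iτ iφ : C → Fin n) (iK : κ → Fin n),
      γ ix = x ∧ γ ic = c ∧ (∀ l, γ (iτ l) = τ l) ∧ (∀ l, γ (iφ l) = φ l) ∧
      (∀ t, γ (iK t) = gk t) ∧
      Function.Injective (Sum.elim (Sum.elim ![ix, ic] (Sum.elim iτ iφ)) iK) ∧
      Function.Injective (Sum.elim ![ix, ic] (Sum.elim iτ iφ)) ∧ Gen2 T ∅ γ ∧
      ∀ (r : ℕ) (q : Fin r → ℕ) (τ' : Fin r → GQ),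
        (∀ i, ∃ P, Ov (q i) P ∧ Gn (q i) P (τ' i)) →
        Gen2 T (Finset.univ.image q) (Fin.append γ τ') := by
  classical
  let e := Fintype.equivFin ((Fin 2 ⊕ C ⊕ C) ⊕ κ)
  let γ0 : (Fin 2 ⊕ C ⊕ C) ⊕ κ → GQ :=
    Sum.elim (Sum.elim ![x, c] (Sum.elim (fun l => τ l) fun l => φ l)) gk
  have v : ∀ s, (γ0 ∘ e.symm) (e s) = γ0 s := fun s => congrArg γ0 (e.symm_apply_apply s)
  have hG : Gen2 T ∅ (γ0 ∘ e.symm) := Gen2.gen2 (fun l hl l2 m => by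
      have m' := hT l (m.resolve_right (Finset.notMem_empty l)) hl l2
      exact ⟨e (Sum.inl (Sum.inr (Sum.inl ⟨l, m'⟩))), P l, φ l, hP l m', by
        rw [v]; exact tm l m'⟩)
    ⟨e (Sum.inl (Sum.inl 1)), by rw [v]; exact hc⟩ ⟨e (Sum.inl (Sum.inl 0)), by rw [v]; exact hx⟩
  have i1 : (Sum.elim ![e (Sum.inl (Sum.inl 0)), e (Sum.inl (Sum.inl 1))]
      (Sum.elim (fun l => e (Sum.inl (Sum.inr (Sum.inl l))))
        fun l => e (Sum.inl (Sum.inr (Sum.inr l)))) : Fin 2 ⊕ C ⊕ C → _) = e ∘ Sum.inl := by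
    funext s
    rcases s with s | s | s
    · fin_cases s <;> rfl
    · rfl
    · rfl
  refine ⟨_, γ0 ∘ e.symm, e (Sum.inl (Sum.inl 0)), e (Sum.inl (Sum.inl 1)),
    fun l => e (Sum.inl (Sum.inr (Sum.inl l))), fun l => e (Sum.inl (Sum.inr (Sum.inr l))),
    fun t => e (Sum.inr t), v _, v _, fun _ => v _, fun _ => v _, fun _ => v _, ?_, ?_, hG,
    app h2 hG⟩
  · rw [i1]
    have : Sum.elim (e ∘ Sum.inl) (fun t => e (Sum.inr t)) = e := by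
      funext s
      rcases s with s | s <;> rfl
    rw [this]
    exact e.injective
  · rw [i1]
    exact e.injective.comp Sum.inl_injective

end Vale.Agent.P022S.Gens0
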