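import Vale.Agent.P022G.Nice4

/-! # P022S, block NICE, part 0: eigenvalues, triangular forms, the cyclotomic tower -/

set_option linter.all false

noncomputable section

namespace Vale.Agent.P022S.Nice

open NumberField IsLocalRing Vale.Agent.P022 Vale.Agent.P022.C Vale.Agent.P022.H853
open Vale.Agent.P022.H790.CT Vale.Agent.P022G.Nice
open Vale.Agent.P022D.Sel (Ginf M2)

section mat
variable {K : Type} [Field K]

theorem tri [IsAlgClosed K] (M : M2 K) :
    ∃ P : GL (Fin 2) K, (((P⁻¹ : GL (Fin 2) K) : M2 K) * M * P) 1 0 = 0 := by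
  by_cases h : M 1 0 = 0
  · exact ⟨1, by simpa using h⟩
  obtain ⟨a, ha⟩ := IsAlgClosed.exists_root
    (Polynomial.C 1 * Polynomial.X ^ 2 + Polynomial.C (-(M 0 0 + M 1 1)) * Polynomial.X +
      Polynomial.C (M 0 0 * M 1 1 - M 0 1 * M 1 0))
    (by rw [Polynomial.degree_quadratic one_ne_zero]; decide)
  simp only [Polynomial.IsRoot.def, Polynomial.eval_add, Polynomial.eval_mul, Polynomial.eval_C,
    Polynomial.eval_pow, Polynomial.eval_X] at ha
  obtain ⟨P, hP⟩ := (Matrix.isUnit_iff_isUnit_det (!![a - M 1 1, 1; M 1 0, 0] : M2 K)).2 (by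
    rw [Matrix.det_fin_two_of, mul_zero, one_mul, zero_sub]
    exact (neg_ne_zero.2 h).isUnit)
  refine ⟨P, ?_⟩
  have e : ((P⁻¹ : GL (Fin 2) K) : M2 K) * M * P = !![a, 1; 0, M 0 0 + M 1 1 - a] := by
    rw [mul_assoc, Units.inv_mul_eq_iff_eq_mul, hP]
    ext i j
    fin_cases i <;> fin_cases j <;> simp [Matrix.mul_apply, Fin.sum_univ_two]
    · linear_combination -ha
    · ring
  rw [e]
  rfl

theorem dg [IsAlgClosed K] [CharP K 2] (M : M2 K) (h : M.trace ≠ 0) :
    ∃ P : GL (Fin 2) K, (((P⁻¹ : GL (Fin 2) K) : M2 K) * M * P) 1 0 = 0 ∧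
      (((P⁻¹ : GL (Fin 2) K) : M2 K) * M * P) 0 1 = 0 := by
  obtain ⟨P, hP⟩ := tri M
  rw [← Matrix.trace_units_conj' P] at h
  obtain ⟨T, hT⟩ : ∃ T, T = ((P⁻¹ : GL (Fin 2) K) : M2 K) * M * P := ⟨_, rfl⟩
  rw [← hT] at h hP
  rw [Matrix.trace_fin_two, add_comm, ← CharTwo.sub_eq_add] at h
  obtain ⟨Q, hQ⟩ := (Matrix.isUnit_iff_isUnit_det
    (!![1, T 0 1 / (T 1 1 - T 0 0); 0, 1] : M2 K)).2 (by simp [Matrix.det_fin_two_of])
  have e : (((P * Q)⁻¹ : GL (Fin 2) K) : M2 K) * M * (P * Q : GL (Fin 2) K) =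
      !![T 0 0, 0; 0, T 1 1] := by
    rw [mul_inv_rev, Units.val_mul, Units.val_mul, mul_assoc, mul_assoc, ← mul_assoc M,
      ← mul_assoc _ (M * _), ← mul_assoc _ M, ← hT, Units.inv_mul_eq_iff_eq_mul, hQ]
    ext i j
    fin_cases i <;> fin_cases j <;> simp [Matrix.mul_apply, Fin.sum_univ_two, hP]
    field_simp
    ring
  exact ⟨P * Q, by rw [e]; rfl, by rw [e]; rfl⟩

end mat

/-- Cramer's rule for the basis `1, s, k, s k` -/
theorem cram {A : Type} [CommRing A] (s k Z : M2 A) : ∃ c : Fin 4 → A,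
    (s * k - k * s).det • Z = c 0 • (1 : M2 A) + c 1 • s + c 2 • k + c 3 • (s * k) := by
  let Q : Matrix (Fin 4) (Fin 4) A :=
    !![1, s 0 0, k 0 0, (s * k) 0 0; 0, s 0 1, k 0 1, (s * k) 0 1;
      0, s 1 0, k 1 0, (s * k) 1 0; 1, s 1 1, k 1 1, (s * k) 1 1]
  have d : Q.det = (s * k - k * s).det := by
    simp [Q, Matrix.det_succ_row_zero, Fin.sum_univ_succ, Matrix.det_fin_two, Matrix.mul_apply,
      Fin.succAbove]
    ring
  have h := Matrix.mulVec_cramer Q ![Z 0 0, Z 0 1, Z 1 0, Z 1 1]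
  rw [d] at h
  refine ⟨Q.cramer ![Z 0 0, Z 0 1, Z 1 0, Z 1 1], ?_⟩
  generalize Q.cramer ![Z 0 0, Z 0 1, Z 1 0, Z 1 1] = c at h
  have h0 := congrFun h 0
  have h1 := congrFun h 1
  have h2 := congrFun h 2
  have h3 := congrFun h 3
  simp [Q, Matrix.mulVec, dotProduct, Fin.sum_univ_succ] at h0 h1 h2 h3
  ext i j
  fin_cases i <;> fin_cases j <;> simp
  · linear_combination -h0
  · linear_combination -h1
  · linear_combination -h2
  · linear_combination -h3

theorem h2_act {u : GQ} (hu : u ∈ H2) {n : ℕ} {z : Qb} (hz : z ^ 2 ^ n = 1) : u z = z := by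
  rw [cyc_spec u hz, pow_eq_pow_of_modEq (val_of_one (mem_H2.1 hu n)) hz, pow_one]

theorem h2_com (g h : GQ) : g * h * g⁻¹ * h⁻¹ ∈ H2 := mem_H2.2 fun n => by
  rw [map_mul, map_mul, map_mul, map_inv, map_inv, mul_inv_cancel_comm, mul_inv_cancel]

theorem h2_nor : H2.Normal := ⟨fun u hu g => by
  have := H2.mul_mem (h2_com g u) hu
  rwa [inv_mul_cancel_right] at this⟩

theorem inf_nor : Ginf.Normal := ⟨fun u hu g => by
  have := P022D.Sel.Kum.conj_mem g⁻¹ hu
  rwa [inv_inv] at this⟩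

/-- the relation in the Kummer tower -/
theorem ex_three : ∃ φ : GQ, ∀ u ∈ H2, φ * u * φ⁻¹ * (u ^ 3)⁻¹ ∈ Ginf := by
  obtain ⟨φ, hφ⟩ := H20.exists_isFrob Nat.prime_three
  have a : ∀ (n : ℕ) (z : Qb), z ^ 2 ^ n = 1 → φ z = z ^ 3 := fun n z hz => by
    rw [cyc_spec φ hz, cyc_frob Nat.prime_three (fun hd => absurd
      (Nat.prime_three.dvd_of_dvd_pow hd) (by norm_num)) hφ, ZMod.val_natCast]
    exact pow_eq_pow_of_modEq (Nat.mod_modEq _ _) hz
  refine ⟨φ, fun u hu n x hx => ?_⟩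
  rcases hx with hx | hx
  · exact h2_act (H2.mul_mem (h2_nor.conj_mem u hu φ) (H2.inv_mem (H2.pow_mem hu 3))) hx
  have k : ∀ y : Qb, y ^ 2 ^ n = 2 → (φ * u * φ⁻¹) y = (u ^ 3) y := fun y hy => by
    have y0 : y ≠ 0 := by
      rintro rfl
      rw [zero_pow (by positivity)] at hy
      exact two_ne_zero hy.symm
    have r : ∀ g : GQ, (g y / y) ^ 2 ^ n = 1 := fun g => by
      rw [div_pow, ← map_pow, hy, map_ofNat, div_self two_ne_zero]
    have e1 : u y = u y / y * y := (div_mul_cancel₀ _ y0).symm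
    have e2 : φ⁻¹ y = φ⁻¹ y / y * y := (div_mul_cancel₀ _ y0).symm
    have e3 : φ (φ⁻¹ y) = y := by rw [← AlgEquiv.mul_apply, mul_inv_cancel]; rfl
    rw [pow_act e1 (h2_act hu (r u)), AlgEquiv.mul_apply, AlgEquiv.mul_apply, e2, map_mul,
      h2_act hu (r φ⁻¹), e1, mul_left_comm, ← e2, map_mul, e3, a n _ (r u),
      mul_div_cancel_right₀ _ y0]
  rw [AlgEquiv.mul_apply, k _ (by rw [← map_pow, hx, map_ofNat]), ← AlgEquiv.mul_apply,
    mul_inv_cancel]
  rfl

section eig
variable {A : Type} [CommRing A] [IsDomain A] [IsDiscreteValuationRing A]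

/-- the algebraic closure of the fraction field -/
abbrev Kb (A : Type) [CommRing A] [IsDomain A] : Type := AlgebraicClosure (FractionRing A)

theorem kb_inj : Function.Injective (algebraMap A (Kb A)) := by
  rw [IsScalarTower.algebraMap_eq A (FractionRing A) (Kb A)]
  exact (algebraMap (FractionRing A) (Kb A)).injective.comp (IsFractionRing.injective A _)

theorem kb_char [CharP A 2] : CharP (Kb A) 2 := charP_of_injective_ringHom kb_inj 2

theorem ex_m [CharP A 2] {t : A} (ht : Irreducible t) : ∃ m : Ideal (integralClosure A (Kb A)),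
    (∀ x, (∀ k, x ∈ m ^ k) → x = 0) ∧ ∀ (k : ℕ) (τ : A) (x : Kb A), t ^ k ∣ τ →
      x ^ 2 - algebraMap A _ τ * x + 1 = 0 →
      ∃ b : integralClosure A (Kb A), (b : Kb A) = x ∧ b - 1 ∈ m ^ k := by
  haveI := kb_char (A := A)
  obtain ⟨p, hp⟩ := IsAlgClosed.exists_pow_nat_eq (algebraMap A (Kb A) t) (n := 2) (by norm_num)
  have p0 : p ≠ 0 := by
    rintro rfl
    exact ht.ne_zero (kb_inj (by rw [← hp, map_zero]; norm_num))
  have pi : IsIntegral A p := IsIntegral.of_pow (n := 2) (by norm_num)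
    (hp ▸ isIntegral_algebraMap)
  refine ⟨Ideal.span {⟨p, pi⟩}, fun x hx => ?_, fun k τ x hk hx => ?_⟩
  · by_contra x0
    obtain ⟨a, a0, y, hy⟩ : ∃ a : A, a ≠ 0 ∧ x ∣ algebraMap A _ a := by
      obtain ⟨a, a0, h⟩ := (integralClosure.isIntegral x).isAlgebraic.exists_nonzero_dvd
        (mem_nonZeroDivisors_of_ne_zero x0)
      exact ⟨a, a0, h⟩
    apply a0
    refine sep_max a fun k => ?_
    have h := hx (2 * k)
    rw [Ideal.span_singleton_pow, Ideal.mem_span_singleton] at h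
    obtain ⟨w, hw⟩ := h
    have e : algebraMap A (Kb A) a = algebraMap A (Kb A) (t ^ k) * (w * y : integralClosure A (Kb A)) := by
      have := congrArg Subtype.val hy
      rw [hw] at this
      simp only [MulMemClass.coe_mul, SubmonoidClass.coe_pow, pow_mul, hp] at this
      rw [map_pow, MulMemClass.coe_mul, ← mul_assoc]
      exact this
    have tk : algebraMap A (FractionRing A) (t ^ k) ≠ 0 := fun h =>
      pow_ne_zero k ht.ne_zero (IsFractionRing.injective A _ (h.trans (map_zero _).symm))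
    have i : IsIntegral A (algebraMap A (FractionRing A) a / algebraMap A _ (t ^ k)) := by
      rw [← isIntegral_algebraMap_iff (algebraMap (FractionRing A) (Kb A)).injective, map_div₀,
        ← IsScalarTower.algebraMap_apply, ← IsScalarTower.algebraMap_apply, e,
        mul_div_cancel_left₀ _ (fun h => pow_ne_zero k ht.ne_zero
          (kb_inj (h.trans (map_zero _).symm)))]
      exact (w * y).2
    obtain ⟨c, hc⟩ := IsIntegrallyClosed.isIntegral_iff.1 i
    rw [eq_div_iff tk, ← map_mul] at hc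
    rw [ht.maximalIdeal_eq, Ideal.span_singleton_pow, Ideal.mem_span_singleton,
      ← IsFractionRing.injective A _ hc]
    exact dvd_mul_left _ _
  · obtain ⟨c, rfl⟩ := hk
    have xi : IsIntegral A x := ⟨Polynomial.X ^ 2 - Polynomial.C (t ^ k * c) * Polynomial.X + 1,
      by monicity!, by simpa using hx⟩
    have wi : IsIntegral A ((x - 1) / p ^ k) := IsIntegral.of_pow (n := 2) (by norm_num) (by
      have t2 : (2 : Kb A) = 0 := CharP.cast_eq_zero _ 2
      rw [show ((x - 1) / p ^ k) ^ 2 = algebraMap A _ c * x by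
        rw [div_pow, div_eq_iff (pow_ne_zero _ (pow_ne_zero _ p0)), ← pow_mul, mul_comm k,
          pow_mul, hp]
        rw [map_mul, map_pow] at hx
        linear_combination hx - x * t2]
      exact isIntegral_algebraMap.mul xi)
    refine ⟨⟨x, xi⟩, rfl, ?_⟩
    rw [Ideal.span_singleton_pow, Ideal.mem_span_singleton]
    refine ⟨⟨_, wi⟩, Subtype.ext ?_⟩
    show x - 1 = p ^ k * ((x - 1) / p ^ k)
    rw [mul_div_cancel₀ _ (pow_ne_zero _ p0)]

end eig

end Vale.Agent.P022S.Nice
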