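import Vale.Agent.P022G.Bal
import Vale.Agent.P022G.Kdel
import Vale.Agent.P022G.Curve
import Vale.Agent.P022G.Ramq

/-!
P022S: a residually trivial trace function over a discrete valuation ring of characteristic two
is, after a finite extension, the trace of a residually trivial representation.
-/

set_option linter.all false

noncomputable section

namespace Vale.Agent.P022S.Mdl

open IsLocalRing Matrix
open Vale.Agent.P022.H346 Vale.Agent.P022D.Gma Vale.Agent.P022F.Gm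
open _root_.P022G.Th (del dl th theta del_eq map_dl)

variable {G A : Type} [Group G] [CommRing A]

abbrev M2 (A : Type) : Type := Matrix (Fin 2) (Fin 2) A

/-- a representation with entries in a subring -/
theorem pull {K : Type} [CommRing K] (ι : A →+* K) (hι : Function.Injective ι) (σ : G →* M2 K)
    (h : ∀ g i j, ∃ a, ι a = σ g i j) : ∃ ρ : G →* M2 A, ∀ g, (ρ g).map ι = σ g := by
  choose p hp using h
  have inj : ∀ M N : M2 A, M.map ι = N.map ι → M = N := fun M N e =>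
    Matrix.ext fun i j => hι (congrFun (congrFun e i) j)
  have e : ∀ g, (Matrix.of fun i j => p g i j : M2 A).map ι = σ g := fun g =>
    Matrix.ext fun i j => hp g i j
  exact ⟨⟨⟨fun g => Matrix.of fun i j => p g i j, inj _ _ (by
    rw [e, map_one, Matrix.map_one _ (map_zero _) (map_one _)])⟩,
    fun g k => inj _ _ (by rw [Matrix.map_mul, e, e, e, map_mul])⟩, e⟩

/-- conjugation -/
def cj (σ : G →* M2 A) (P Q : M2 A) (h : P * Q = 1) : G →* M2 A where
  toFun g := Q * σ g * P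
  map_one' := by rw [map_one, mul_one, mul_eq_one_comm.1 h]
  map_mul' g k := by
    calc Q * σ (g * k) * P = Q * σ g * (P * Q) * σ k * P := by rw [h, map_mul]; simp [mul_assoc]
      _ = _ := by simp [mul_assoc]

theorem cj_tr (σ : G →* M2 A) (P Q : M2 A) (h : P * Q = 1) (g : G) :
    (cj σ P Q h g).trace = (σ g).trace := by
  show (Q * σ g * P).trace = _
  rw [Matrix.trace_mul_cycle, h, one_mul]

theorem cj_dt (σ : G →* M2 A) (P Q : M2 A) (h : P * Q = 1) (g : G) :
    (cj σ P Q h g).det = (σ g).det := by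
  show (Q * σ g * P).det = _
  rw [Matrix.det_mul, Matrix.det_mul, mul_right_comm, ← Matrix.det_mul, mul_eq_one_comm.1 h,
    Matrix.det_one, one_mul]

/-- a bounded group stabilises a lattice -/
theorem lat [IsDomain A] [IsPrincipalIdealRing A] {K : Type} [Field K] (ι : A →+* K)
    (hι : Function.Injective ι) (σ : G →* M2 K) {D : A} (hD : D ≠ 0)
    (h : ∀ g i j, ∃ a, ι a = ι D * σ g i j) :
    ∃ ρ : G →* M2 A, ∀ g, ι (ρ g).trace = (σ g).trace ∧ ι (ρ g).det = (σ g).det := by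
  let N : Submodule A (A × A) :=
    { carrier := {v | ∀ g i, ∃ a, ι a = σ g i 0 * ι v.1 + σ g i 1 * ι v.2}
      zero_mem' := fun g i => ⟨0, by simp⟩
      add_mem' := fun {v w} hv hw g i => by
        obtain ⟨a, ha⟩ := hv g i
        obtain ⟨b, hb⟩ := hw g i
        exact ⟨a + b, by simp only [map_add, ha, hb, Prod.fst_add, Prod.snd_add]; ring⟩
      smul_mem' := fun c v hv g i => by
        obtain ⟨a, ha⟩ := hv g i
        exact ⟨c * a, by simp only [map_mul, ha, Prod.smul_fst, Prod.smul_snd, smul_eq_mul]; ring⟩ }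
  have n1 : (D, 0) ∈ N := fun g i => (h g i 0).imp fun a ha => by simp [ha, mul_comm]
  have n2 : (0, D) ∈ N := fun g i => (h g i 1).imp fun a ha => by simp [ha, mul_comm]
  obtain ⟨x, hx⟩ := (IsPrincipalIdealRing.principal (N.map (LinearMap.fst A A A))).principal
  obtain ⟨z, hz⟩ := (IsPrincipalIdealRing.principal (N.comap (LinearMap.inr A A A))).principal
  obtain ⟨⟨x', y⟩, m1, rfl⟩ : x ∈ N.map (LinearMap.fst A A A) :=
    hx ▸ Submodule.mem_span_singleton_self x
  have m2 : ((0 : A), z) ∈ N :=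
    (hz ▸ Submodule.mem_span_singleton_self z : z ∈ N.comap (LinearMap.inr A A A))
  have dec : ∀ v ∈ N, ∃ a b : A, v.1 = a * x' ∧ v.2 = a * y + b * z := fun v hv => by
    obtain ⟨a, ha⟩ := Submodule.mem_span_singleton.1
      (hx ▸ Submodule.mem_map_of_mem hv : v.1 ∈ Submodule.span A {x'})
    have k : v - a • (x', y) ∈ N := N.sub_mem hv (N.smul_mem a m1)
    have k1 : v - a • (x', y) = (0, v.2 - a * y) := Prod.ext (sub_eq_zero.2 ha.symm) rfl
    rw [k1] at k
    have k2 : v.2 - a * y ∈ N.comap (LinearMap.inr A A A) := k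
    rw [hz] at k2
    obtain ⟨b, hb⟩ := Submodule.mem_span_singleton.1 k2
    exact ⟨a, b, ha.symm, by rw [smul_eq_mul] at hb; rw [hb]; ring⟩
  have x0 : ι x' ≠ 0 := fun e => by
    obtain ⟨a, b, h1, -⟩ := dec _ n1
    rw [(map_eq_zero_iff ι hι).1 e, mul_zero] at h1
    exact hD h1
  have z0 : ι z ≠ 0 := fun e => by
    obtain ⟨a, b, h1, h2⟩ := dec _ n2
    have a0 : a = 0 := (mul_eq_zero.1 h1.symm).resolve_right fun k => x0 (by rw [k, map_zero])
    rw [(map_eq_zero_iff ι hι).1 e, a0, mul_zero, zero_mul, add_zero] at h2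
    exact hD h2
  have st : ∀ v ∈ N, ∀ g, ∃ a b : A, σ g 0 0 * ι v.1 + σ g 0 1 * ι v.2 = ι a * ι x' ∧
      σ g 1 0 * ι v.1 + σ g 1 1 * ι v.2 = ι a * ι y + ι b * ι z := fun v hv g => by
    obtain ⟨p, hp⟩ := hv g 0
    obtain ⟨q, hq⟩ := hv g 1
    obtain ⟨a, b, h1, h2⟩ := dec (p, q) fun k i => (hv (k * g) i).imp fun c hc => by
      rw [hc, map_mul, Matrix.mul_apply, Matrix.mul_apply, Fin.sum_univ_two, Fin.sum_univ_two]
      show _ = σ k i 0 * ι p + σ k i 1 * ι q
      rw [hp, hq]; ring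
    refine ⟨a, b, ?_, ?_⟩
    · rw [← hp, ← map_mul]; exact congrArg ι h1
    · rw [← hq, ← map_mul, ← map_mul, ← map_add]; exact congrArg ι h2
  have hPQ : (!![ι x', 0; ι y, ι z] : M2 K) *
      !![(ι x')⁻¹, 0; -(ι y * (ι x')⁻¹ * (ι z)⁻¹), (ι z)⁻¹] = 1 := by
    ext i j
    fin_cases i <;> fin_cases j <;> simp [Matrix.mul_apply, Fin.sum_univ_two] <;> field_simp <;>
      ring
  obtain ⟨ρ, hρ⟩ := pull ι hι (cj σ _ _ hPQ) fun g i j => by
    obtain ⟨a, b, h1, h2⟩ := st _ m1 g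
    obtain ⟨c, d, h3, h4⟩ := st _ m2 g
    simp only [map_zero, mul_zero, zero_add] at h1 h2 h3 h4
    have e : σ g * !![ι x', 0; ι y, ι z] = !![ι x', 0; ι y, ι z] * !![ι a, ι c; ι b, ι d] := by
      ext i j
      fin_cases i <;> fin_cases j <;> simp [Matrix.mul_apply, Fin.sum_univ_two]
      · linear_combination h1
      · linear_combination h3
      · linear_combination h2
      · linear_combination h4
    have e2 : cj σ _ _ hPQ g = !![ι a, ι c; ι b, ι d] := by
      show _ * σ g * _ = _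
      rw [mul_assoc, e, ← mul_assoc, mul_eq_one_comm.1 hPQ, one_mul]
    rw [e2]
    fin_cases i <;> fin_cases j <;> exact ⟨_, rfl⟩
  refine ⟨ρ, fun g => ⟨?_, ?_⟩⟩
  · rw [← cj_tr σ _ _ hPQ, ← hρ, Matrix.trace_fin_two, Matrix.trace_fin_two, map_add]; rfl
  · rw [← cj_dt σ _ _ hPQ, ← hρ]; exact ι.map_det _

theorem nil4 {k : Type} [Field k] (h2 : (2 : k) = 0) {p b c p' b' c' : k} (e1 : p ^ 2 = b * c)
    (e2 : p' ^ 2 = b' * c') (e3 : b * c' + c * b' = 0) : p * p' + b * c' = 0 ∧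
      p * b' + b * p' = 0 ∧ c * p' + p * c' = 0 ∧ c * b' + p * p' = 0 :=
  ⟨pow_eq_zero_iff two_ne_zero |>.1 (by
    linear_combination p' ^ 2 * e1 + b * c * e2 + b * c' * e3 + p * p' * b * c' * h2),
  pow_eq_zero_iff two_ne_zero |>.1 (by
    linear_combination b' ^ 2 * e1 + b ^ 2 * e2 + b * b' * e3 + p * b' * b * p' * h2),
  pow_eq_zero_iff two_ne_zero |>.1 (by
    linear_combination c' ^ 2 * e1 + c ^ 2 * e2 + c * c' * e3 + c * p' * p * c' * h2),
  pow_eq_zero_iff two_ne_zero |>.1 (by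
    linear_combination p' ^ 2 * e1 + b * c * e2 + c * b' * e3 + c * b' * p * p' * h2)⟩

/-- a group of matrices of trace zero and determinant one fixes a vector -/
theorem fix {k : Type} [Field k] (h2 : (2 : k) = 0) (σ : G →* M2 k) (ht : ∀ g, (σ g).trace = 0)
    (hd : ∀ g, (σ g).det = 1) : ∃ v w : k, (v ≠ 0 ∨ w ≠ 0) ∧
      ∀ g, σ g 0 0 * v + σ g 0 1 * w = v ∧ σ g 1 0 * v + σ g 1 1 * w = w := by
  have key : ∀ g h, (σ g - 1) * (σ h - 1) = 0 := fun g h => by
    have a1 := ht g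
    have a2 := ht h
    have a3 := ht (g * h)
    have a4 := hd g
    have a5 := hd h
    rw [map_mul] at a3
    simp only [Matrix.trace_fin_two, Matrix.det_fin_two, Matrix.mul_apply, Fin.sum_univ_two]
      at a1 a2 a3 a4 a5
    have b1 : σ g 1 1 = σ g 0 0 := by linear_combination a1 - σ g 0 0 * h2
    have b2 : σ h 1 1 = σ h 0 0 := by linear_combination a2 - σ h 0 0 * h2
    rw [b1] at a3 a4
    rw [b2] at a3 a5
    obtain ⟨c1, c2, c3, c4⟩ := nil4 h2 (p := σ g 0 0 - 1) (b := σ g 0 1) (c := σ g 1 0)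
      (p' := σ h 0 0 - 1) (b' := σ h 0 1) (c' := σ h 1 0)
      (by linear_combination a4 + (1 - σ g 0 0) * h2)
      (by linear_combination a5 + (1 - σ h 0 0) * h2)
      (by linear_combination a3 - σ g 0 0 * σ h 0 0 * h2)
    ext i j
    fin_cases i <;> fin_cases j <;>
      simp [Matrix.mul_apply, Fin.sum_univ_two, Matrix.one_apply, b1, b2]
    · exact c1
    · exact c2
    · exact c3
    · exact c4
  by_cases h0 : ∀ g, σ g = 1
  · exact ⟨1, 0, Or.inl one_ne_zero, fun g => by simp [h0 g]⟩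
  · push Not at h0
    obtain ⟨g0, hg⟩ := h0
    obtain ⟨i, j, hij⟩ : ∃ i j, (σ g0 - 1) i j ≠ 0 := by
      by_contra c
      push Not at c
      exact hg (sub_eq_zero.1 (Matrix.ext c))
    refine ⟨(σ g0 - 1) 0 j, (σ g0 - 1) 1 j, by fin_cases i <;> simp_all, fun g => ?_⟩
    have e0 := congrFun (congrFun (key g g0) 0) j
    have e1 := congrFun (congrFun (key g g0) 1) j
    rw [Matrix.mul_apply, Fin.sum_univ_two] at e0 e1
    simp only [Matrix.sub_apply (σ g), Matrix.one_apply_eq, Matrix.zero_apply,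
      Matrix.one_apply_ne (show (0 : Fin 2) ≠ 1 by decide),
      Matrix.one_apply_ne (show (1 : Fin 2) ≠ 0 by decide)] at e0 e1
    exact ⟨by linear_combination e0, by linear_combination e1⟩

theorem map_tr {B : Type} [CommRing B] (u : A →+* B) (M : M2 A) :
    (M.map u).trace = u M.trace := by
  rw [Matrix.trace_fin_two, Matrix.trace_fin_two, map_add]; rfl

/-- the unipotent form -/
theorem uni [IsLocalRing A] (h2 : (2 : A) ∈ maximalIdeal A) (σ : G →* M2 A)
    (ht : ∀ g, (σ g).trace ∈ maximalIdeal A) (hd : ∀ g, (σ g).det - 1 ∈ maximalIdeal A) :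
    ∃ ρ : G →* M2 A, ∀ g, (ρ g).trace = (σ g).trace ∧ (ρ g).det = (σ g).det ∧
      ρ g 0 0 - 1 ∈ maximalIdeal A ∧ ρ g 1 0 ∈ maximalIdeal A ∧ ρ g 1 1 - 1 ∈ maximalIdeal A := by
  obtain ⟨v, w, hvw, h⟩ := fix (k := ResidueField A)
    (by rw [← map_ofNat (residue A) 2]; exact (residue_eq_zero_iff _).2 h2)
    ((residue A).mapMatrix.toMonoidHom.comp σ)
    (fun g => (map_tr (residue A) (σ g)).trans ((residue_eq_zero_iff _).2 (ht g)))
    (fun g => ((residue A).map_det (σ g)).symm.trans (by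
      rw [← sub_eq_zero, ← map_one (residue A), ← map_sub]
      exact (residue_eq_zero_iff _).2 (hd g)))
  obtain ⟨v, rfl⟩ := residue_surjective v
  obtain ⟨w, rfl⟩ := residue_surjective w
  have h' : ∀ g, σ g 0 0 * v + σ g 0 1 * w - v ∈ maximalIdeal A ∧
      σ g 1 0 * v + σ g 1 1 * w - w ∈ maximalIdeal A := fun g => by
    rw [← residue_eq_zero_iff, ← residue_eq_zero_iff]
    simp only [map_sub, map_add, map_mul, sub_eq_zero]
    exact h g
  obtain ⟨x, y, hxy⟩ : ∃ x y : A, v * y - x * w = 1 := by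
    rcases hvw with e | e
    · obtain ⟨u, hu⟩ := (notMem_maximalIdeal.1 fun k =>
        e ((residue_eq_zero_iff _).2 k)).exists_right_inv
      exact ⟨0, u, by rw [hu]; ring⟩
    · obtain ⟨u, hu⟩ := (notMem_maximalIdeal.1 fun k =>
        e ((residue_eq_zero_iff _).2 k)).exists_right_inv
      exact ⟨-u, 0, by rw [← hu]; ring⟩
  have hPQ : (!![v, x; w, y] : M2 A) * !![y, -x; -w, v] = 1 := by
    ext i j
    fin_cases i <;> fin_cases j <;> simp [Matrix.mul_apply, Fin.sum_univ_two] <;>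
      first | linear_combination hxy | ring
  refine ⟨cj σ _ _ hPQ, fun g => ?_⟩
  obtain ⟨h1, h2'⟩ := h' g
  have e0 : cj σ _ _ hPQ g 0 0 - 1 = y * (σ g 0 0 * v + σ g 0 1 * w - v) -
      x * (σ g 1 0 * v + σ g 1 1 * w - w) := by
    show (!![y, -x; -w, v] * σ g * !![v, x; w, y]) 0 0 - 1 = _
    simp [Matrix.mul_apply, Fin.sum_univ_two, Matrix.vecMul, dotProduct]
    linear_combination hxy
  have e1 : cj σ _ _ hPQ g 1 0 = v * (σ g 1 0 * v + σ g 1 1 * w - w) -
      w * (σ g 0 0 * v + σ g 0 1 * w - v) := by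
    show (!![y, -x; -w, v] * σ g * !![v, x; w, y]) 1 0 = _
    simp [Matrix.mul_apply, Fin.sum_univ_two, Matrix.vecMul, dotProduct]
    ring
  have m0 : cj σ _ _ hPQ g 0 0 - 1 ∈ maximalIdeal A :=
    e0 ▸ sub_mem (Ideal.mul_mem_left _ _ h1) (Ideal.mul_mem_left _ _ h2')
  refine ⟨cj_tr _ _ _ _ _, cj_dt _ _ _ _ _, m0,
    e1 ▸ sub_mem (Ideal.mul_mem_left _ _ h2') (Ideal.mul_mem_left _ _ h1), ?_⟩
  have k := ht g
  rw [← cj_tr σ _ _ hPQ, Matrix.trace_fin_two] at k
  have := sub_mem (sub_mem k m0) h2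
  rwa [show ∀ a b : A, a + b - (a - 1) - 2 = b - 1 from fun a b => by ring] at this

/-- balancing -/
theorem bal [IsDomain A] {ϖ : A} (h0 : ϖ ≠ 0) (σ : G →* M2 A)
    (h : ∀ g, ϖ ∣ σ g 0 0 - 1 ∧ ϖ ∣ σ g 1 0 ∧ ϖ ∣ σ g 1 1 - 1) {B : Type} [CommRing B]
    (f : A →+* B) (s : B) (hs : s ^ 2 = f ϖ) : ∃ ρ : G →* M2 B, ∀ g,
      (ρ g).trace = f (σ g).trace ∧ (ρ g).det = f (σ g).det ∧
        ∀ i j, s ∣ ρ g i j - (1 : M2 B) i j := by
  choose c hc using fun g => (h g).2.1
  have c1 : c 1 = 0 := mul_left_cancel₀ h0 (by rw [← hc, map_one, mul_zero]; rfl)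
  have cm : ∀ g k, c (g * k) = c g * σ k 0 0 + σ g 1 1 * c k := fun g k =>
    mul_left_cancel₀ h0 (by
      rw [← hc, map_mul, Matrix.mul_apply, Fin.sum_univ_two, hc, hc]; ring)
  have hf : ∀ g, f (σ g 1 0) = s ^ 2 * f (c g) := fun g => by rw [hc, map_mul, hs]
  have hd : ∀ a, ϖ ∣ a → s ∣ f a := by
    rintro _ ⟨b, rfl⟩
    exact ⟨s * f b, by rw [map_mul, ← hs]; ring⟩
  refine ⟨⟨⟨fun g => !![f (σ g 0 0), s * f (σ g 0 1); s * f (c g), f (σ g 1 1)], ?_⟩,
    fun g k => ?_⟩, fun g => ⟨?_, ?_, fun i j => ?_⟩⟩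
  · rw [c1, map_one]
    ext i j
    fin_cases i <;> fin_cases j <;> simp
  · show !![_, _; _, _] = !![_, _; _, _] * !![_, _; _, _]
    rw [cm, map_mul, Matrix.mul_fin_two]
    simp only [Matrix.mul_apply, Fin.sum_univ_two, map_add, map_mul, hf]
    ext i j
    fin_cases i <;> fin_cases j <;> simp <;> ring
  · show Matrix.trace !![_, _; _, _] = _
    rw [Matrix.trace_fin_two_of, Matrix.trace_fin_two, map_add]
  · show Matrix.det !![_, _; _, _] = _
    rw [Matrix.det_fin_two_of, Matrix.det_fin_two, map_sub, map_mul, map_mul, hf]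
    ring
  · have a0 := hd _ (h g).1
    have a1 := hd _ (h g).2.2
    rw [map_sub, map_one] at a0 a1
    fin_cases i <;> fin_cases j
    · exact a0
    · exact ⟨f (σ g 0 1), sub_zero _⟩
    · exact ⟨f (c g), sub_zero _⟩
    · exact a1

/-- the traces control the entries -/
theorem cont [IsDomain A] (ρ : G →* M2 A) {a b : G} (h0 : del (ρ a) (ρ b) ≠ 0) (q : A) (g g' : G)
    (h : ∀ z, del (ρ a) (ρ b) * q ∣ (ρ (g * z)).trace - (ρ (g' * z)).trace) (i j : Fin 2) :
    q ∣ ρ g i j - ρ g' i j := by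
  have e : ∀ z, ((ρ g - ρ g') * ρ z).trace = (ρ (g * z)).trace - (ρ (g' * z)).trace := fun z => by
    rw [sub_mul, Matrix.trace_sub, map_mul, map_mul]
  obtain ⟨k0, h0'⟩ := h 1
  obtain ⟨k1, h1⟩ := h a
  obtain ⟨k2, h2⟩ := h b
  obtain ⟨k3, h3⟩ := h (a * b)
  rw [← e] at h0' h1 h2 h3
  rw [map_one, mul_one] at h0'
  rw [map_mul] at h3
  have k := theta (ρ a) (ρ b) (ρ g - ρ g')
  rw [h0', h1, h2, h3] at k
  have k' : th (ρ a) (ρ b) (del (ρ a) (ρ b) * q * k0) (del (ρ a) (ρ b) * q * k1)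
      (del (ρ a) (ρ b) * q * k2) (del (ρ a) (ρ b) * q * k3) =
      (del (ρ a) (ρ b) * q) • th (ρ a) (ρ b) k0 k1 k2 k3 := by
    simp only [th, smul_add, smul_smul]
    congr 1
    · congr 1
      · congr 1
        · congr 1; simp only [_root_.P022G.Th.h0]; ring
        · congr 1; simp only [_root_.P022G.Th.h1]; ring
      · congr 1; simp only [_root_.P022G.Th.h2]; ring
    · congr 1; simp only [_root_.P022G.Th.h3]; ring
  have k2 := congrFun (congrFun (k.trans k') i) j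
  rw [Matrix.smul_apply, Matrix.smul_apply, smul_eq_mul, smul_eq_mul, mul_assoc] at k2
  exact ⟨_, mul_left_cancel₀ h0 k2⟩

/-- adjoining an eigenvalue -/
theorem root [IsDomain A] [IsDiscreteValuationRing A] [CharP A 2]
    [IsAdicComplete (maximalIdeal A) A] [Finite (ResidueField A)] (τ : A) :
    ∃ (V : Type) (_ : CommRing V) (_ : IsDomain V) (_ : IsDiscreteValuationRing V) (_ : CharP V 2)
      (_ : IsAdicComplete (maximalIdeal V) V) (_ : Finite (ResidueField V)) (f : A →+* V) (α : V),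
      Function.Injective f ∧ (∀ a ∈ maximalIdeal A, f a ∈ maximalIdeal V) ∧
        α ^ 2 - f τ * α + 1 = 0 := by
  let K := AlgebraicClosure (FractionRing A)
  have hK : Function.Injective (algebraMap A K) :=
    (algebraMap (FractionRing A) K).injective.comp (IsFractionRing.injective A (FractionRing A))
  let p : Polynomial A := Polynomial.X ^ 2 - Polynomial.C τ * Polynomial.X + 1
  have hp : p.Monic := by unfold p; monicity!
  have hd : p.degree = 2 := by unfold p; compute_degree!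
  obtain ⟨x, hx⟩ := IsAlgClosed.exists_aeval_eq_zero_of_injective K hK p (by rw [hd]; decide)
  have hi : IsIntegral A x := ⟨p, hp, hx⟩
  let B := Algebra.adjoin A {x}
  have : Module.Finite A B := ⟨(Submodule.fg_top _).2 hi.fg_adjoin_singleton⟩
  obtain ⟨V, _, _, _, _, e, hf, hinj, h⟩ := P022G.Curve.nrm (R := A) (B := B)
    fun a b hab => hK (congrArg Subtype.val hab)
  obtain ⟨j, hj, hr⟩ := h e le_rfl
  have hc : CharP V 2 := charP_of_injective_algebraMap hinj 2
  refine ⟨V, inferInstance, inferInstance, inferInstance, hc,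
    P022G.Curve.cpl_max (R := A), P022G.Curve.fin_res (R := A), j.comp (algebraMap A B),
    j ⟨x, Algebra.self_mem_adjoin_singleton A x⟩,
    hj.comp fun a b hab => hK (congrArg Subtype.val hab), fun a ha => ?_, ?_⟩
  · rw [RingHom.comp_apply, hr]
    exact P022G.Curve.map_le (R := A) (Ideal.mem_map_of_mem _
      (Ideal.pow_mem_of_mem _ ha _ (by positivity)))
  · rw [RingHom.comp_apply, ← map_pow, ← map_mul, ← map_sub, ← map_one j, ← map_add, ← map_zero j]
    refine congrArg j (Subtype.ext ?_)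
    simpa [p] using hx

theorem th_mem (R : Subring A) (X Y : M2 A) {D t0 t1 t2 t3 : A} (hD : D ∈ R)
    (hX : ∀ i j, X i j ∈ R) (hY : ∀ i j, D * Y i j ∈ R) (a : X.trace ∈ R) (b : Y.trace ∈ R)
    (c : (X * Y).trace ∈ R) (p : X.det ∈ R) (q : Y.det ∈ R) (e0 : t0 ∈ R) (e1 : t1 ∈ R)
    (e2 : t2 ∈ R) (e3 : t3 ∈ R) (i j : Fin 2) : D * th X Y t0 t1 t2 t3 i j ∈ R := by
  have two : (2 : A) ∈ R := ofNat_mem R 2
  have one : (1 : M2 A) i j ∈ R := by
    rw [Matrix.one_apply]
    split_ifs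
    · exact R.one_mem
    · exact R.zero_mem
  have e : ∀ u0 u1 u2 u3 : A, D * (u0 • (1 : M2 A) + u1 • X + u2 • Y + u3 • (X * Y)) i j =
      u0 * (D * (1 : M2 A) i j) + u1 * (D * X i j) + u2 * (D * Y i j) +
        u3 * (X i 0 * (D * Y 0 j) + X i 1 * (D * Y 1 j)) := fun u0 u1 u2 u3 => by
    simp only [Matrix.add_apply, Matrix.smul_apply, smul_eq_mul, Matrix.mul_apply,
      Fin.sum_univ_two]
    ring
  rw [th, e]
  simp only [_root_.P022G.Th.h0, _root_.P022G.Th.h1, _root_.P022G.Th.h2, _root_.P022G.Th.h3]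
  refine add_mem (add_mem (add_mem (mul_mem ?_ (mul_mem hD one)) (mul_mem ?_ (mul_mem hD (hX _ _))))
    (mul_mem ?_ (hY _ _))) (mul_mem ?_ (add_mem (mul_mem (hX _ _) (hY _ _))
      (mul_mem (hX _ _) (hY _ _)))) <;>
    repeat' first | assumption | apply add_mem | apply sub_mem | apply neg_mem | apply mul_mem |
      apply pow_mem

/-- the two cases -/
theorem core [IsDomain A] [IsDiscreteValuationRing A] (h2 : (2 : A) ∈ maximalIdeal A) {t : G → A}
    {d : G →* Aˣ} (T : TF t d) (hd : ∀ g, (d g : A) = 1) (ht : ∀ g, t g ∈ maximalIdeal A)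
    (g0 : G) {α β : A} (hs : α + β = t g0) (hp : α * β = 1) (hne : α ≠ β) :
    ∃ ρ : G →* M2 A, (∀ g, (ρ g).trace = t g ∧ (ρ g).det = 1) ∧
      ((∃ a b, del (ρ a) (ρ b) ≠ 0) ∨ (∀ g i j, ρ g i j - (1 : M2 A) i j ∈ maximalIdeal A) ∧
        ∀ q g g', (∀ z, (α - β) * q ∣ t (g * z) - t (g' * z)) → ∀ i j, q ∣ ρ g i j - ρ g' i j) := by
  let K := FractionRing A
  let ι := algebraMap A K
  have hι : Function.Injective ι := IsFractionRing.injective A K
  have hu : ι α - ι β ≠ 0 := sub_ne_zero.2 fun e => hne (hι e)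
  have d1 : ∀ g, ((((Units.map ι.toMonoidHom).comp (d.comp (MonoidHom.id G))) g : Kˣ) : K) = 1 :=
    fun g => (congrArg ι (hd g)).trans (map_one ι)
  obtain ⟨σ, -, -, s0, s1, s2, s3, -, -⟩ := P022G.Bal.bal
    (_root_.P022G.Kd.tf_comp T (MonoidHom.id G) ι) g0 (α := ι α) (β := ι β)
    (by rw [← map_add, hs]; rfl) (by rw [← map_mul, hp, map_one, d1]) (mul_inv_cancel₀ hu) 1
    (fun _ _ => one_dvd _) (RingHom.id K) 1 (by simp)
  replace s1 : ∀ g, (σ g).trace = ι (t g) := s1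
  replace s2 : ∀ g, (σ g).det = 1 := fun g => (s2 g).trans (d1 g)
  replace s3 : ∀ g, σ g 0 0 = (ι (t (g * g0)) - ι β * ι (t g)) * (ι α - ι β)⁻¹ := fun g => (s3 g).1
  have mm : ∀ g h i j, σ (g * h) i j = σ g i 0 * σ h 0 j + σ g i 1 * σ h 1 j := fun g h i j => by
    rw [map_mul, Matrix.mul_apply, Fin.sum_univ_two]
  by_cases hx : ∀ g h, σ g 0 1 * σ h 1 0 = 0
  · let σ' : G →* M2 K := ⟨⟨fun g => !![σ g 0 0, 0; 0, σ g 1 1], by
      rw [map_one]; exact (Matrix.one_fin_two).symm⟩, fun g h => by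
        show !![_, _; _, _] = !![_, _; _, _] * !![_, _; _, _]
        rw [Matrix.mul_fin_two, mm, mm, hx, mul_comm (σ g 1 0), hx]
        simp⟩
    have k1 : ∀ g, σ g 0 0 + σ g 1 1 = ι (t g) := fun g => (Matrix.trace_fin_two _).symm.trans (s1 g)
    have k2 : ∀ g, σ g 0 0 * σ g 1 1 = 1 := fun g => by
      rw [← s2 g, Matrix.det_fin_two, hx, sub_zero]
    have int : ∀ g (x : K), x ^ 2 - ι (t g) * x + 1 = 0 → ∃ a, ι a = x := fun g x e => by
      refine IsIntegrallyClosed.algebraMap_eq_of_integral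
        ⟨Polynomial.X ^ 2 - Polynomial.C (t g) * Polynomial.X + 1, by monicity!, ?_⟩
      simpa using e
    obtain ⟨ρ, hρ⟩ := pull ι hι σ' fun g i j => by
      fin_cases i <;> fin_cases j
      · exact int g _ (by
          show σ g 0 0 ^ 2 - _ * σ g 0 0 + 1 = 0
          rw [← k1, ← k2 g]; ring)
      · exact ⟨0, map_zero ι⟩
      · exact ⟨0, map_zero ι⟩
      · exact int g _ (by
          show σ g 1 1 ^ 2 - _ * σ g 1 1 + 1 = 0
          rw [← k1, ← k2 g]; ring)
    have r00 : ∀ g, ι (ρ g 0 0) = σ g 0 0 := fun g => congrFun (congrFun (hρ g) 0) 0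
    have r11 : ∀ g, ι (ρ g 1 1) = σ g 1 1 := fun g => congrFun (congrFun (hρ g) 1) 1
    have r01 : ∀ g, ρ g 0 1 = 0 := fun g =>
      hι ((congrFun (congrFun (hρ g) 0) 1).trans (map_zero ι).symm)
    have r10 : ∀ g, ρ g 1 0 = 0 := fun g =>
      hι ((congrFun (congrFun (hρ g) 1) 0).trans (map_zero ι).symm)
    have l1 : ∀ g, ρ g 0 0 + ρ g 1 1 = t g := fun g => hι (by rw [map_add, r00, r11, k1])
    have l2 : ∀ g, ρ g 0 0 * ρ g 1 1 = 1 := fun g => hι (by rw [map_mul, r00, r11, k2, map_one])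
    have l3 : ∀ g, (α - β) * ρ g 0 0 = t (g * g0) - β * t g := fun g => hι (by
      rw [map_mul, map_sub, map_sub, map_mul, r00, s3, mul_comm, mul_assoc, inv_mul_cancel₀ hu,
        mul_one])
    have mx : ∀ g x, x ^ 2 - t g * x + 1 = 0 → x - 1 ∈ maximalIdeal A := fun g x e =>
      (maximalIdeal.isMaximal A).isPrime.mem_of_pow_mem 2 (by
        rw [show (x - 1) ^ 2 = t g * x - 2 * x by linear_combination e]
        exact sub_mem (Ideal.mul_mem_right _ _ (ht g)) (Ideal.mul_mem_right _ _ h2))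
    refine ⟨ρ, fun g => ⟨(Matrix.trace_fin_two _).trans (l1 g), by
      rw [Matrix.det_fin_two, r01, l2]; simp⟩, Or.inr ⟨fun g i j => ?_, fun q g g' h i j => ?_⟩⟩
    · fin_cases i <;> fin_cases j
      · exact mx g _ (by
          show ρ g 0 0 ^ 2 - _ * ρ g 0 0 + 1 = 0
          rw [← l1, ← l2 g]; ring)
      · simp [r01]
      · simp [r10]
      · exact mx g _ (by
          show ρ g 1 1 ^ 2 - _ * ρ g 1 1 + 1 = 0
          rw [← l1, ← l2 g]; ring)
    · obtain ⟨a, ha⟩ := h g0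
      obtain ⟨b, hb⟩ := h 1
      rw [mul_one, mul_one] at hb
      have e : ρ g 0 0 - ρ g' 0 0 = q * (a - β * b) := mul_left_cancel₀ (sub_ne_zero.2 hne) (by
        rw [mul_sub, l3, l3]; linear_combination ha - β * hb)
      fin_cases i <;> fin_cases j
      · exact ⟨_, e⟩
      · simp [r01]
      · simp [r10]
      · exact ⟨(α - β) * b - (a - β * b), by
          show ρ g 1 1 - ρ g' 1 1 = _
          linear_combination l1 g - l1 g' + hb - e⟩
  · push Not at hx
    obtain ⟨g, h, hx⟩ := hx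
    obtain ⟨g1, h1⟩ : ∃ g1, σ g1 0 1 * σ g1 1 0 ≠ 0 := by
      by_contra c
      push Not at c
      have a1 : σ g 1 0 = 0 := (mul_eq_zero.1 (c g)).resolve_left (left_ne_zero_of_mul hx)
      have a2 : σ h 0 1 = 0 := (mul_eq_zero.1 (c h)).resolve_right (right_ne_zero_of_mul hx)
      have a3 := c (g * h)
      have a4 := s2 g
      have a5 := s2 h
      rw [Matrix.det_fin_two] at a4 a5
      rw [mm, mm, a1, a2] at a3
      rw [a1] at a4
      rw [a2] at a5
      refine hx ?_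
      linear_combination σ g 0 0 * σ h 0 0 * a3 - σ g 0 1 * σ h 1 0 * σ h 0 0 * σ h 1 1 * a4 -
        σ g 0 1 * σ h 1 0 * a5
    have dk : del (σ g0) (σ g1) ≠ 0 := by
      have : del (σ g0) (σ g1) = (ι α - ι β) ^ 2 * (σ g1 0 1 * σ g1 1 0) := by
        rw [s0]
        simp [del, Matrix.det_fin_two, Matrix.mul_apply, Fin.sum_univ_two, Matrix.vecMul,
          dotProduct]
        ring
      rw [this]
      exact mul_ne_zero (pow_ne_zero _ hu) h1
    have dA : ι (dl (t g0) (t g1) (t (g0 * g1)) 1 1) = del (σ g0) (σ g1) := by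
      rw [map_dl, del_eq, ← map_mul σ, s1, s1, s1, s2, s2, map_one]
    obtain ⟨D, hD⟩ := IsLocalization.exist_integer_multiples_of_finite (nonZeroDivisors A)
      fun p : Fin 2 × Fin 2 => σ g1 p.1 p.2
    obtain ⟨ρ, hρ⟩ := lat ι hι σ (D := D * dl (t g0) (t g1) (t (g0 * g1)) 1 1)
      (mul_ne_zero (nonZeroDivisors.coe_ne_zero D) fun e => dk (by rw [← dA, e, map_zero]))
      fun g i j => by
        have e := congrFun (congrFun (theta (σ g0) (σ g1) (σ g)) i) j
        rw [Matrix.smul_apply, smul_eq_mul] at e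
        rw [map_mul, dA, mul_assoc, e, ← map_mul σ, ← map_mul σ, ← map_mul σ, ← map_mul σ]
        have tr : ∀ g, (σ g).trace ∈ ι.range := fun g => ⟨_, (s1 g).symm⟩
        have dt : ∀ g, (σ g).det ∈ ι.range := fun g => s2 g ▸ ι.range.one_mem
        refine th_mem ι.range _ _ ⟨_, rfl⟩ (fun i j => ?_) (fun i j => ?_) (tr _) (tr _)
          (map_mul σ _ _ ▸ tr _) (dt _) (dt _) (tr _) (tr _) (tr _) (tr _) i j
        · rw [s0]
          fin_cases i <;> fin_cases j
          · exact ⟨α, rfl⟩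
          · exact ι.range.zero_mem
          · exact ι.range.zero_mem
          · exact ⟨β, rfl⟩
        · have := hD (i, j)
          rwa [Algebra.smul_def] at this
    have l1 : ∀ g, (ρ g).trace = t g := fun g => hι ((hρ g).1.trans (s1 g))
    have l2 : ∀ g, (ρ g).det = 1 := fun g => hι (by rw [(hρ g).2, s2, map_one])
    refine ⟨ρ, fun g => ⟨l1 g, l2 g⟩, Or.inl ⟨g0, g1, fun e => dk ?_⟩⟩
    rw [← dA, ← map_zero ι, ← e, del_eq, ← map_mul ρ, l1, l1, l1, l2, l2]

/-- **the model** -/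
theorem model [IsDomain A] [IsDiscreteValuationRing A] [CharP A 2]
    [IsAdicComplete (maximalIdeal A) A] [Finite (ResidueField A)] {t : G → A} {d : G →* Aˣ}
    (T : TF t d) (hd : ∀ g, (d g : A) = 1) (ht : ∀ g, t g ∈ maximalIdeal A) :
    ∃ (V : Type) (_ : CommRing V) (_ : IsDomain V) (_ : IsDiscreteValuationRing V) (_ : CharP V 2)
      (_ : IsAdicComplete (maximalIdeal V) V) (_ : Finite (ResidueField V)) (f : A →+* V) (s : V)
      (ρ : G →* M2 V) (c : V), Function.Injective f ∧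
      (∀ a ∈ maximalIdeal A, f a ∈ maximalIdeal V) ∧ Irreducible s ∧
      (∀ g, (ρ g).trace = f (t g) ∧ (ρ g).det = 1) ∧ (∀ g i j, s ∣ ρ g i j - (1 : M2 V) i j) ∧
      c ≠ 0 ∧ ∀ q g g', (∀ z, c * q ∣ f (t (g * z)) - f (t (g' * z))) →
        ∀ i j, q ∣ ρ g i j - ρ g' i j := by
  by_cases h0 : ∀ g, t g = 0
  · obtain ⟨s, hs⟩ := IsDiscreteValuationRing.exists_irreducible A
    refine ⟨A, _, inferInstance, inferInstance, inferInstance, inferInstance, inferInstance,
      RingHom.id A, s, 1, 1, Function.injective_id, fun _ h => h, hs, fun g => ⟨?_, by simp⟩,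
      fun g i j => by simp, one_ne_zero, fun q g g' _ i j => by simp⟩
    rw [h0, map_zero, MonoidHom.one_apply, Matrix.trace_one]
    exact CharP.cast_eq_zero A 2
  push Not at h0
  obtain ⟨g0, h0⟩ := h0
  obtain ⟨V, _, _, _, _, _, _, f, α, hf, hm, hα⟩ := root (t g0)
  have two : (2 : V) = 0 := CharTwo.two_eq_zero
  obtain ⟨ϖ, hϖ⟩ := IsDiscreteValuationRing.exists_irreducible V
  have mem : ∀ x : V, x ∈ maximalIdeal V ↔ ϖ ∣ x := fun x => by
    rw [hϖ.maximalIdeal_eq, Ideal.mem_span_singleton]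
  have hne : α ≠ f (t g0) - α := fun e => h0 (hf (by
    rw [map_zero]; linear_combination -e + α * two))
  obtain ⟨ρ, h1, h2⟩ := core (two ▸ zero_mem _) (_root_.P022G.Kd.tf_comp T (MonoidHom.id G) f)
    (fun g => (congrArg f (hd g)).trans (map_one f)) (fun g => hm _ (ht g)) g0 (α := α)
    (β := f (t g0) - α) (add_sub_cancel _ _) (by linear_combination -hα) hne
  replace h1 : ∀ g, (ρ g).trace = f (t g) ∧ (ρ g).det = 1 := h1
  rcases h2 with ⟨a, b, hab⟩ | ⟨h2, h3⟩
  · obtain ⟨ρ1, k1⟩ := uni (two ▸ zero_mem _) ρ (fun g => (h1 g).1 ▸ hm _ (ht g))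
      fun g => by rw [(h1 g).2, sub_self]; exact zero_mem _
    obtain ⟨W, _, _, _, _, s, hs, s2, inj, -, -, -, cp, fi, -⟩ := P022G.Ramq.ramq hϖ
    obtain ⟨ρ2, k2⟩ := bal hϖ.ne_zero ρ1 (fun g => ⟨(mem _).1 (k1 g).2.2.1,
      (mem _).1 (k1 g).2.2.2.1, (mem _).1 (k1 g).2.2.2.2⟩) (algebraMap V W) s s2
    have l1 : ∀ g, (ρ2 g).trace = algebraMap V W (ρ g).trace := fun g => by
      rw [(k2 g).1, (k1 g).1]
    have l2 : ∀ g, (ρ2 g).det = algebraMap V W (ρ g).det := fun g => by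
      rw [(k2 g).2.1, (k1 g).2.1]
    have dk : del (ρ2 a) (ρ2 b) ≠ 0 := fun e => hab (inj (by
      rw [map_zero, ← e, del_eq, del_eq, map_dl, ← map_mul ρ, ← map_mul ρ2, l1, l1, l1, l2, l2]))
    refine ⟨W, _, inferInstance, inferInstance, charP_of_injective_algebraMap inj 2,
      cp inferInstance, fi inferInstance, (algebraMap V W).comp f, s, ρ2, _, inj.comp hf,
      fun x hx => ?_, hs, fun g => ⟨by rw [l1, (h1 g).1]; rfl, by rw [l2, (h1 g).2, map_one]⟩,
      fun g => (k2 g).2.2, dk, fun q g g' h => cont ρ2 dk q g g' fun z => by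
        rw [l1, l1, (h1 _).1, (h1 _).1]; exact h z⟩
    obtain ⟨y, hy⟩ := (mem _).1 (hm x hx)
    rw [hs.maximalIdeal_eq, Ideal.mem_span_singleton, RingHom.comp_apply, hy, map_mul, ← s2]
    exact ⟨s * algebraMap V W y, by ring⟩
  · exact ⟨V, _, inferInstance, inferInstance, inferInstance, inferInstance, inferInstance, f, ϖ,
      ρ, _, hf, hm, hϖ, h1, fun g i j => (mem _).1 (h2 g i j), sub_ne_zero.2 hne, h3⟩

end Vale.Agent.P022S.Mdl
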