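import Vale.Agent.P022S.Lift
import Vale.Agent.P022S.Mdl

/-!
# P022S: the model theorem in the form used by `lift`
-/

set_option linter.all false

namespace Vale.Agent.P022S.Lift

theorem model0 : MODEL := by
  intro G _ V _ _ _ _ _ _ t T ht
  obtain ⟨V', _, _, _, _, _, _, f, s, ρ, c, k1, k2, k3, k4, k5, k6, k7⟩ :=
    Mdl.model T (fun _ => rfl) ht
  refine ⟨V', inferInstance, inferInstance, inferInstance, inferInstance, inferInstance,
    inferInstance, f, s, ρ.toHomUnits, k1, k2, k3, fun g => (k4 g).1, fun g => (k4 g).2, k5,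
    fun g g' h => Units.ext (Matrix.ext fun a b => sub_eq_zero.1 (zero_dvd_iff.1
      (k7 0 g g' (fun z => ?_) a b)))⟩
  have := h 1 z
  rw [one_mul, one_mul] at this
  rw [this, sub_self]
  exact dvd_zero _

end Vale.Agent.P022S.Lift
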