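import Vale.Agent.P022G.Kd.B

/-!
# P022S: trace functions without a regular element
-/

set_option linter.all false

noncomputable section

namespace Vale.Agent.P022S.Kd

open Vale.Agent.P022.H346 Vale.Agent.P022G.Word _root_.P022G.Th
open Vale.Agent.P022G (inv_mem_fin)

variable {G : Type} [Group G] {B : Type} [CommRing B] {t : G → B} {d : G →* Bˣ}

/-- the kernel of a trace function with its determinant -/
def N (t : G → B) (d : G →* Bˣ) : Subgroup G where
  carrier := {u | (∀ g, t (g * u) = t g) ∧ d u = 1}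
  one_mem' := ⟨fun g => by rw [mul_one], map_one d⟩
  mul_mem' := fun {u v} hu hv =>
    ⟨fun g => by rw [← mul_assoc, hv.1, hu.1], by rw [map_mul, hu.2, hv.2, mul_one]⟩
  inv_mem' := fun {u} hu =>
    ⟨fun g => by rw [← hu.1 (g * u⁻¹), inv_mul_cancel_right], by rw [map_inv, hu.2, inv_one]⟩

theorem mem_N {u : G} : u ∈ N t d ↔ (∀ g, t (g * u) = t g) ∧ d u = 1 := Iff.rfl

theorem N_normal (T : TF t d) : (N t d).Normal := ⟨fun u hu h => ⟨fun g => by
  rw [← mul_assoc, T.comm, ← mul_assoc, ← mul_assoc, hu.1, mul_assoc, T.comm,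
    mul_inv_cancel_right], by rw [map_mul, map_mul, hu.2, mul_one, map_inv, mul_inv_cancel]⟩⟩

/-- the kernel of the residue map of a finite local ring is nilpotent -/
theorem nil {F : Type} [Field F] [Finite B] (π : B →+* F) (loc : ∀ u, π u ≠ 0 → IsUnit u) :
    ∃ n : ℕ, RingHom.ker π ^ n = ⊥ := by
  haveI : Finite (B ⧸ (⊥ : Ideal B)) := Finite.of_surjective _ Ideal.Quotient.mk_surjective
  obtain ⟨n, hn⟩ := Vale.Agent.P022F.Nak.nilp (⊥ : Ideal B) (RingHom.ker π) fun r hr => by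
    obtain ⟨a, b, hab, h⟩ := Finite.exists_ne_map_eq_of_infinite fun n : ℕ => r ^ n
    wlog hlt : a < b generalizing a b
    · exact this b a hab.symm h.symm (by omega)
    obtain ⟨c, rfl⟩ := Nat.exists_eq_add_of_lt hlt
    have hu : IsUnit (1 - r ^ (c + 1)) := loc _ (by
      rw [map_sub, map_one, map_pow, RingHom.mem_ker.1 hr]; simp)
    refine ⟨a, (Submodule.mem_bot B).2 (hu.mul_left_eq_zero.1 ?_)⟩
    rw [mul_sub, mul_one, ← pow_add, ← add_assoc]
    exact sub_eq_zero.2 h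
  exact ⟨n, le_bot_iff.1 hn⟩

/-- a residually unipotent element has a `2`-power order modulo the kernel -/
theorem pow_mem (T : TF t d) (m : Ideal B) {n : ℕ} (hn : m ^ n = ⊥) (h2 : (2 : B) ∈ m) {g : G}
    (ht : t g ∈ m) (hd : 1 - (d g : B) ∈ m) : g ^ 2 ^ n ∈ N t d := by
  have sq : ∀ h, t (h * g * g) = t g * t (h * g) - d g * t h := fun h => by
    have := T.mul (h * g) g
    rw [mul_inv_cancel_right] at this
    linear_combination -this
  have mm : ∀ {k : ℕ} {x y : B}, x ∈ m ^ k → y ∈ m → x * y ∈ m ^ (k + 1) := fun hx hy => by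
    rw [pow_succ]; exact Ideal.mul_mem_mul hx hy
  have key : ∀ k : ℕ, ∃ p q : B, p ∈ m ^ k ∧ p ∈ m ∧ q ∈ m ^ k ∧
      ∀ h, t (h * g ^ 2 ^ k) = (1 + p - q) * t h + q * t (h * g) := by
    intro k
    induction k with
    | zero => exact ⟨0, 1, by simp, m.zero_mem, by simp, fun h => by simp⟩
    | succ k ih =>
      obtain ⟨p, q, h1, h1', h3, h4⟩ := ih
      have e1 : p * 2 + p * p + q * (q * (1 - d g + t g) - 2 * q) ∈ m ^ (k + 1) :=
        add_mem (add_mem (mm h1 h2) (mm h1 h1')) (mm h3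
          (sub_mem (m.mul_mem_left _ (add_mem hd ht)) (m.mul_mem_right _ h2)))
      refine ⟨_, q * (2 * (1 + p - q) + q * t g), e1,
        Ideal.pow_le_self (Nat.succ_ne_zero k) e1,
        mm h3 (add_mem (m.mul_mem_right _ h2) (m.mul_mem_left _ ht)), fun h => ?_⟩
      have c : h * g ^ 2 ^ k * g = h * g * g ^ 2 ^ k := by
        rw [mul_assoc, mul_assoc, ← pow_succ, ← pow_succ']
      rw [pow_succ, pow_mul, pow_two, ← mul_assoc, h4, c, h4, h4, sq]
      ring
  have kd : ∀ k : ℕ, (d g : B) ^ 2 ^ k - 1 ∈ m ^ k ∧ (d g : B) ^ 2 ^ k - 1 ∈ m := by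
    intro k
    induction k with
    | zero => exact ⟨by simp, by simpa using m.neg_mem hd⟩
    | succ k ih =>
      have e : (d g : B) ^ 2 ^ (k + 1) - 1 = ((d g : B) ^ 2 ^ k - 1) * ((d g : B) ^ 2 ^ k - 1 + 2) := by
        rw [pow_succ, pow_mul]; ring
      rw [e]
      exact ⟨mm ih.1 (m.add_mem ih.2 h2), m.mul_mem_right _ ih.2⟩
  obtain ⟨p, q, h1, -, h3, h4⟩ := key n
  have h5 := (kd n).1
  rw [hn, Submodule.mem_bot] at h1 h3 h5
  exact ⟨fun h => by rw [h4, h1, h3]; ring, Units.ext (by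
    rw [map_pow, Units.val_pow_eq_pow_val]; exact sub_eq_zero.1 h5)⟩

/-- the traces of the increasing words and the determinants generate -/
theorem gen [Finite B] (T : TF t d) {n : ℕ} (γ : Fin n → G) (K : Subgroup G)
    (hs : ∀ g, ∃ w ∈ Subgroup.closure (Set.range γ), g⁻¹ * w ∈ K) (hK : K ≤ N t d) (R : Subring B)
    (h1 : ∀ s, t (wd γ s) ∈ R) (h2 : ∀ i, (d (γ i) : B) ∈ R) (g : G) :
    t g ∈ R ∧ (d g : B) ∈ R := by
  obtain ⟨w, hw, e⟩ := hs g
  have e1 := (hK e).1 g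
  have e2 := (hK e).2
  rw [mul_inv_cancel_left] at e1
  rw [map_mul, map_inv, inv_mul_eq_one] at e2
  rw [← e1, e2]
  refine ⟨mem γ R T h1 h2 (fun i => inv_mem_fin R _ (h2 i)) hw, ?_⟩
  refine Subgroup.closure_induction (p := fun w _ => (d w : B) ∈ R) ?_ ?_ ?_ ?_ hw
  · rintro _ ⟨i, rfl⟩; exact h2 i
  · simp
  · intro x y _ _ hx hy
    rw [map_mul, Units.val_mul]; exact R.mul_mem hx hy
  · intro x _ hx
    rw [map_inv]; exact inv_mem_fin R _ hx

/-- pull back along an injective map -/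
theorem tf_pull {A : Type} [CommRing A] (e : A →+* B) (he : Function.Injective e) (T : TF t d)
    (h : ∀ g, t g ∈ e.range ∧ (d g : B) ∈ e.range) :
    ∃ (t' : G → A) (d' : G →* Aˣ), TF t' d' ∧ (∀ g, e (t' g) = t g) ∧ ∀ g, e (d' g) = d g := by
  choose t' ht using fun g => (h g).1
  choose d' hd using fun g => (h g).2
  let D : G →* A := ⟨⟨d', he (by rw [hd]; simp)⟩, fun g k => he (by simp [hd])⟩
  have hD : ∀ g, e (D.toHomUnits g) = d g := fun g => hd g
  exact ⟨t', D.toHomUnits, ⟨he (by rw [ht, T.one, map_ofNat]), fun g k => he (by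
    rw [ht, ht, T.comm]), fun g k => he (by
      rw [map_mul, map_add, map_mul, hD, ht, ht, ht, ht, T.mul])⟩, ht, hD⟩

/-- the representation of the free group given by invertible matrices -/
def fr {P ι : Type} [CommRing P] (Z : ι → M2 P) (hu : ∀ i, IsUnit (Z i)) : FreeGroup ι →* M2 P :=
  (Units.coeHom _).comp (FreeGroup.lift fun i => (hu i).unit)

theorem fr_of {P ι : Type} [CommRing P] (Z : ι → M2 P) (hu : ∀ i, IsUnit (Z i)) (i : ι) :
    fr Z hu (FreeGroup.of i) = Z i := by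
  rw [fr, MonoidHom.comp_apply, FreeGroup.lift_apply_of]; rfl

theorem fr_wd {P : Type} [CommRing P] {n : ℕ} (Z : Fin n → M2 P) (hu : ∀ i, IsUnit (Z i))
    (s : Finset (Fin n)) : fr Z hu (wd FreeGroup.of s) = ((s.sort (· ≤ ·)).map Z).prod := by
  rw [wd, map_list_prod, List.map_map]
  exact congrArg (fun f => ((s.sort (· ≤ ·)).map f).prod) (funext (fr_of Z hu))

/-- **the core**: after dividing by an ideal `J` which is killed by the determinants of the
commutators, the matrices `Z` define a representation with the given traces and determinants -/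
theorem core [Finite B] (T : TF t d) {n : ℕ} (γ : Fin n → G) (K : Subgroup G) [K.Normal]
    (hs : ∀ g, ∃ w ∈ Subgroup.closure (Set.range γ), g⁻¹ * w ∈ K) (hK : K ≤ N t d)
    {P0 P2 : Type} [CommRing P0] [CommRing P2] (ψ : P0 →+* B) (p : Finset (Fin n) → P0)
    (r : Fin n → P0) (hp : ∀ s, ψ (p s) = t (wd γ s)) (hr : ∀ i, ψ (r i) = d (γ i))
    (φ : P0 →+* P2) (Z : Fin n → M2 P2) (hu : ∀ i, IsUnit (Z i)) (tt : Ideal P2)
    (hp' : ∀ s, φ (p s) - ((s.sort (· ≤ ·)).map Z).prod.trace ∈ tt)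
    (hr' : ∀ i, φ (r i) - (Z i).det ∈ tt) :
    (∀ g, t g ∈ ψ.range ∧ (d g : B) ∈ ψ.range) ∧
    ∃ J : Ideal P2,
      (∀ a b, ∀ s ∈ J, del (fr Z hu a) (fr Z hu b) * s ∈ (RingHom.ker ψ).map φ ⊔ tt) ∧
      ∀ (A : Type) [CommRing A] (μ : P2 →+* A),
        (∀ s ∈ (RingHom.ker ψ).map φ ⊔ tt ⊔ J, μ s = 0) →
        ∃ ρ : G →* M2 A, (∀ w, ρ (FreeGroup.lift γ w) = (fr Z hu w).map μ) ∧
          (∀ i, ρ (γ i) = (Z i).map μ) ∧ (∀ k ∈ K, ρ k = 1) ∧
          (∀ g, ∃ w, ρ g = (fr Z hu w).map μ) ∧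
          (∀ g u, ψ u = t g → (ρ g).trace = μ (φ u)) ∧
          ∀ g u, ψ u = d g → (ρ g).det = μ (φ u) := by
  refine ⟨gen T γ K hs hK ψ.range (fun s => ⟨_, hp s⟩) fun i => ⟨_, hr i⟩, ?_⟩
  set e := RingHom.kerLift ψ with he
  have ei : Function.Injective e := RingHom.kerLift_injective ψ
  have em : ∀ u, e (Ideal.Quotient.mk _ u) = ψ u := fun u => rfl
  obtain ⟨t', d', T', et, ed⟩ := tf_pull e ei T (gen T γ K hs hK e.range
    (fun s => ⟨_, (em _).trans (hp s)⟩) fun i => ⟨_, (em _).trans (hr i)⟩)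
  set q : FreeGroup (Fin n) →* G := FreeGroup.lift γ with hq
  have q1 : ∀ i, q (FreeGroup.of i) = γ i := fun i => FreeGroup.lift_apply_of
  have q2 : ∀ s, q (wd FreeGroup.of s) = wd γ s := fun s => by
    rw [_root_.P022G.Kd.map_wd]
    exact congrArg (fun f => wd f s) (funext q1)
  have hs' : ∀ g, ∃ w, g⁻¹ * q w ∈ K := fun g => by
    obtain ⟨w, hw, h⟩ := hs g
    rw [← FreeGroup.range_lift_eq_closure] at hw
    obtain ⟨v, rfl⟩ := hw
    exact ⟨v, h⟩
  obtain ⟨k1, k2⟩ := _root_.P022G.Kl.klev_wd φ (RingHom.ker ψ) tt FreeGroup.of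
    (FreeGroup.closure_range_of _) q T' K hs'
    (fun k hk g => ei (by rw [et, et, (hK hk).1]))
    (fun k hk => Units.ext (ei (by rw [ed, (hK hk).2]; simp))) (fr Z hu) p r
    (fun s => ei (by rw [em, et, q2, hp])) (fun i => ei (by rw [em, ed, q1, hr]))
    (fun s => by rw [fr_wd]; exact hp' s) (fun i => by rw [fr_of]; exact hr' i)
  refine ⟨_, k1, fun A _ μ hI => ?_⟩
  obtain ⟨ρ, r1, r2, r3, r4⟩ := k2 A μ hI
  refine ⟨ρ, r1, fun i => by rw [← q1, r1, fr_of], r2, fun g => ?_,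
    fun g u h => r3 g u (ei (by rw [em, et, h])), fun g u h => r4 g u (ei (by rw [em, ed, h]))⟩
  obtain ⟨w, hw⟩ := hs' g
  have e1 : q w = g * (g⁻¹ * q w) := by group
  exact ⟨w, by rw [← r1, e1, map_mul, r2 _ hw, mul_one]⟩

end Vale.Agent.P022S.Kd
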