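import Vale.Agent.P022S.Kd
import Vale.Agent.P022S.Loc.Defs

/-!
# P022S: from a trace function to framed objects
-/

set_option linter.all false

noncomputable section

namespace Vale.Agent.P022S.Kd

open NumberField IsLocalRing
open Vale.Agent.P022 Vale.Agent.P022.H346 Vale.Agent.P022G.Word _root_.P022G.Th
open Vale.Agent.P022S.R Vale.Agent.P022S.Loc
open Vale.Agent.P027M.S (Inert mx)
open Vale.Agent.P022E.Loc (Pl)

variable {O F : Type} [CommRing O] [Field F] {S : Dat O F} {B : Type} [CommRing B]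

theorem fr_res {P ι : Type} [CommRing P] (Z : ι → M2 P) (hu : ∀ i, IsUnit (Z i)) (res : P →+* F)
    (hZ : ∀ i, (Z i).map res = 1) (w : FreeGroup ι) : (fr Z hu w).map res = 1 := by
  have e : (res.mapMatrix.toMonoidHom.comp (fr Z hu) : FreeGroup ι →* M2 F).toHomUnits = 1 :=
    FreeGroup.ext_hom _ _ fun i => Units.ext (by
      change (fr Z hu (FreeGroup.of i)).map res = 1
      rw [fr_of, hZ])
  exact congrArg Units.val (DFunLike.congr_fun e w)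

theorem unit_of_res {P : Type} [CommRing P] (res : P →+* F) (hres : ∀ u, res u ≠ 0 → IsUnit u)
    {Z : M2 P} (hZ : Z.map res = 1) : IsUnit Z :=
  (Matrix.isUnit_iff_isUnit_det _).2 (hres _ (by
    rw [RingHom.map_det, RingHom.mapMatrix_apply, hZ, Matrix.det_one]; exact one_ne_zero))

/-- **objects from a trace function** -/
theorem objs {L : Pl O} (h1 : ∀ g, mx S.rb g = 1) (hW : L.W = ∅) [Finite B] {t : GQ → B}
    {d : GQ →* Bˣ} (T : TF t d) (j : O →+* B) {Q : Finset ℕ} (K : Subgroup GQ) [K.Normal]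
    (ho : IsOpen (K : Set GQ)) (hK : K ≤ N t d)
    (unr : ∀ l : ℕ, l.Prime → l ∉ S.T → l ∉ Q → ∀ P : Ideal (𝓞 Qb), P.IsPrime →
      (l : 𝓞 Qb) ∈ P → ∀ s, Inert P s → s ∈ K)
    (d2 : ∀ g ∈ P022D.W.dec (L.P 2), (d g : B) = j (L.r g).det) (dc : (d L.c : B) = -1)
    (dl : ∀ l ∈ L.W ∪ L.C, (d (L.τ l) : B) = j (L.r (L.τ l)).det) {n : ℕ} (γ : Fin n → GQ)
    (hs : ∀ g, ∃ w ∈ Subgroup.closure (Set.range γ), g⁻¹ * w ∈ K)
    {P0 P2 : Type} [CommRing P0] [CommRing P2] (ψ : P0 →+* B) (cO : O →+* P0)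
    (hc : ∀ o, ψ (cO o) = j o) (p : Finset (Fin n) → P0) (r : Fin n → P0)
    (hp : ∀ s, ψ (p s) = t (wd γ s)) (hr : ∀ i, ψ (r i) = d (γ i)) (φ : P0 →+* P2)
    (res : P2 →+* F) (hφ : ∀ o, res (φ (cO o)) = S.red o) (Z : Fin n → M2 P2)
    (hu : ∀ i, IsUnit (Z i)) (hZ : ∀ i, (Z i).map res = 1) (tt : Ideal P2)
    (hp' : ∀ s, φ (p s) - ((s.sort (· ≤ ·)).map Z).prod.trace ∈ tt)
    (hr' : ∀ i, φ (r i) - (Z i).det ∈ tt) :
    (∀ g, t g ∈ ψ.range ∧ (d g : B) ∈ ψ.range) ∧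
    ∃ J : Ideal P2,
      (∀ a b, ∀ s ∈ J, del (fr Z hu a) (fr Z hu b) * s ∈ (RingHom.ker ψ).map φ ⊔ tt) ∧
      ∀ (A : Type) [CommRing A] [Finite A] (μ : P2 →+* A) (π' : A →+* F),
        (∀ u, π' u ≠ 0 → IsUnit u) → (∀ s, π' (μ s) = res s) →
        (∀ s ∈ (RingHom.ker ψ).map φ ⊔ tt ⊔ J, μ s = 0) → ∀ α β : ℕ → M2 A,
        (∀ l, α l * β l = 1) → (∀ l, (α l).map π' = 1) → (∀ l ∉ S.T, α l = 1) → α S.l0 = 1 →
        ∃ X : Obj S A, X.ι = μ.comp (φ.comp cO) ∧ X.π = π' ∧ X.α = α ∧ X.β = β ∧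
          Ty (ClG L S) Q A X ∧ (∀ w, X.ρ (FreeGroup.lift γ w) = (fr Z hu w).map μ) ∧
          (∀ i, X.ρ (γ i) = (Z i).map μ) ∧ (∀ k ∈ K, X.ρ k = 1) ∧
          (∀ g u, ψ u = t g → (X.ρ g).trace = μ (φ u)) ∧
          ∀ g u, ψ u = d g → (X.ρ g).det = μ (φ u) := by
  obtain ⟨c0, J, c1, c2⟩ := core T γ K hs hK ψ p r hp hr φ Z hu tt hp' hr'
  refine ⟨c0, J, c1, fun A _ _ μ π' hπ hμ hI α β i1 i2 i3 i4 => ?_⟩
  obtain ⟨ρ, r0, r1, r2, r3, r4, r5⟩ := c2 A μ hI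
  let X : Obj S A :=
    { ι := μ.comp (φ.comp cO), π := π', ρ := ρ, α := α, β := β, fin := inferInstance, loc := hπ
      alg := fun c => by rw [RingHom.comp_apply, RingHom.comp_apply, hμ, hφ]
      res := fun g => by
        obtain ⟨w, hw⟩ := r3 g
        rw [hw, h1, ← fr_res Z hu res hZ w]
        ext i k
        exact hμ _
      opn := by
        have : {g | ρ g = 1} = (ρ.toHomUnits.ker : Set GQ) :=
          Set.ext fun g => ⟨fun h => Units.ext h, fun h => congrArg Units.val h⟩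
        rw [this]
        exact Subgroup.isOpen_mono (H₁ := K) (fun k hk => Units.ext (r2 k hk)) ho
      inv := i1, one := i2, off := i3, fr := i4 }
  refine ⟨X, rfl, rfl, rfl, rfl, ⟨⟨fun g hg => ?_, ?_, fun l hl => ?_, fun l hl => ?_⟩,
    fun l a b c P e f s hs => r2 s (unr l a b c P e f s hs)⟩, r0, r1, r2, r4, r5⟩
  · exact r5 g _ ((hc _).trans (d2 g hg).symm)
  · have := r5 L.c (-1) (by rw [dc, map_neg, map_one])
    simpa using this
  · exact r5 _ _ ((hc _).trans (dl l hl).symm)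
  · rw [hW] at hl
    exact absurd hl (Finset.notMem_empty l)

end Vale.Agent.P022S.Kd
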