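import Vale.Agent.P022G.Pres.Cnt
import Vale.Agent.P022G.Pres.Main
import Vale.Agent.P022G.Obs.Main
import Vale.Agent.P022G.Obs.Sc2
import Vale.Agent.P022G.Ax.Gal

/-!
# P022S: the presentation of Koch type for the trivial residual representation
-/

set_option linter.all false

noncomputable section

namespace Vale.Agent.P022S.Koch

open NumberField IsLocalRing
open Vale.Agent.P022
open Vale.Agent.P027M.S (Inert mx)
open Vale.Agent.P022D.Sel (M2 IsDec)
open Vale.Agent.P022E.GW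
open Vale.Agent.P022G.Pres Vale.Agent.P022G.Obs

theorem mx_one {F : Type} [Field F] {ρ : GQ →* GL (Fin 2) F} (h1 : ∀ g, ρ g = 1) (g : GQ) :
    mx ρ g = 1 := by
  rw [mx, h1, Units.val_one]

/-- no global obstruction beyond the local ones away from two -/
theorem coh1 {F : Type} [Field F] [Finite F] [CharP F 2] {ρ : GQ →* GL (Fin 2) F}
    (h1 : ∀ g, ρ g = 1) {T : Finset ℕ} (h0 : 0 ∈ T) (h2 : 2 ∈ T)
    (hT : ∀ l ∈ T, l = 0 ∨ l.Prime) {D : ℕ → Subgroup GQ}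
    (hD : ∀ l ∈ T, IsDec l (D l : Set GQ)) : COH ρ T (D '' (T.erase 2 : Finset ℕ)) 0 := by
  have k : ρ.ker = ⊤ := eq_top_iff.2 fun g _ => h1 g
  have hd : Dz ρ ⊤ := ⟨fun g _ => by simp [mx_one h1], fun g h => absurd trivial h, by
    simp [h1]⟩
  have fT := Vale.Agent.P022G.Ax.fx_top h2 hT
  refine ⟨0, fun z hz hc _ => ?_⟩
  have sc : ∀ i j, (∀ l ∈ T, l ≠ 2 → Cb (⊤ ⊓ D l) (en i j z)) → Cb ⊤ (en i j z) := fun i j s => by
    have zz : ∀ V, Z2 V (en i j z) := fun V => z2K hz (k ▸ le_top) i j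
    refine sc2 F _ (zz ⊤) fun l l2 D' h => ?_
    by_cases hl : l ∈ T
    · obtain ⟨g, hg⟩ := Lb.dec_cj (hD l hl) h
      refine cj F ⊤ (D l) D' g _ trivial (fun x => ?_) (zz ⊤) (s l hl l2)
      have := hg (g * x * g⁻¹)
      rw [show g⁻¹ * (g * x * g⁻¹) * g = x by group] at this
      exact this.symm
    · exact off hz h0 isOpen_univ hl h (zz _)
  have m : ∀ l ∈ T, l ≠ 2 → Cb0 ρ (D l) z := fun l hl l2 =>
    hc _ ⟨l, Finset.mem_coe.2 (Finset.mem_erase.2 ⟨l2, hl⟩), rfl⟩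
  refine glob hd hz (k ▸ fT) fT ?_ ?_ (sc 0 0 fun l hl l2 => sc_of hd (m l hl l2))
  · rw [k]
    exact sc 0 1 fun l hl l2 => k ▸ (bo_of (m l hl l2)).1
  · rw [k]
    exact sc 1 0 fun l hl l2 => k ▸ (bo_of (m l hl l2)).2

/-- a basis of the matrices of trace zero -/
def E3 (F : Type) [Field F] : Fin 3 → M2 F := ![1, !![0, 1; 0, 0], !![0, 0; 1, 0]]

/-- **KOCH**: the local equations away from two generate all the relations -/
theorem koch {O F ι : Type} [CommRing O] [IsLocalRing O] [IsNoetherianRing O]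
    [IsAdicComplete (maximalIdeal O) O] [Field F] [Finite F] [CharP F 2] [Fintype ι]
    {S : Dt O F ι} (hS : S.Ok) (h1 : ∀ g, S.rb g = 1) (h0 : 0 ∈ S.T) (h2 : 2 ∈ S.T)
    (hT : ∀ l ∈ S.T, l = 0 ∨ l.Prime) {D : ℕ → Subgroup GQ}
    (hD : ∀ l ∈ S.T, IsDec l (D l : Set GQ)) {Lst : Ideal (PP O ι)}
    (hL : Lst ≤ maximalIdeal (PP O ι)) (hl : ∀ l ∈ S.T, l ≠ 2 → LOCL S Lst (D l))
    (hd : ∀ i, Cn.dt S i ∈ Lst) (χ : ι → GQ → F)
    (hχ : ∀ i, χ i ∈ Zt (fun _ => (1 : F)) S.T ⊤) (d1 : ∀ i, χ i (S.gam i) = 1)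
    (d0 : ∀ i k, i ≠ k → χ i (S.gam k) = 0) : Jac S ≤ Lst := by
  classical
  obtain ⟨j, j1, j2⟩ := Cn.saved hS hd (K := Empty) Empty.elim (fun a => a.elim) fun a => a.elim
  let c : ι × Fin 3 → GQ → M2 F := fun p g => χ p.1 g • E3 F p.2
  have c1 : ∀ p, c p ∈ H1 S.rb S.T ⊤ ∧ ∀ g, (c p g).trace = 0 := fun p => by
    obtain ⟨a1, -, ⟨U, a2, a3⟩, a4⟩ := hχ p.1
    refine ⟨⟨fun g _ h _ => ?_, fun g h => absurd trivial h, ⟨U, a2, fun g h => ?_⟩,
      fun l hl P hP g h => ?_⟩, fun g => ?_⟩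
    · simp only [c, mx_one h1, one_mul, mul_one, a1 g trivial h trivial, add_smul]
    · simp only [c, a3 g h, zero_smul]
    · simp only [c, a4 l hl P hP g h, zero_smul]
    · have : (E3 F p.2).trace = 0 := by
        obtain ⟨i, a⟩ := p
        fin_cases a <;> simp [E3, Matrix.trace_fin_two, CharTwo.two_eq_zero]
      simp only [c, Matrix.trace_smul, this, smul_zero]
  have c2 : LinearIndependent F c := by
    rw [Fintype.linearIndependent_iff]
    intro y hy ⟨i, a⟩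
    have h5 := congrFun hy (S.gam i)
    rw [Finset.sum_apply, Fintype.sum_prod_type, Finset.sum_eq_single i
      (fun b _ hb => by simp [c, d0 b i hb]) (fun h => absurd (Finset.mem_univ _) h)] at h5
    simp only [c, Pi.smul_apply, d1, one_smul, Fin.sum_univ_three, Pi.zero_apply] at h5
    have e0 := congrFun (congrFun h5 0) 0
    have e1 := congrFun (congrFun h5 0) 1
    have e2 := congrFun (congrFun h5 1) 0
    simp [E3] at e0 e1 e2
    fin_cases a
    exacts [e0, e1, e2]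
  let e : Fin (Fintype.card ι * 3) ≃ ι × Fin 3 :=
    (Fintype.equivFinOfCardEq (by rw [Fintype.card_prod, Fintype.card_fin])).symm
  obtain ⟨n, f, k1, -, k3⟩ := pres O F ι S hS Lst hL _ 0 (coh1 h1 h0 h2 hT hD)
    (by
      rintro _ ⟨l, h, rfl⟩
      exact hl l (Finset.mem_erase.1 h).2 (Finset.mem_erase.1 h).1)
    _ j j1 j2 _ (c ∘ e) (fun a => c1 _) (c2.comp e e.injective) (Jac S) (Ideal.span_eq _)
  obtain rfl : n = 0 := by omega
  rwa [Set.range_eq_empty, Ideal.span_empty, bot_sup_eq] at k3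

end Vale.Agent.P022S.Koch
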