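import Vale.Agent.P022G.Pres.Locl
import Vale.Agent.P022G.Pres.Main
import Vale.Agent.P022G.Pres.Cnt
import Vale.Agent.P022G.Obs.Sc2
import Vale.Agent.P022G.Obs.Main
import Vale.Agent.P022G.Ax.Gal
import Vale.Agent.P022E.GW.ChrC

/-!
# P022S, the relations of the universal ring of the trivial representation are local
-/

set_option linter.all false

noncomputable section

namespace Vale.Agent.P022S.K91

open NumberField IsLocalRing
open Vale.Agent.P022 Vale.Agent.P022.H443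
open Vale.Agent.P027M.S (Inert mx)
open Vale.Agent.P022D.Sel (M2 IsDec)
open Vale.Agent.P022D.W (dec dec_gen inP_le_dec)
open Vale.Agent.P022E.GW (Ov Op Ur H1 Zt Cb Z2)
open Vale.Agent.P022E.GW.Kc (kq kq_add kq_opn)
open Vale.Agent.P022E.Loc (Tm)
open Vale.Agent.P022G.Pres Vale.Agent.P022G.Pres.H96
open Vale.Agent.P022G.Obs (Dz FX en)

section coh

variable {F : Type} [Field F] [CharP F 2] [Finite F] {ρ : GQ →* GL (Fin 2) F} {T : Finset ℕ}

theorem dz (h1 : ∀ g, ρ g = 1) : Dz ρ ⊤ :=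
  ⟨fun g _ => by simp [mx, h1], fun g hg => absurd trivial hg, by simp [h1]⟩

/-- no global condition beyond the local ones away from `2` -/
theorem coh0 (h1 : ∀ g, ρ g = 1) (h0 : 0 ∈ T) (h2 : 2 ∈ T) {D : ℕ → Subgroup GQ}
    (hD : ∀ l ∈ T, IsDec l (D l : Set GQ)) {DD : Set (Subgroup GQ)}
    (hB : ∀ l ∈ T, l ≠ 2 → D l ∈ DD) : COH ρ T DD 0 := by
  have kt : ρ.ker = ⊤ := eq_top_iff.2 fun g _ => h1 g
  have fT : FX ⊤ T := P022G.Ax.fx_top h2 fun l hl => (hD l hl).imp (·.1) (·.1)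
  refine P022G.Obs.coh_of (κ := Empty) (by simp) Empty.elim fun z hz hc _ => ?_
  have z2 : ∀ (V : Subgroup GQ) i j, Z2 V (en i j z) := fun V i j =>
    P022G.Obs.z2K hz (kt ▸ le_top) i j
  have s : ∀ i j, Cb ⊤ (en i j z) := fun i j => P022G.Obs.sc2 F _ (z2 ⊤ i j) fun l l2 D' h => by
    by_cases hl : l ∈ T
    · refine P022G.Obs.Sc2.mv (hD l hl) h (z2 ⊤ i j) ?_
      obtain ⟨e, ⟨-, he⟩, lc⟩ := hc _ (hB l hl l2)
      refine ⟨fun x => e x i j, (lc.comp fun m => m i j).comp_continuous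
        (P022E.GW.Gy.inc_cont inf_le_right), fun x y => ?_⟩
      have := he x x.2.2 y y.2.2
      rw [← P022G.Obs.ac_def, P022G.Obs.ac_ker _ (h1 x)] at this
      exact congrFun (congrFun this i) j
    · exact P022G.Obs.off hz h0 isOpen_univ hl h (z2 _ i j)
  exact P022G.Obs.glob (dz h1) hz (kt ▸ fT) fT (kt ▸ s 0 1) (kt ▸ s 1 0) (s 0 0)

/-- three matrices of trace zero -/
def bs (F : Type) [Field F] : Fin 3 → M2 F := ![1, !![0, 1; 0, 0], !![0, 0; 1, 0]]

theorem z3 (h1 : ∀ g, ρ g = 1) (h0 : 0 ∈ T) (h2 : 2 ∈ T) {D : ℕ → Subgroup GQ}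
    (hD : ∀ l ∈ T, IsDec l (D l : Set GQ)) : ∃ c : Fin (T.card * 3) → GQ → M2 F,
    (∀ a, c a ∈ H1 ρ T ⊤ ∧ ∀ g, (c a g).trace = 0) ∧ LinearIndependent F c := by
  obtain ⟨x, hx⟩ := exists_linearIndependent_of_le_rank
    (chr_one (F := F) P022E.GW.chrC h0 h2 hD)
  have hx' := hx.map' (Submodule.subtype _) (Submodule.ker_subtype _)
  have li : LinearIndependent F
      fun p : Fin T.card × Fin 3 => fun g => (x p.1).1 g • bs F p.2 := by
    rw [Fintype.linearIndependent_iff]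
    intro w hw
    have k : ∀ b : Fin 3, ∑ a, w (a, b) • (x a).1 = 0 := fun b => funext fun g => by
      have e := congrFun hw g
      rw [Finset.sum_apply, Fintype.sum_prod_type] at e
      have e0 := congrFun (congrFun e 0) 0
      have e1 := congrFun (congrFun e 0) 1
      have e2 := congrFun (congrFun e 1) 0
      simp only [Matrix.sum_apply, Fin.sum_univ_three, bs, Pi.smul_apply, Matrix.smul_apply,
        Matrix.add_apply] at e0 e1 e2
      rw [Finset.sum_apply]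
      fin_cases b
      · simpa using e0
      · simpa using e1
      · simpa using e2
    exact fun p => Fintype.linearIndependent_iff.1 hx' (fun a => w (a, p.2)) (k p.2) p.1
  refine ⟨_, fun a => ⟨?_, fun g => ?_⟩, li.comp finProdFinEquiv.symm (Equiv.injective _)⟩
  · have h := (x (finProdFinEquiv.symm a).1).2
    refine ⟨fun g _ k _ => ?_, fun g hg => absurd trivial hg,
      h.2.2.1.imp fun U hU => ⟨hU.1, fun σ hσ => ?_⟩, fun l hl P hP g hg => ?_⟩
    · simp only [Function.comp_apply]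
      rw [h.1 g trivial k trivial, one_mul, add_smul, ← ac_def, ac_triv (h1 g)]
    · simp only [Function.comp_apply]
      rw [hU.2 σ hσ, zero_smul]
    · simp only [Function.comp_apply]
      rw [h.2.2.2 l hl P hP g hg, zero_smul]
  · simp only [Function.comp_apply]
    rw [Matrix.trace_smul]
    have : (bs F (finProdFinEquiv.symm a).2).trace = 0 := by
      generalize (finProdFinEquiv.symm a).2 = b
      fin_cases b
      · exact CharTwo.add_self_eq_zero (1 : F) ▸ Matrix.trace_fin_two _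
      · simp [bs]
      · simp [bs]
    rw [this, smul_zero]

end coh

variable {O F ι : Type} [CommRing O] [Field F] [IsLocalRing O] {S : Dt O F ι}
  {Lst : Ideal (PP O ι)}

/-- **Koch**: with a minimal system of generators the local relations generate -/
theorem koch [IsNoetherianRing O] [IsAdicComplete (maximalIdeal O) O] [Finite F] [CharP F 2]
    [Fintype ι] (hS : S.Ok) (h1 : ∀ g, S.rb g = 1) (h0 : 0 ∈ S.T) (h2 : 2 ∈ S.T)
    (hι : Fintype.card ι ≤ S.T.card) {D : ℕ → Subgroup GQ}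
    (hD : ∀ l ∈ S.T, IsDec l (D l : Set GQ)) (hL : Lst ≤ maximalIdeal (PP O ι))
    (hd : ∀ i, Cn.dt S i ∈ Lst) (hl : ∀ l ∈ S.T, l ≠ 2 → LOCL S Lst (D l)) : Jac S ≤ Lst := by
  obtain ⟨c, c1, c2⟩ := z3 h1 h0 h2 hD
  obtain ⟨j, j1, j2⟩ := Cn.saved hS hd (K := Empty) Empty.elim (fun a => a.elim) fun a => a.elim
  obtain ⟨n, e, k1, -, k3⟩ := pres O F ι S hS Lst hL {E | LOCL S Lst E} 0
    (coh0 h1 h0 h2 hD hl) (fun _ h => h) _ j j1 j2 _ c c1 c2 _ (Ideal.span_eq _)
  obtain rfl : n = 0 := by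
    rw [Fintype.card_empty] at k1
    omega
  rwa [Set.range_eq_empty, Ideal.span_empty, bot_sup_eq] at k3

variable (S) in
/-- `Φ` gives the value at `g` of every admissible representation -/
def Rp (Φ : M2 (PP O ι)) (g : GQ) : Prop := ∀ (A : Type) [CommRing A] (φ : PP O ι →+* A)
  (ρ : GQ →* M2 A), (∃ k : ℕ, maximalIdeal (PP O ι) ^ k ≤ RingHom.ker φ) → Adm S φ ρ →
  ρ g = Φ.map φ

theorem rp_Z (i : ι) : Rp S (S.Z i) (S.gam i) := fun _ _ _ _ _ h => h.gen i

theorem hu1 [CharP F 2] (h1 : ∀ g, S.rb g = 1) (g : GQ) :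
    (mx S.rb g).trace = 0 ∧ (mx S.rb g).det = 1 := by
  rw [mx, h1, Units.val_one, Matrix.det_one, Matrix.trace_fin_two]
  exact ⟨CharTwo.add_self_eq_zero (1 : F), rfl⟩

/-- **a tame prime**: the listed equations make the two generators commute, and the square of
the tame generator is trivial -/
theorem loclT [CharP F 2] (hS : S.Ok) {l : ℕ} {P : Ideal (𝓞 Qb)} (hP : Ov l P) {τ f : GQ}
    (tm : Tm l P τ f) (hu : ∀ g ∈ dec P, (mx S.rb g).trace = 0 ∧ (mx S.rb g).det = 1) {i : ι}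
    {Φ : M2 (PP O ι)} (hi : S.gam i = τ) (hj : Rp S Φ f)
    (di : (S.Z i).det - MvPowerSeries.C (S.δ τ) ∈ Lst)
    (dj : Φ.det - MvPowerSeries.C (S.δ f) ∈ Lst)
    (hq : ∀ (B : Type) [CommRing B] (φ : PP O ι →+* B), Lst ≤ RingHom.ker φ →
      (S.Z i).map φ * (S.Z i).map φ = 1 ∧
        (S.Z i).map φ * Φ.map φ = Φ.map φ * (S.Z i).map φ) :
    LOCL S Lst (dec P) := by
  classical
  intro B A _ _ _ φ q ρ sφ sq ⟨k0, hk0⟩ hL _ hm hρ
  obtain ⟨XX, XY⟩ := hq B φ hL
  set X := (S.Z i).map φ with hX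
  set Y := Φ.map φ with hY
  have F2 : (2 : F) = 0 := CharTwo.two_eq_zero
  obtain ⟨πB, pB, uB⟩ := ex_pi hS sφ fun p hp => hm p (by rw [hp, map_zero])
  obtain ⟨πA, pA, uA⟩ := ex_pi hS (φ := q.comp φ) (sq.comp sφ) hm
  let δB : GQ →* B := (φ.comp MvPowerSeries.C).toMonoidHom.comp S.δ
  have δe : ∀ g, δB g = φ (MvPowerSeries.C (S.δ g)) := fun g => rfl
  let κ : GQ →* Multiplicative (ZMod 2) :=
    { toFun := fun g => Multiplicative.ofAdd (kq (l : Qb) g)
      map_one' := by simp [kq]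
      map_mul' := fun g h => by rw [kq_add (map_natCast g l) (map_natCast h l)]; rfl }
  have κa : ∀ g h, kq (l : Qb) (g * h) = kq (l : Qb) g + kq (l : Qb) h := fun g h =>
    kq_add (map_natCast g l) (map_natCast h l)
  obtain ⟨W, hW, hW0⟩ := kq_opn (l : Qb)
  have oδ : IsOpen {g | δB g = 1} := by
    have e : {g | δB g = 1} = (δB.toHomUnits.ker : Set GQ) := Set.ext fun g => by
      rw [SetLike.mem_coe, MonoidHom.mem_ker, Units.ext_iff]; rfl
    rw [e]
    refine Subgroup.isOpen_of_mem_nhds _ (g := 1) (Filter.mem_of_superset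
      ((hS.dop k0).mem_nhds (by simp)) fun g hg => ?_)
    rw [← e]
    have a : (MvPowerSeries.C (S.δ g - 1) : PP O ι) ∈ maximalIdeal (PP O ι) ^ k0 := by
      have b : (maximalIdeal O).map (MvPowerSeries.C : O →+* PP O ι) ≤ maximalIdeal (PP O ι) :=
        Ideal.map_le_iff_le_comap.2 fun c hc => hS.max.1 (by simpa [Dt.π0] using (hS.ker c).2 hc)
      refine Ideal.pow_right_mono b k0 ?_
      rw [← Ideal.map_pow]
      exact Ideal.mem_map_of_mem _ hg
    have := RingHom.mem_ker.1 (hk0 a)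
    rw [map_sub, map_sub, map_one, map_one, sub_eq_zero] at this
    exact this
  have oκ : IsOpen {g | κ g = 1} := (Vale.Agent.P022E.GW.Kc.kq_lc (l : Qb)).isOpen_fiber 0
  let t : GQ →* M2 A × B × Multiplicative (ZMod 2) := ρ.prod (δB.prod κ)
  have ot : IsOpen {g | t g = 1} := by
    have : {g | t g = 1} = {g | ρ g = 1} ∩ ({g | δB g = 1} ∩ {g | κ g = 1}) := Set.ext fun g => by
      simp only [t, Set.mem_setOf_eq, Set.mem_inter_iff, MonoidHom.prod_apply, Prod.mk_eq_one]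
    rw [this]
    exact hρ.opn.inter (oδ.inter oκ)
  obtain ⟨N, hN⟩ := tm.tame _ t ot
  have hp : ∀ p ∈ N, ρ p = 1 ∧ δB p = 1 ∧ kq (l : Qb) p = 0 := fun p hp => by
    obtain ⟨m, hm, e⟩ := hN.odd p hp
    obtain ⟨a, b⟩ := hu p (hN.ID (hN.NI hp))
    refine ⟨odd1 (πA.mapMatrix : M2 A →+* M2 F) (fun w hw => ?_) ?_ ?_ hm (congrArg Prod.fst e),
      odd1 πB (fun w hw => uB w (by rw [hw]; exact one_ne_zero)) F2 ?_ hm
        (congrArg (fun z => z.2.1) e), ?_⟩
    · refine (Matrix.isUnit_iff_isUnit_det w).2 (uA _ ?_)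
      rw [RingHom.map_det, hw, Matrix.det_one]
      exact one_ne_zero
    · have : (1 : M2 F) + 1 = 0 := by
        ext a b
        exact CharTwo.add_self_eq_zero ((1 : M2 F) a b)
      rwa [one_add_one_eq_two] at this
    · rw [RingHom.mapMatrix_apply, hρ.red pA, pow_two]
      rw [Matrix.trace_fin_two] at a
      rw [Matrix.det_fin_two] at b
      generalize mx S.rb p = Z at a b
      ext x y
      fin_cases x <;> fin_cases y <;> simp only [Matrix.mul_apply, Fin.sum_univ_two] <;> simp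
      · linear_combination Z 0 0 * a - b - F2
      · linear_combination Z 0 1 * a
      · linear_combination Z 1 0 * a
      · linear_combination Z 1 1 * a - b - F2
    · rw [δe, pB, show S.π0 (MvPowerSeries.C (S.δ p)) = S.red (S.δ p) by simp [Dt.π0], hS.det, b,
        one_pow]
    · have e' : m • kq (l : Qb) p = 0 := congrArg (fun z => Multiplicative.toAdd z.2.2) e
      rw [nsmul_eq_mul, (ZMod.natCast_eq_one_iff_odd).2 hm, one_mul] at e'
      exact e'
  have kp : ∀ g (n : ℕ), kq (l : Qb) (g ^ n) = n • kq (l : Qb) g := fun g n =>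
    congrArg Multiplicative.toAdd (map_pow κ g n)
  have kτ : kq (l : Qb) τ = 1 := by
    obtain ⟨τ', h'⟩ := Vale.Agent.P022E.GW.Tg.ex_gn' hP
    obtain ⟨a, b⟩ := (Vale.Agent.P022E.GW.Tg.gn_iff hP).1 h'
    obtain ⟨n, p, pN, rfl⟩ := hN.cyc τ' a
    rw [κa, (hp p pN).2.2, add_zero, kp] at b
    rcases Vale.Agent.P022E.GW.Kc.z2 (kq (l : Qb) τ) with c | c
    · rw [c, smul_zero] at b; exact absurd b zero_ne_one
    · exact c
  have dX : X.det = δB τ := by rw [δe, ← kil hL di, RingHom.map_det]; rfl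
  have dY : Y.det = δB f := by rw [δe, ← kil hL dj, RingHom.map_det]; rfl
  have X2 : X ^ 2 = 1 := by rw [pow_two, XX]
  set Y' := Y * X ^ (kq (l : Qb) f).val with hY'
  have cm : Commute Y' X := Commute.mul_left (Eq.symm XY) ((Commute.refl X).pow_left _)
  obtain ⟨n, n0, hn⟩ : ∃ n, n ≠ 0 ∧ Y' ^ n = 1 := by
    have u : IsUnit Y' := by
      refine IsUnit.mul ((Matrix.isUnit_iff_isUnit_det Y).2 ?_)
        (IsUnit.pow _ (IsUnit.of_mul_eq_one _ XX))
      rw [dY]
      exact (Group.isUnit f).map δB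
    obtain ⟨u, hu⟩ := u
    exact ⟨orderOf u, (orderOf_pos u).ne', by
      rw [← hu, ← Units.val_pow_eq_pow_val, pow_orderOf_eq_one, Units.val_one]⟩
  haveI : NeZero n := ⟨n0⟩
  obtain ⟨d, V, hV, d1, d2, d3, d4⟩ :=
    Vale.Agent.P022E.GW.Unr.deg hP.1 hP.2.1 hP.2.2 tm.frob n0
  let σ : dec P →* M2 B :=
    { toFun := fun g => Y' ^ (d g).val * X ^ (kq (l : Qb) g).val
      map_one' := by
        rw [OneMemClass.coe_one, d3 1 (inP P).one_mem, hW0 1 W.one_mem]; simp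
      map_mul' := fun g h => by
        rw [Subgroup.coe_mul, d1 _ g.2 _ h.2, κa, pw_add hn, pw_add X2]
        exact ((cm.pow_pow _ _).mul_mul_mul_comm _ _) }
  have σe : ∀ g : dec P, σ g = Y' ^ (d g).val * X ^ (kq (l : Qb) g).val := fun g => rfl
  have σ0 : ∀ g : dec P, d g = 0 → kq (l : Qb) g = 0 → σ g = 1 := fun g a b => by
    rw [σe, a, b]; simp
  have στ : σ ⟨τ, hN.ID hN.tau⟩ = X := by
    rw [σe]
    dsimp only
    rw [d3 τ hN.tau, kτ, ZMod.val_zero, pow_zero, one_mul, ZMod.val_one, pow_one]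
  have σf : σ ⟨f, hN.phi⟩ = Y := by
    rw [σe]
    dsimp only
    rw [d2, ← Nat.cast_one, pw_nat hn, pow_one, hY', mul_assoc, ← pow_add, ← two_mul, pow_mul, X2,
      one_pow, mul_one]
  have ok : IsOpen (t.toHomUnits.ker : Set GQ) := by
    have : (t.toHomUnits.ker : Set GQ) = {g | t g = 1} := Set.ext fun g => by
      rw [SetLike.mem_coe, MonoidHom.mem_ker, Units.ext_iff]; rfl
    rw [this]; exact ot
  have key : ∀ g : dec P, ∃ a b : ℕ, σ g = Y ^ a * X ^ b ∧ ρ g = ρ f ^ a * ρ τ ^ b ∧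
      δB g = δB f ^ a * δB τ ^ b := fun g => by
    obtain ⟨a, s, u, hs, hu, e⟩ := dec_gen hP.1 hP.2.1 hP.2.2 tm.frob g.2
      (t.toHomUnits.ker ⊓ V) (IsOpen.inter ok hV)
    obtain ⟨b, p, pN, rfl⟩ := hN.cyc s hs
    have tu : t u = 1 := congrArg Units.val (MonoidHom.mem_ker.1 hu.1)
    have ud : u ∈ dec P := ((dec P).mul_mem_cancel_right ((dec P).pow_mem hN.phi a)).1
      (((dec P).mul_mem_cancel_right (inP_le_dec hs)).1 (e ▸ g.2))
    have pd := hN.ID (hN.NI pN)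
    refine ⟨a, b, ?_, ?_, ?_⟩
    · have : g = ⟨u, ud⟩ * ⟨f, hN.phi⟩ ^ a * (⟨τ, hN.ID hN.tau⟩ ^ b * ⟨p, pd⟩) := Subtype.ext e
      rw [this, map_mul, map_mul, map_mul, map_pow, map_pow, σf, στ,
        σ0 ⟨u, ud⟩ (d4 u hu.2 ud) (congrArg (fun z => Multiplicative.toAdd z.2.2) tu),
        σ0 ⟨p, pd⟩ (d3 p (hN.NI pN)) (hp p pN).2.2, one_mul, mul_one]
    · rw [e, map_mul, map_mul, map_mul, map_pow, map_pow, (hp p pN).1,
        show ρ u = 1 from congrArg Prod.fst tu, one_mul, mul_one]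
    · rw [e, map_mul, map_mul, map_mul, map_pow, map_pow, (hp p pN).2.1,
        show δB u = 1 from congrArg (fun z => z.2.1) tu, one_mul, mul_one]
  refine ⟨σ, fun g => ?_, fun g => ?_, opn_of σ (U := V ⊓ W) (hV.inter hW)
    fun g hg => σ0 g (d4 g hg.1 g.2) (hW0 g hg.2)⟩
  · obtain ⟨a, b, e1, e2, -⟩ := key g
    rw [e1, e2, hj A _ ρ ⟨k0, fun x hx => by
      rw [RingHom.mem_ker, RingHom.comp_apply, RingHom.mem_ker.1 (hk0 hx), map_zero]⟩ hρ, ← hi,
      hρ.gen, ← RingHom.mapMatrix_apply, map_mul, map_pow, map_pow,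
      RingHom.mapMatrix_apply, RingHom.mapMatrix_apply, hX, hY, Matrix.map_map, Matrix.map_map]
    rfl
  · obtain ⟨a, b, e1, -, e3⟩ := key g
    rw [← δe, e1, e3, Matrix.det_mul, Matrix.det_pow, Matrix.det_pow, dX, dY]

/-- **the unramified type**: the tame generator acts trivially -/
theorem loclT0 [CharP F 2] (hS : S.Ok) {l : ℕ} {P : Ideal (𝓞 Qb)} (hP : Ov l P) {τ f : GQ}
    (tm : Tm l P τ f) (hu : ∀ g ∈ dec P, (mx S.rb g).trace = 0 ∧ (mx S.rb g).det = 1) {i : ι}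
    {Φ : M2 (PP O ι)} (hi : S.gam i = τ) (hj : Rp S Φ f)
    (di : (S.Z i).det - MvPowerSeries.C (S.δ τ) ∈ Lst)
    (dj : Φ.det - MvPowerSeries.C (S.δ f) ∈ Lst)
    (ha : S.Z i 0 0 - 1 ∈ Lst) (hb : S.Z i 0 1 ∈ Lst) (hc : S.Z i 1 0 ∈ Lst)
    (hd : S.Z i 1 1 - 1 ∈ Lst ∨ MvPowerSeries.C (S.δ τ) - 1 ∈ Lst) : LOCL S Lst (dec P) := by
  refine loclT hS hP tm hu hi hj di dj fun B _ φ hL => ?_
  have a : φ (S.Z i 0 0) = 1 := by rw [kil hL ha, map_one]
  have b := kil0 hL hb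
  have c := kil0 hL hc
  have d : φ (S.Z i 1 1) = 1 := by
    rcases hd with d | d
    · rw [kil hL d, map_one]
    · have e := kil hL di
      rwa [kil hL d, map_one, Matrix.det_fin_two, map_sub, map_mul, map_mul, a, b, zero_mul,
        one_mul, sub_zero] at e
  have e : (S.Z i).map φ = 1 := by
    ext x y
    fin_cases x <;> fin_cases y
    exacts [a, b, c, d]
  rw [e, one_mul, one_mul, mul_one]
  exact ⟨rfl, rfl⟩

/-- **the unipotent type** in characteristic two -/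
theorem loclT1 [CharP F 2] (hS : S.Ok) {l : ℕ} {P : Ideal (𝓞 Qb)} (hP : Ov l P) {τ f : GQ}
    (tm : Tm l P τ f) (hu : ∀ g ∈ dec P, (mx S.rb g).trace = 0 ∧ (mx S.rb g).det = 1) {i : ι}
    {Φ : M2 (PP O ι)} (hi : S.gam i = τ) (hj : Rp S Φ f)
    (di : (S.Z i).det - MvPowerSeries.C (S.δ τ) ∈ Lst)
    (dj : Φ.det - MvPowerSeries.C (S.δ f) ∈ Lst)
    (hπ : ∀ c ∈ maximalIdeal O, (MvPowerSeries.C c : PP O ι) ∈ Lst)
    (ti : (S.Z i).trace ∈ Lst) (tj : Φ.trace ∈ Lst) (tij : (S.Z i * Φ).trace ∈ Lst) :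
    LOCL S Lst (dec P) := by
  refine loclT hS hP tm hu hi hj di dj fun B _ φ hL => ?_
  have h2 : (2 : B) = 0 := by
    have := kil0 hL (hπ 2 ((hS.ker 2).1 (by rw [map_ofNat]; exact CharTwo.two_eq_zero)))
    rwa [map_ofNat, map_ofNat] at this
  have d : φ (MvPowerSeries.C (S.δ τ)) = 1 := by
    have := kil0 hL (hπ (S.δ τ - 1) ((hS.ker _).1 (by
      rw [map_sub, map_one, hS.det, (hu τ (inP_le_dec tm.tau)).2, sub_self])))
    rwa [map_sub, map_sub, map_one, map_one, sub_eq_zero] at this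
  have e := kil hL di
  have a := kil0 hL ti
  have b := kil0 hL tj
  have c := kil0 hL tij
  rw [d, Matrix.det_fin_two, map_sub, map_mul, map_mul] at e
  rw [Matrix.trace_fin_two, map_add] at a b
  simp only [Matrix.trace_fin_two, Matrix.mul_apply, Fin.sum_univ_two, map_add, map_mul] at c
  constructor
  · ext x y
    fin_cases x <;> fin_cases y <;>
      simp only [Matrix.mul_apply, Fin.sum_univ_two, Matrix.map_apply] <;> simp
    · linear_combination φ (S.Z i 0 0) * a - e - h2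
    · linear_combination φ (S.Z i 0 1) * a
    · linear_combination φ (S.Z i 1 0) * a
    · linear_combination φ (S.Z i 1 1) * a - e - h2
  · ext x y
    fin_cases x <;> fin_cases y <;>
      simp only [Matrix.mul_apply, Fin.sum_univ_two, Matrix.map_apply] <;> simp
    · linear_combination c - φ (Φ 1 1) * a - φ (S.Z i 0 0) * b +
        (φ (S.Z i 0 0) * φ (Φ 1 1) - φ (S.Z i 1 0) * φ (Φ 0 1)) * h2
    · linear_combination φ (Φ 0 1) * a + φ (S.Z i 0 1) * b -
        (φ (S.Z i 0 1) * φ (Φ 0 0) + φ (S.Z i 1 1) * φ (Φ 0 1)) * h2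
    · linear_combination φ (Φ 1 0) * a + φ (S.Z i 1 0) * b -
        (φ (S.Z i 1 0) * φ (Φ 1 1) + φ (S.Z i 0 0) * φ (Φ 1 0)) * h2
    · linear_combination c - φ (Φ 1 1) * a - φ (S.Z i 0 0) * b +
        (φ (S.Z i 0 0) * φ (Φ 1 1) - φ (S.Z i 0 1) * φ (Φ 1 0)) * h2

end Vale.Agent.P022S.K91
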