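import Vale.Agent.P022S.Kd

/-!
# P022S: a point of the ring of traces is the trace of a representation
-/

set_option linter.all false

noncomputable section

namespace Vale.Agent.P022S.Lift

open IsLocalRing
open Vale.Agent.P022.H346 Vale.Agent.P022G.Word _root_.P022G.Th

section push
variable {G A P V : Type} [Group G] [CommRing A] [CommRing P] [CommRing V]

/-- the determinant of a representation -/
def dt (R : G →* M2 P) : G →* Pˣ := Matrix.GeneralLinearGroup.det.comp R.toHomUnits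

theorem dt_val (R : G →* M2 P) (g : G) : (dt R g : P) = (R g).det := rfl

theorem tf_rep (R : G →* M2 P) : TF (fun g => (R g).trace) (dt R) := by
  refine ⟨by simp, fun g h => by rw [map_mul, map_mul, Matrix.trace_mul_comm], fun g h => ?_⟩
  have e : R (g * h⁻¹) * R h = R g := by rw [← map_mul, inv_mul_cancel_right]
  rw [dt_val, map_mul, ← e]
  generalize R (g * h⁻¹) = X
  generalize R h = Y
  simp only [Matrix.trace_fin_two, Matrix.det_fin_two, Matrix.mul_apply, Fin.sum_univ_two]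
  ring

theorem tf_map {t : G → A} {d : G →* Aˣ} (T : TF t d) (θ : A →+* V) :
    TF (fun g => θ (t g)) ((Units.map θ.toMonoidHom).comp d) :=
  ⟨by rw [T.one, map_ofNat], fun g h => by rw [T.comm], fun g h => by
    rw [← map_mul, T.mul, map_add, map_mul]; rfl⟩

/-- the trace function of `R` descends along `φ` and is pushed forward along `θ` -/
theorem push (φ : A →+* P) (R : G →* M2 P) (θ : A →+* V) (hθ : ∀ u, φ u = 0 → θ u = 0)
    (h : ∀ g, (R g).trace ∈ φ.range ∧ (R g).det ∈ φ.range) :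
    ∃ (t : G → V) (d : G →* Vˣ), TF t d ∧ (∀ g u, φ u = (R g).trace → θ u = t g) ∧
      ∀ g u, φ u = (R g).det → θ u = d g := by
  have ei : Function.Injective (RingHom.kerLift φ) := RingHom.kerLift_injective φ
  have em : ∀ u, RingHom.kerLift φ (Ideal.Quotient.mk _ u) = φ u := fun u => rfl
  obtain ⟨t', d', T', et, ed⟩ := Kd.tf_pull _ ei (tf_rep R) fun g => by
    obtain ⟨⟨u, hu⟩, ⟨v, hv⟩⟩ := h g
    exact ⟨⟨_, (em u).trans hu⟩, ⟨_, (em v).trans hv⟩⟩
  refine ⟨_, _, tf_map T' (Ideal.Quotient.lift (RingHom.ker φ) θ hθ), fun g u hu => ?_,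
    fun g u hu => ?_⟩
  · rw [← ei ((em u).trans (hu.trans (et g).symm))]; rfl
  · show θ u = Ideal.Quotient.lift (RingHom.ker φ) θ hθ (d' g)
    rw [← ei ((em u).trans (hu.trans (ed g).symm))]; rfl

variable {n : ℕ} (γ : Fin n → G)

/-- all traces and determinants lie in the image -/
theorem all_mem (hγ : Subgroup.closure (Set.range γ) = ⊤) (φ : A →+* P) (R : G →* M2 P)
    (h1 : ∀ s, (R (wd γ s)).trace ∈ φ.range) (h2 : ∀ i, ∃ r : Aˣ, φ r = (R (γ i)).det) (g : G) :
    (R g).trace ∈ φ.range ∧ (R g).det ∈ φ.range := by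
  have a2 : ∀ i, (dt R (γ i) : P) ∈ φ.range := fun i => by
    obtain ⟨r, hr⟩ := h2 i
    exact ⟨r, hr⟩
  have a3 : ∀ i, (((dt R (γ i))⁻¹ : Pˣ) : P) ∈ φ.range := fun i => by
    obtain ⟨r, hr⟩ := h2 i
    refine ⟨(r⁻¹ : Aˣ), (Units.inv_eq_of_mul_eq_one_right ?_).symm⟩
    rw [dt_val, ← hr, ← map_mul, Units.mul_inv, map_one]
  have hg : g ∈ Subgroup.closure (Set.range γ) := by rw [hγ]; trivial
  exact ⟨mem γ φ.range (tf_rep R) h1 a2 a3 hg, (mem_d γ φ.range a2 a3 hg).1⟩

/-- the pushed trace function has determinant one and is residually zero -/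
theorem push1 [IsLocalRing V] [CharP V 2] (hγ : Subgroup.closure (Set.range γ) = ⊤)
    (φ : A →+* P) (R : G →* M2 P) (θ : A →+* V) (hθ : ∀ u, φ u = 0 → θ u = 0)
    (h1 : ∀ s, ∃ u, φ u = (R (wd γ s)).trace ∧ θ u ∈ maximalIdeal V)
    (h2 : ∀ i, ∃ r : Aˣ, φ r = (R (γ i)).det ∧ θ r = 1) :
    ∃ t : G → V, TF t 1 ∧ (∀ g, t g ∈ maximalIdeal V) ∧
      (∀ g, ∃ u, φ u = (R g).trace) ∧ ∀ g u, φ u = (R g).trace → θ u = t g := by
  have hm := all_mem γ hγ φ R (fun s => (h1 s).imp fun _ h => h.1)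
    fun i => (h2 i).imp fun _ h => h.1
  obtain ⟨t, d, T, ht, hd⟩ := push φ R θ hθ hm
  obtain rfl : d = 1 := MonoidHom.eq_of_eqOn_dense hγ (by
    rintro _ ⟨i, rfl⟩
    obtain ⟨r, hr, hr'⟩ := h2 i
    exact Units.ext ((hd _ _ hr).symm.trans hr'))
  refine ⟨t, T, fun g => ?_, fun g => (hm g).1, ht⟩
  have T2 : TF (fun _ : G => (0 : ResidueField V))
      ((Units.map (residue V).toMonoidHom).comp (1 : G →* Vˣ)) :=
    ⟨by rw [← map_ofNat (residue V) 2, CharTwo.two_eq_zero, map_zero], fun _ _ => rfl,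
      fun _ _ => by simp⟩
  rw [← residue_eq_zero_iff]
  refine agree γ (tf_map T (residue V)) T2 (fun s => ?_) (fun _ => rfl) (by rw [hγ]; trivial)
  obtain ⟨u, hu, hu'⟩ := h1 s
  rw [← ht _ _ hu]
  exact (residue_eq_zero_iff _).2 hu'

end push

/-- a residually trivial trace function over a discrete valuation ring has a model -/
def MODEL : Prop := ∀ (G : Type) [Group G] (V : Type) [CommRing V] [IsDomain V]
  [IsDiscreteValuationRing V] [CharP V 2] [IsAdicComplete (maximalIdeal V) V]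
  [Finite (ResidueField V)] (t : G → V), TF t 1 → (∀ g, t g ∈ maximalIdeal V) →
  ∃ (V' : Type) (_ : CommRing V') (_ : IsDomain V') (_ : IsDiscreteValuationRing V')
    (_ : CharP V' 2) (_ : IsAdicComplete (maximalIdeal V') V') (_ : Finite (ResidueField V'))
    (f : V →+* V') (s : V') (ρ : G →* GL (Fin 2) V'), Function.Injective f ∧
    (∀ x ∈ maximalIdeal V, f x ∈ maximalIdeal V') ∧ Irreducible s ∧
    (∀ g, (ρ g : M2 V').trace = f (t g)) ∧ (∀ g, (ρ g : M2 V').det = 1) ∧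
    (∀ g a b, s ∣ (ρ g : M2 V') a b - (1 : M2 V') a b) ∧
    ∀ g g', (∀ y z, t (y * g * z) = t (y * g' * z)) → ρ g = ρ g'

/-- **a point of the ring of traces is the trace of a representation** -/
theorem lift (hM : MODEL) {G A P V : Type} [Group G] [CommRing A] [CommRing P] [CommRing V]
    [IsDomain V] [IsDiscreteValuationRing V] [CharP V 2] [IsAdicComplete (maximalIdeal V) V]
    [Finite (ResidueField V)] {n : ℕ} (γ : Fin n → G)
    (hγ : Subgroup.closure (Set.range γ) = ⊤) (φ : A →+* P) (R : G →* M2 P) (θ : A →+* V)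
    (hθ : ∀ u, φ u = 0 → θ u = 0)
    (h1 : ∀ s, ∃ u, φ u = (R (wd γ s)).trace ∧ θ u ∈ maximalIdeal V)
    (h2 : ∀ i, ∃ r : Aˣ, φ r = (R (γ i)).det ∧ θ r = 1) :
    ∃ (V' : Type) (_ : CommRing V') (_ : IsDomain V') (_ : IsDiscreteValuationRing V')
      (_ : CharP V' 2) (_ : IsAdicComplete (maximalIdeal V') V') (_ : Finite (ResidueField V'))
      (f : V →+* V') (s : V') (ρ : G →* GL (Fin 2) V'), Function.Injective f ∧
      (∀ x ∈ maximalIdeal V, f x ∈ maximalIdeal V') ∧ Irreducible s ∧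
      (∀ g u, φ u = (R g).trace → f (θ u) = (ρ g : M2 V').trace) ∧
      (∀ g, (ρ g : M2 V').det = 1) ∧ (∀ g a b, s ∣ (ρ g : M2 V') a b - (1 : M2 V') a b) ∧
      (∀ g, ∃ u, φ u = (R g).trace) ∧ (∀ g g', R g = R g' → ρ g = ρ g') ∧
      ∀ g g', (∀ y z u u', φ u = (R (y * g * z)).trace → φ u' = (R (y * g' * z)).trace →
        θ u = θ u') → ρ g = ρ g' := by
  obtain ⟨t, T, hm, he, ht⟩ := push1 γ hγ φ R θ hθ h1 h2
  obtain ⟨V', _, _, _, _, _, _, f, s, ρ, k1, k2, k3, k4, k5, k6, k7⟩ := hM G V t T hm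
  have key : ∀ g g', (∀ y z u u', φ u = (R (y * g * z)).trace → φ u' = (R (y * g' * z)).trace →
      θ u = θ u') → ρ g = ρ g' := fun g g' h => k7 g g' fun y z => by
    obtain ⟨u, hu⟩ := he (y * g * z)
    obtain ⟨u', hu'⟩ := he (y * g' * z)
    rw [← ht _ _ hu, ← ht _ _ hu', h y z u u' hu hu']
  refine ⟨V', inferInstance, inferInstance, inferInstance, inferInstance, inferInstance,
    inferInstance, f, s, ρ, k1, k2, k3, fun g u hu => by rw [ht g u hu, k4], k5, k6, he,
    fun g g' h => key g g' fun y z u u' hu hu' => ?_, key⟩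
  rw [← sub_eq_zero, ← map_sub]
  refine hθ _ ?_
  rw [map_sub, hu, hu', map_mul, map_mul, h, ← map_mul, ← map_mul, sub_self]

end Vale.Agent.P022S.Lift
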