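import Vale.Agent.P022G.Pres.Cnt
import Vale.Agent.P022G.Pres.Uni
import Vale.Agent.P022D.As.EndA
import Vale.Agent.P022D.L2.Rel

/-!
# P022S: every element is a limit of words in the generators
-/

set_option linter.all false

noncomputable section

namespace Vale.Agent.P022S.Lim

open NumberField IsLocalRing Filter
open Vale.Agent.P022
open Vale.Agent.P027M.S (Inert mx)
open Vale.Agent.P022D.Sel (M2)
open Vale.Agent.P022D.PA (Cv Base lim limi)
open Vale.Agent.P022D.As.EA (cv_const cv_add cv_sub cv_mul cv_map)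
open Vale.Agent.P022E.GW (Ov Op Ur H1 Zt)
open Vale.Agent.P022G.Pres

/-- a test map: open kernel, a `2`-group as image, unramified outside `T` -/
structure Ts (T : Finset ℕ) {M : Type} [Monoid M] (f : GQ →* M) : Prop where
  opn : IsOpen {g | f g = 1}
  two : ∀ g, ∃ k : ℕ, f g ^ 2 ^ k = 1
  unr : Un T f

variable {T : Finset ℕ} {ι : Type}

/-- `γ` generates the image of every test map -/
def Gn2 (T : Finset ℕ) (γ : ι → GQ) : Prop :=
  ∀ (M : Type) [Monoid M] (f : GQ →* M), Ts T f → ∀ g, ∃ w, f (FreeGroup.lift γ w) = f g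

/-- the words `w k` tend to `g` -/
def Wd (T : Finset ℕ) (γ : ι → GQ) (g : GQ) (w : ℕ → FreeGroup ι) : Prop :=
  ∀ (M : Type) [Monoid M] (f : GQ →* M), Ts T f →
    ∀ᶠ k in atTop, f (FreeGroup.lift γ (w k)) = f g

theorem pw {M : Type} [Monoid M] {x : M} {a b : ℕ} (h : x ^ 2 ^ a = 1) (hab : a ≤ b) :
    x ^ 2 ^ b = 1 := by
  obtain ⟨c, rfl⟩ := Nat.exists_eq_add_of_le hab
  rw [pow_add, pow_mul, h, one_pow]

theorem Ts.of {M N : Type} [Monoid M] [Monoid N] {f : GQ →* M} (h : Ts T f) {f' : GQ →* N}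
    (k : ∀ g, f g = 1 → f' g = 1) : Ts T f' where
  opn := P022D.R.opn_of_le f f' h.opn k
  two g := (h.two g).imp fun n hn => by rw [← map_pow] at hn ⊢; exact k _ hn
  unr l hl P hP g hg := k g (h.unr l hl P hP g hg)

theorem Ts.pi {κ : Type} [Finite κ] {M : κ → Type} [∀ i, Monoid (M i)] {f : ∀ i, GQ →* M i}
    (h : ∀ i, Ts T (f i)) : Ts T (MonoidHom.pi f) where
  opn := by
    have : {g | MonoidHom.pi f g = 1} = ⋂ i, {g | f i g = 1} := Set.ext fun g => by
      simp [funext_iff]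
    rw [this]
    exact isOpen_iInter_of_finite fun i => (h i).opn
  two g := by
    choose k hk using fun i => (h i).two g
    obtain ⟨b, hb⟩ := (Set.finite_range k).bddAbove
    exact ⟨b, funext fun i => pw (hk i) (hb ⟨i, rfl⟩)⟩
  unr l hl P hP g hg := funext fun i => (h i).unr l hl P hP g hg

theorem Ts.prod {M N : Type} [Monoid M] [Monoid N] {f : GQ →* M} {f' : GQ →* N} (h : Ts T f)
    (h' : Ts T f') : Ts T (f.prod f') where
  opn := by
    have : {g | f.prod f' g = 1} = {g | f g = 1} ∩ {g | f' g = 1} := Set.ext fun g => by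
      simp [Prod.mk_eq_one]
    rw [this]
    exact h.opn.inter h'.opn
  two g := by
    obtain ⟨a, ha⟩ := h.two g
    obtain ⟨b, hb⟩ := h'.two g
    exact ⟨a + b, Prod.ext (pw ha (Nat.le_add_right a b)) (pw hb (Nat.le_add_left b a))⟩
  unr l hl P hP g hg := Prod.ext (h.unr l hl P hP g hg) (h'.unr l hl P hP g hg)

theorem mem_k {M : Type} [Monoid M] (f : GQ →* M) (g : GQ) : g ∈ f.toHomUnits.ker ↔ f g = 1 := by
  rw [MonoidHom.mem_ker, Units.ext_iff]; rfl

theorem Ts.fin {M : Type} [Monoid M] {f : GQ →* M} (h : Ts T f) :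
    Finite (GQ ⧸ f.toHomUnits.ker) := by
  haveI := H916.isGalois_Qb
  refine Subgroup.quotient_finite_of_isOpen _ ?_
  convert h.opn using 1
  exact Set.ext (mem_k f)

theorem Ts.mk' {M : Type} [Monoid M] {f : GQ →* M} (h : Ts T f) :
    Ts T (QuotientGroup.mk' f.toHomUnits.ker) :=
  h.of fun g k => (QuotientGroup.eq_one_iff g).2 ((mem_k f g).2 k)

theorem eq_of_mk {M : Type} [Monoid M] (f : GQ →* M) {g h : GQ}
    (e : QuotientGroup.mk' f.toHomUnits.ker g = QuotientGroup.mk' f.toHomUnits.ker h) :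
    f g = f h := by
  have := (mem_k f _).1 (QuotientGroup.eq.1 e)
  rw [← mul_inv_cancel_left g h, map_mul, this, mul_one]

/-- generators from the characters -/
theorem gn2_of {γ : ι → GQ} (hc : ∀ c : GQ → ZMod 2, (∀ g h, c (g * h) = c g + c h) → Op c →
    Ur T c → (∀ i, c (γ i) = 0) → c = 0) : Gn2 T γ := by
  classical
  intro M _ f hf g
  haveI := hf.fin
  set K := f.toHomUnits.ker
  let p := QuotientGroup.mk' K
  have hp : Ts T p := hf.mk'
  have hN : IsPGroup 2 (GQ ⧸ K) := fun x => by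
    obtain ⟨y, rfl⟩ := QuotientGroup.mk'_surjective K x
    exact hp.two y
  let H : Subgroup (GQ ⧸ K) := (p.comp (FreeGroup.lift γ)).range
  suffices key : H = ⊤ by
    obtain ⟨w, hw⟩ : p g ∈ H := key ▸ trivial
    exact ⟨w, eq_of_mk f hw⟩
  by_contra hne
  obtain ⟨N, hM, hHM⟩ := (eq_top_or_exists_le_coatom H).resolve_left hne
  have hi : N.index = 2 := P022D.L2.RelP.idx hN hM
  let χ : GQ → ZMod 2 := fun g => if p g ∈ N then 0 else 1
  have χ0 : ∀ g, χ g = 0 ↔ p g ∈ N := fun g => by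
    simp only [χ]
    split_ifs with k
    · exact iff_of_true rfl k
    · exact iff_of_false (by decide) k
  have χ1 : ∀ g, p g = 1 → χ g = 0 := fun g k => (χ0 g).2 (k ▸ N.one_mem)
  have z := hc χ (fun g h => by
      have e2 := Subgroup.mul_mem_iff_of_index_two hi (a := p g) (b := p h)
      rw [← map_mul, ← χ0, ← χ0, ← χ0] at e2
      revert e2
      generalize χ (g * h) = x
      generalize χ g = y
      generalize χ h = z
      revert x y z
      decide)
    ⟨p.ker, hp.opn, χ1⟩ (fun l hl P hP s hs => χ1 s (hp.unr l hl P hP s hs))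
    fun i => (χ0 _).2 (hHM ⟨FreeGroup.of i, by simp⟩)
  refine hM.1 (eq_top_iff.2 fun x _ => ?_)
  obtain ⟨y, rfl⟩ := QuotientGroup.mk'_surjective K x
  exact (χ0 y).1 (congrFun z y)

theorem Gn2.ext {γ : ι → GQ} (h : Gn2 T γ) {M : Type} [Monoid M] {f f' : GQ →* M} (a : Ts T f)
    (b : Ts T f') (e : ∀ i, f (γ i) = f' (γ i)) : f = f' := by
  ext g
  obtain ⟨w, hw⟩ := h _ _ (a.prod b) g
  have : f.comp (FreeGroup.lift γ) = f'.comp (FreeGroup.lift γ) :=
    FreeGroup.ext_hom _ _ fun i => by simpa using e i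
  exact (congrArg Prod.fst hw).symm.trans ((DFunLike.congr_fun this w).trans (congrArg Prod.snd hw))

/-- **WORDS**: one sequence of words for all test maps -/
theorem words [Finite ι] {γ : ι → GQ} (h : Gn2 T γ) (g : GQ) : ∃ w, Wd T γ g w := by
  classical
  have fin : ∀ k : ℕ, Finite {f : GQ →* Equiv.Perm (Fin k) // Ts T f} := fun k =>
    Finite.of_injective (fun f i => f.1 (γ i)) fun f f' e =>
      Subtype.ext (h.ext f.2 f'.2 (congrFun e))
  choose w hw using fun k : ℕ => h _ _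
    (Ts.pi (f := fun f : {f : GQ →* Equiv.Perm (Fin k) // Ts T f} => f.1) fun f => f.2) g
  refine ⟨w, fun M _ f hf => ?_⟩
  haveI := hf.fin
  haveI := Fintype.ofFinite (GQ ⧸ f.toHomUnits.ker)
  refine eventually_atTop.2 ⟨Fintype.card (GQ ⧸ f.toHomUnits.ker), fun k hk => eq_of_mk f ?_⟩
  obtain ⟨e⟩ : Nonempty ((GQ ⧸ f.toHomUnits.ker) ↪ Fin k) :=
    Function.Embedding.nonempty_of_card_le (by rwa [Fintype.card_fin])
  let u := (Equiv.Perm.viaEmbeddingHom e).comp
    (MulAction.toPermHom (GQ ⧸ f.toHomUnits.ker) (GQ ⧸ f.toHomUnits.ker))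
  have hu : Function.Injective u :=
    (Equiv.Perm.viaEmbeddingHom_injective e).comp MulAction.toPerm_injective
  exact hu (congrFun (hw k) ⟨u.comp (QuotientGroup.mk' _), hf.mk'.of fun g k => by
    rw [MonoidHom.comp_apply, k, map_one]⟩)

open Classical in
/-- the value of a word -/
def ev {M : Type} [Monoid M] (Z : ι → M) : FreeGroup ι →* M :=
  (Units.coeHom M).comp (FreeGroup.lift fun i => if h : IsUnit (Z i) then h.unit else 1)

theorem ev_of {M : Type} [Monoid M] {Z : ι → M} {i : ι} (h : IsUnit (Z i)) :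
    ev Z (FreeGroup.of i) = Z i := by
  simp [ev, dif_pos h]

theorem ev_eq {M N : Type} [Monoid M] [Monoid N] {Z : ι → M} (h : ∀ i, IsUnit (Z i)) (u : M →* N)
    {γ : ι → GQ} (f : GQ →* N) (e : ∀ i, u (Z i) = f (γ i)) (w : FreeGroup ι) :
    u (ev Z w) = f (FreeGroup.lift γ w) :=
  DFunLike.congr_fun (FreeGroup.ext_hom (u.comp (ev Z)) (f.comp (FreeGroup.lift γ)) fun i => by
    simp [ev_of (h i), e]) w

theorem pow_two_mem {A : Type} [CommRing A] {I : Ideal A} (h2 : (2 : A) ∈ I) {x : M2 A}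
    (h : ∀ a b, (x - 1) a b ∈ I) (j : ℕ) :
    ∀ a b, (x ^ 2 ^ j - 1 : M2 A) a b ∈ I ^ (j + 1) := by
  induction j with
  | zero => simpa using h
  | succ j ih =>
    intro a b
    have e : x ^ 2 ^ (j + 1) - 1 = (x ^ 2 ^ j - 1) * (x ^ 2 ^ j - 1) + (2 : A) • (x ^ 2 ^ j - 1) := by
      rw [pow_succ, pow_mul, two_smul]
      noncomm_ring
    rw [e, Matrix.add_apply, Matrix.mul_apply, Matrix.smul_apply, smul_eq_mul, pow_succ]
    refine add_mem (Ideal.sum_mem _ fun c _ => Ideal.mul_mem_mul (ih a c)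
      (Ideal.pow_le_self (Nat.succ_ne_zero j) (ih c b))) ?_
    rw [mul_comm (2 : A)]
    exact Ideal.mul_mem_mul (ih a b) h2

theorem pow_two_mem' {A : Type} [CommRing A] {I : Ideal A} (h2 : (2 : A) ∈ I) {x : A}
    (h : x - 1 ∈ I) (j : ℕ) : x ^ 2 ^ j - 1 ∈ I ^ (j + 1) := by
  induction j with
  | zero => simpa using h
  | succ j ih =>
    have e : x ^ 2 ^ (j + 1) - 1 = (x ^ 2 ^ j - 1) * ((x ^ 2 ^ j - 1) + 2) := by
      rw [pow_succ, pow_mul]
      ring
    rw [e, pow_succ]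
    exact Ideal.mul_mem_mul ih (add_mem (Ideal.pow_le_self (Nat.succ_ne_zero j) ih) h2)

section cv
variable {P : Type} [CommRing P] {U : Ultrafilter ℕ}

theorem cv_uniq [Base P] {z : ℕ → P} {a b : P} (h : Cv (U : Filter ℕ) z a)
    (k : Cv (U : Filter ℕ) z b) : a = b :=
  sub_eq_zero.1 ((limi P U _ _ ⊥ (cv_sub h k)).1 (Eventually.of_forall fun n => by simp))

/-- a map which kills a power of the maximal ideal sees the limit -/
theorem cv_ev [IsLocalRing P] {A : Type} [CommRing A] {φ : P →+* A}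
    (hk : ∃ k : ℕ, maximalIdeal P ^ k ≤ RingHom.ker φ) {z : ℕ → P} {a : P} {x : A}
    (h : Cv (U : Filter ℕ) z a) (e : ∀ᶠ n in (U : Filter ℕ), φ (z n) = x) : φ a = x := by
  obtain ⟨k, hk⟩ := hk
  obtain ⟨n, h1, h2⟩ := ((h k).and e).exists
  have := RingHom.mem_ker.1 (hk h1)
  rw [map_sub, sub_eq_zero] at this
  rw [← this, h2]

/-- the image of a local map is closed -/
theorem cv_cl [Base P] {Q : Type} [CommRing Q] [Base Q] (φ : P →+* Q)
    (hφ : ∀ a ∈ maximalIdeal P, φ a ∈ maximalIdeal Q) {z : ℕ → P} {x : Q}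
    (h : Cv (U : Filter ℕ) (fun n => φ (z n)) x) : ∃ a, Cv (U : Filter ℕ) z a ∧ φ a = x := by
  obtain ⟨a, ha⟩ := lim P U z
  exact ⟨a, ha, cv_uniq (cv_map φ hφ ha) h⟩

/-- convergence of matrices -/
def Cm [IsLocalRing P] (U : Filter ℕ) (z : ℕ → M2 P) (a : M2 P) : Prop :=
  ∀ i j, Cv U (fun n => z n i j) (a i j)

theorem cm_ex [Base P] (U : Ultrafilter ℕ) (z : ℕ → M2 P) : ∃ a, Cm (U : Filter ℕ) z a := by
  choose a ha using fun i j => lim P U fun n => z n i j
  exact ⟨Matrix.of a, ha⟩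

variable [IsLocalRing P] {V : Filter ℕ} {z y : ℕ → M2 P} {a b : M2 P}

theorem Cm.const (a : M2 P) : Cm V (fun _ => a) a := fun _ _ => cv_const _

theorem Cm.mul (h : Cm V z a) (k : Cm V y b) : Cm V (fun n => z n * y n) (a * b) := fun i j => by
  simp only [Matrix.mul_apply, Fin.sum_univ_two]
  exact cv_add (cv_mul (h _ _) (k _ _)) (cv_mul (h _ _) (k _ _))

theorem Cm.trace (h : Cm V z a) : Cv V (fun n => (z n).trace) a.trace := by
  simp only [Matrix.trace_fin_two]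
  exact cv_add (h _ _) (h _ _)

theorem Cm.det (h : Cm V z a) : Cv V (fun n => (z n).det) a.det := by
  simp only [Matrix.det_fin_two]
  exact cv_sub (cv_mul (h _ _) (h _ _)) (cv_mul (h _ _) (h _ _))

end cv

section
variable {O F : Type} [CommRing O] [IsLocalRing O] [Field F] {S : Dt O F ι}

theorem mx1 (h1 : ∀ g, S.rb g = 1) (g : GQ) : mx S.rb g = 1 := by rw [mx, h1, Units.val_one]

theorem unitZ (hS : S.Ok) (h1 : ∀ g, S.rb g = 1) (i : ι) : IsUnit (S.Z i) := by
  rw [Matrix.isUnit_iff_isUnit_det]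
  by_contra hn
  have := hS.max.2 hn
  rw [RingHom.map_det, RingHom.mapMatrix_apply, hS.Z, mx1 h1, Matrix.det_one] at this
  exact one_ne_zero this

theorem gn2 [CharP F 2] (hS : S.Ok) (h1 : ∀ g, S.rb g = 1) : Gn2 S.T S.gam :=
  gn2_of fun c ca ⟨U, hU, h0⟩ cu cγ => by
    let j := ZMod.castHom (dvd_refl 2) F
    have := hS.gen (fun g => j (c g) • (1 : M2 F)) ⟨fun g _ h _ => by
        simp only [ca, map_add, add_smul, mx1 h1, one_mul, mul_one],
      fun g h => absurd trivial h, ⟨U, hU, fun g h => by simp only [h0 g h, map_zero, zero_smul]⟩,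
      fun l hl P hP g h => by simp only [cu l hl P hP g h, map_zero, zero_smul]⟩
      fun i => by simp only [cγ, map_zero, zero_smul]
    funext g
    have e := congrFun (congrFun (congrFun this g) 0) 0
    simp only [Matrix.smul_apply, Matrix.one_apply_eq, smul_eq_mul, mul_one, Pi.zero_apply,
      Matrix.zero_apply] at e
    exact j.injective (e.trans (map_zero j).symm)

theorem two_max [CharP F 2] (hS : S.Ok) : (2 : PP O ι) ∈ maximalIdeal (PP O ι) :=
  hS.max.1 (by rw [map_ofNat]; exact CharTwo.two_eq_zero)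

theorem ts_adm [CharP F 2] (hS : S.Ok) (h1 : ∀ g, S.rb g = 1) {A : Type} [CommRing A]
    {φ : PP O ι →+* A} {ρ : GQ →* M2 A} (hk : ∃ k : ℕ, maximalIdeal (PP O ι) ^ k ≤ RingHom.ker φ)
    (h : Adm S φ ρ) : Ts S.T ρ := by
  refine ⟨h.opn, fun g => ?_, h.unr⟩
  obtain ⟨k, hk⟩ := hk
  choose p hp hq using h.res g
  have e : ρ g = φ.mapMatrix (Matrix.of p) := Matrix.ext fun a b => (hp a b).symm
  refine ⟨k, ?_⟩
  rw [e, ← map_pow, ← sub_eq_zero, ← map_one φ.mapMatrix, ← map_sub]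
  ext a b
  refine RingHom.mem_ker.1 (hk (Ideal.pow_le_pow_right (Nat.le_succ k)
    (pow_two_mem (two_max hS) (fun a b => hS.max.1 ?_) k a b)))
  rw [Matrix.sub_apply, map_sub, Matrix.of_apply, hq, mx1 h1, Matrix.one_apply, Matrix.one_apply]
  split_ifs <;> simp

theorem ts_det [CharP F 2] (hS : S.Ok) (h1 : ∀ g, S.rb g = 1) (k : ℕ) :
    Ts S.T ((Ideal.Quotient.mk (maximalIdeal O ^ k)).toMonoidHom.comp S.δ) := by
  have e : ∀ x : O, Ideal.Quotient.mk (maximalIdeal O ^ k) x = 1 ↔ x - 1 ∈ maximalIdeal O ^ k :=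
    fun x => by rw [← map_one (Ideal.Quotient.mk _), Ideal.Quotient.eq]
  refine ⟨?_, fun g => ⟨k, ?_⟩, fun l hl P hP g hg => ?_⟩
  · convert hS.dop k using 2
    exact funext fun g => propext (e _)
  · rw [← map_pow, MonoidHom.comp_apply, map_pow]
    refine (e _).2 (Ideal.pow_le_pow_right (Nat.le_succ k) (pow_two_mem' ((hS.ker _).1 ?_)
      ((hS.ker _).1 ?_) k))
    · rw [map_ofNat]; exact CharTwo.two_eq_zero
    · rw [map_sub, hS.det, mx1 h1, Matrix.det_one, map_one, sub_self]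
  · rw [MonoidHom.comp_apply, hS.dun l hl P hP g hg, map_one]

theorem ev_adm (hS : S.Ok) (h1 : ∀ g, S.rb g = 1) {A : Type} [CommRing A] {φ : PP O ι →+* A}
    {ρ : GQ →* M2 A} (h : Adm S φ ρ) (w : FreeGroup ι) :
    (ev S.Z w).map φ = ρ (FreeGroup.lift S.gam w) :=
  ev_eq (unitZ hS h1) φ.mapMatrix.toMonoidHom ρ (fun i => (h.gen i).symm) w

theorem ev_det (hS : S.Ok) (h1 : ∀ g, S.rb g = 1) {I : Ideal (PP O ι)} (hd : ∀ i, Cn.dt S i ∈ I)
    (w : FreeGroup ι) : (ev S.Z w).det - MvPowerSeries.C (S.δ (FreeGroup.lift S.gam w)) ∈ I :=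
  Ideal.Quotient.eq.1 (ev_eq (unitZ hS h1)
    ((Ideal.Quotient.mk I).toMonoidHom.comp Matrix.detMonoidHom)
    (((Ideal.Quotient.mk I).comp MvPowerSeries.C).toMonoidHom.comp S.δ)
    (fun i => Ideal.Quotient.eq.2 (hd i)) w)

variable (S) in
/-- `Φ` is a universal matrix for `g` -/
structure Is (g : GQ) (Φ : M2 (PP O ι)) : Prop where
  adm : ∀ (A : Type) [CommRing A] (φ : PP O ι →+* A) (ρ : GQ →* M2 A),
    (∃ k : ℕ, maximalIdeal (PP O ι) ^ k ≤ RingHom.ker φ) → Adm S φ ρ → ρ g = Φ.map φ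
  det : ∀ I : Ideal (PP O ι), (∀ i, Cn.dt S i ∈ I) → Φ.det - MvPowerSeries.C (S.δ g) ∈ I

theorem Is.gen (i : ι) : Is S (S.gam i) (S.Z i) := ⟨fun _ _ _ _ _ h => h.gen i, fun _ h => h i⟩

theorem baseP [IsNoetherianRing O] [IsAdicComplete (maximalIdeal O) O] [Finite F] [Fintype ι]
    (hS : S.Ok) : Base (PP O ι) where
  cpl := P022D.L2b.isAdicCompleteV (σ := Ix ι) (V := O) inferInstance
  fin := by
    have : Finite (PP O ι ⧸ maximalIdeal (PP O ι)) := ker_π0 hS ▸
      Finite.of_injective _ S.π0.kerLift_injective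
    exact this

/-- **LIM**: the limit of the words is a universal matrix -/
theorem is_of [IsNoetherianRing O] [IsAdicComplete (maximalIdeal O) O] [Finite F] [CharP F 2]
    [Fintype ι] (hS : S.Ok) (h1 : ∀ g, S.rb g = 1) {U : Ultrafilter ℕ}
    (hU : (U : Filter ℕ) ≤ atTop) {g : GQ} {w : ℕ → FreeGroup ι} (hw : Wd S.T S.gam g w)
    {Φ : M2 (PP O ι)} (hΦ : Cm (U : Filter ℕ) (fun k => ev S.Z (w k)) Φ) : Is S g Φ := by
  haveI := baseP hS
  refine ⟨fun A _ φ ρ hk h => Matrix.ext fun a b => (cv_ev hk (hΦ a b) ?_).symm, fun I hI => ?_⟩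
  · refine ((hw _ ρ (ts_adm hS h1 hk h)).filter_mono hU).mono fun n hn => ?_
    rw [← hn, ← ev_adm hS h1 h]
    rfl
  · refine (limi _ U _ _ I (cv_sub hΦ.det (cv_map MvPowerSeries.C (fun c hc => hS.max.1 ?_)
      (z := fun n => S.δ (FreeGroup.lift S.gam (w n))) fun j => ?_))).1
      (Eventually.of_forall fun n => ev_det hS h1 hI _)
    · simpa [Dt.π0] using (hS.ker c).2 hc
    · exact ((hw _ _ (ts_det hS h1 j)).filter_mono hU).mono fun n hn => Ideal.Quotient.eq.1 hn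

theorem phi [IsNoetherianRing O] [IsAdicComplete (maximalIdeal O) O] [Finite F] [CharP F 2]
    [Fintype ι] (hS : S.Ok) (h1 : ∀ g, S.rb g = 1) {U : Ultrafilter ℕ}
    (hU : (U : Filter ℕ) ≤ atTop) (g : GQ) : ∃ w Φ, Wd S.T S.gam g w ∧
      Cm (U : Filter ℕ) (fun k => ev S.Z (w k)) Φ ∧ Is S g Φ := by
  haveI := baseP hS
  obtain ⟨w, hw⟩ := words (gn2 hS h1) g
  obtain ⟨Φ, hΦ⟩ := cm_ex U fun k => ev S.Z (w k)
  exact ⟨w, Φ, hw, hΦ, is_of hS h1 hU hw hΦ⟩

end

end Vale.Agent.P022S.Lim
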