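import Vale.Agent.P022S.Defs
import Vale.Agent.P022G.Rows

/-!
# P022S: the statements of the Galois side
-/

set_option linter.all false

noncomputable section

namespace Vale.Agent.P022S

open NumberField IsLocalRing MvPowerSeries Filter
open Vale.Agent.P022 Vale.Agent.P022S.R Vale.Agent.P022S.Loc
open Vale.Agent.P027M.S (Inert mx)
open Vale.Agent.P022D.Sel (M2 IsDec Ginf)
open Vale.Agent.P022D.Core (PS io y1 Coef)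
open Vale.Agent.P022E.Loc (Pl)
open Vale.Agent.P022E.GW (Ov Gn)
open Vale.Agent.P022E.As (Tg cc tt dd yy Gw Gm Out2 Lv2 Sb2 Big mT mul2)
open Vale.Agent.P022G (Hm KI subL resJ Tr)
open Vale.Agent.P022G.Word (wd)
open Vale.Agent.P022G.Chain (Pd Cn)
open Vale.Agent.P022G.Ps (Ps2)
open Vale.Agent.P022S.Mod (Dm)
open Vale.Agent.P022G

section forms
variable {O F : Type} [CommRing O] [IsLocalRing O] [Field F]

/-- an auxiliary prime -/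
structure Aq0 (A : Finset ℕ) (n q : ℕ) : Prop where
  prime : q.Prime
  out : q ∉ A
  one : 2 ^ n ∣ q - 1
  two : ∃ z : ZMod q, z ^ 2 ^ n = 2

/-- **the target of the forms side** -/
structure HD4 (ϖ : O) (S : P022D.R.Dat O F) (L : Pl O) {I : Type} (Y0 : I → Type) (W0 : Type)
    [∀ i, AddCommGroup (Y0 i)] [∀ i, Module (Tg O) (Y0 i)] [AddCommGroup W0] [Module (Tg O) W0]
    (ses : I → I → I → Prop) (ig ib : I) (iJ : Finset L.C → I) : Prop where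
  comb : ∀ a a' : L.C → ℕ, (∀ l : L.C, ∃ u, (l : ℕ) = 2 ^ (a l + 1) * (2 * u + 1) + 1) →
    (∀ l : L.C, ∃ v, (l : ℕ) + 1 = 2 ^ (a' l + 1) * (2 * v + 1)) →
    ∀ N : I → ℕ∞, (∀ i j k, ses i j k → N j = N i + N k) →
      ∀ J, (mul2 a a' J : ℕ∞) * N (iJ J) ≤ N ig
  low : ∀ N : I → ℕ∞, (∀ i j k, ses i j k → N j = N i + N k) → (N ib ≠ 0 ↔ ∃ J, N (iJ J) ≠ 0)
  gm0 : ∀ i, Gm ϖ L S.T ∅ 0 (Y0 i)
  gmW : Gm ϖ L S.T ∅ 0 W0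
  dm0 : ∀ i, Dm O S.T ∅ (Y0 i)
  dmW : Dm O S.T ∅ W0
  pi0 : ∀ i (w : Y0 i), cc ϖ • w = 0
  sb0 : ∀ i, ∃ b, Sb2 (mT L.r) b (Y0 i)
  det0 : ∀ J g, ∃ n : ℕ, 0 < n ∧ ∀ w : Y0 (iJ J), (dd g : Tg O) ^ n • w = w
  big : ∀ J : Finset L.C, Big (mT L.r) (Y0 (iJ J))
  lev : ∀ r : ℕ, ∃ (b : I → ℕ) (c n₀ : ℕ) (A : Finset ℕ), ∀ (n : ℕ) (q : Fin r → ℕ),
    Function.Injective q → (∀ i, Aq0 (A ∪ S.T) (n + n₀) (q i)) →
    ∃ (τ φ : Fin r → GQ) (Yb : I → Type) (Wc : Type) (Pc : L.C → Type)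
      (_ : ∀ i, AddCommGroup (Yb i)) (_ : ∀ i, Module (Tg O) (Yb i)) (_ : AddCommGroup Wc)
      (_ : Module (Tg O) Wc) (_ : ∀ a, AddCommGroup (Pc a)) (_ : ∀ a, Module (Tg O) (Pc a)),
      Lv2 ϖ S L Y0 W0 ses ig iJ b c n q τ φ Yb Wc ∧
      (∀ i, Dm O S.T (Finset.univ.image q) (Yb i)) ∧ Dm O S.T (Finset.univ.image q) Wc ∧
      ∀ a : L.C, 4 ∣ (a : ℕ) - 1 → L.r (L.τ a) = 1 →
        Ps2 ϖ S L n q τ (L.τ a) (Yb ib) (Pc a) ∧ Dm O S.T (Finset.univ.image q) (Pc a)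

/-- the forms side for the places `L'` and the set `T'` -/
def AllF (ϖ : O) (F : Type) [Field F] (L' : Pl O)
    (T' : Finset ℕ) (Φ : ∀ (I : Type) (Y0 : I → Type) (W0 : Type) [∀ i, AddCommGroup (Y0 i)]
      [∀ i, Module (Tg O) (Y0 i)] [AddCommGroup W0] [Module (Tg O) W0],
      (Finset L'.C → I) → Prop) : Prop :=
  ∀ (Sf : P022D.R.Dat O F) (I : Type) (Y0 : I → Type) (W0 : Type) [∀ i, AddCommGroup (Y0 i)]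
    [∀ i, Module (Tg O) (Y0 i)] [AddCommGroup W0] [Module (Tg O) W0] (ses : I → I → I → Prop)
    (ig ib : I) (iJ : Finset L'.C → I), Sf.T = T' → HD4 ϖ Sf L' Y0 W0 ses ig ib iJ →
    Φ I Y0 W0 iJ

end forms

section defs
variable {O F : Type} [CommRing O] [Field F]

/-- the ideals of the ring of symbols which belong to pseudo objects of level `Q` -/
def Gp (S : Dat O F) (L : Pl O) (Q : Finset ℕ) (r : ℕ) (a : Ideal (Tg O)) : Prop :=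
  ∃ Z : PO S (Tg O ⧸ a), Z.Std (Ideal.Quotient.mk a) ∧ Z.Cl L Q ∧
    (∀ i, Z.π (Ideal.Quotient.mk a (yy i)) = 0) ∧ ∀ i, r ≤ i → yy i ∈ a

/-- the values of the invariant symbols in `Tg` -/
def vT {m : ℕ} (rc : Fin m → M2 O) (γ : Fin m → GQ) : Sy m → Tg O :=
  gv rc MvPolynomial.C (fun s => tt (wd γ s)) fun i => dd (γ i)

variable {S : Dat O F} {L : Pl O}

/-- the ring which acts on the modules -/
abbrev PP (O : Type) (n r : ℕ) : Type := PS O (Sy (n + r) ⊕ Fin r)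

/-- the values of the variables of `PP` in `Tg` -/
def Gs.vP {κ : Type} {n : ℕ} {gk : κ → GQ} (G : Gs S L gk n) {r : ℕ} (τ' : Fin r → GQ) :
    Sy (n + r) ⊕ Fin r → Tg O :=
  Sum.elim (vT (G.rcr r) (Fin.append G.γ τ')) fun i => yy i

/-- the values of the variables of `PP` in the ring of level zero -/
def Gs.jv {κ : Type} {n : ℕ} {gk : κ → GQ} (G : Gs S L gk n) (r : ℕ) :
    Sy (n + r) ⊕ Fin r → PS O (Sy n) :=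
  Sum.elim (gv (G.rcr r) C
    (fun s => tS G.rc id (Finset.univ.filter fun i => Fin.castAdd r i ∈ s))
    (Fin.append (dS G.rc id) fun _ => 1)) fun _ => 0

/-- universal traces of level zero -/
def Gs.Tu {κ : Type} {n : ℕ} {gk : κ → GQ} (G : Gs S L gk n) (tu : GQ → PS O (Sy n)) : Prop :=
  ∀ (B : Type) [CommRing B] (Z : PO S B) (ψ : PS O (Sy n) →+* B), Z.Cl L ∅ →
    Hm Z.ι (Z.val G.rc G.γ) ψ → ∀ g, ψ (tu g) = Z.t g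

variable {β : Type} {τ ι' : β → Type} (K : Kx O β τ ι' L.C) {n : ℕ} (G : Gs S L K.g n)

/-- the framed rings -/
abbrev S0 (O : Type) (τ : β → Type) [CommRing O] (L : Pl O) (n : ℕ) (T : Finset ℕ) (r : ℕ) :
    Type := PS O (V0 τ L n T r)

abbrev S1 (O : Type) (τ : β → Type) [CommRing O] (L : Pl O) (n : ℕ) (T : Finset ℕ) (r : ℕ) :
    Type := PS O (V0 τ L n T r ⊕ Fin r)

/-- the symbols inside `S0` -/
def ψ0 (S : Dat O F) (L : Pl O) (τ : β → Type) (n r : ℕ) :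
    PS O (Sy (n + r)) →+* S0 O τ L n S.T r :=
  (MvPowerSeries.rename (R := O) (e0 r : Sy (n + r) ↪ V0 τ L n S.T r) : _ →ₐ[O] _)

/-- the symbols and the `y` inside `S1` -/
def ψ1 (S : Dat O F) (L : Pl O) (τ : β → Type) (n r : ℕ) :
    PP O n r →+* S1 O τ L n S.T r :=
  (MvPowerSeries.rename (R := O) ((e0 r : Sy (n + r) ↪ V0 τ L n S.T r).sumMap
    (Function.Embedding.refl (Fin r))) : _ →ₐ[O] _)

/-- the data at a curve -/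
structure Pc (r s : ℕ) (V : Type) [CommRing V] where
  t : V
  j : O →+* V
  ρ : GQ →* GL (Fin 2) V
  θA : PS O (Sy n) →+* V
  θ : S1 O τ L n S.T r →+* V
  jr : PP O n r →+* PS O (Sy n)
  U : Ultrafilter ℕ
  q : ℕ → Fin r → ℕ
  τ' : ℕ → Fin r → GQ
  τq : ℕ → Fin r → GQ
  kn : ℕ → Fin s → S0 O τ L n S.T r
  k : Fin s → S0 O τ L n S.T r
  col : Fin s → V0 τ L n S.T r
  tn : ℕ → Fin r → PS O (Sy (n + r))
  dn : ℕ → Fin r → PS O (Sy (n + r))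
  ta : Fin r → PS O (Sy (n + r))
  da : Fin r → PS O (Sy (n + r))
  G' : Gs S L K.g n

variable {K} {r s : ℕ} {V : Type} [CommRing V]

/-- the blocks in `S0` -/
abbrev DD (K : Kx O β τ ι' L.C) (n : ℕ) (T : Finset ℕ) (r : ℕ) :=
  K.D (fun γ => (γ : ℕ)) (Rs (n + r) T)

/-- the hypotheses on the data at a curve -/
structure Pc.Ok [IsLocalRing O] [Fintype β] [∀ b, Fintype (τ b)]
    (Y : Pc (S := S) (n := n) K r s V) : Prop where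
  crv : Y.G'.Crv Y.t Y.j Y.ρ Y.θA
  irr : Y.G'.Irr (RingHom.ker Y.θA)
  cf : Cf K Y.G' r Y.j Y.ρ (Y.θ.comp (io O _ r))
  y0 : ∀ i, Y.θ (y1 O _ i) = 0
  jr : Hm C (Y.G'.jv r) Y.jr
  hU : (Y.U : Filter ℕ) ≤ atTop
  inj : ∀ m, Function.Injective (Y.q m)
  gn : ∀ m i, Y.q m i ∉ S.T ∧ ∃ P, Ov (Y.q m i) P ∧ Gn (Y.q m i) P (Y.τ' m i)
  ine : ∀ m i, ∃ P, Ov (Y.q m i) P ∧ Inert P (Y.τq m i)
  kn : ∀ m a, Y.kn m a ∈ Kn K Y.G' r (Y.q m) (Y.τ' m)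
  cvk : ∀ a, P022D.PA.Cv (Y.U : Filter ℕ) (fun m => Y.kn m a) (Y.k a)
  col : ∀ a, Y.col a ∉ Set.range Sum.inl
  mn : Y.θ (io O _ r (Rel.mn Y.k Y.col)) ≠ 0
  cnt : s + (2 * r + 1) = Fintype.card (Rs (n + r) S.T)
  tn : ∀ m i (B : Type) [CommRing B] (Z : PO S B) (ψ : PS O (Sy (n + r)) →+* B),
    Z.Cl L (Finset.univ.image (Y.q m)) →
    Hm Z.ι (Z.val (Y.G'.rcr r) (Fin.append Y.G'.γ (Y.τ' m))) ψ →
    ψ (Y.tn m i) = Z.t (Y.τq m i) ∧ ψ (Y.dn m i) = Z.d (Y.τq m i)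
  cvt : ∀ i, P022D.PA.Cv (Y.U : Filter ℕ) (fun m => Y.tn m i) (Y.ta i)
  cvd : ∀ i, P022D.PA.Cv (Y.U : Filter ℕ) (fun m => Y.dn m i) (Y.da i)

open Classical in
/-- the ring data at a curve -/
def Pc.rd (Y : Pc (S := S) (n := n) K r s V) (ϖ : O) :
    Pt.RD (PP O n r) (S0 O τ L n S.T r) (S1 O τ L n S.T r) L.C (Fin r) where
  ψ := ψ1 S L τ n r
  𝔭 := RingHom.ker Y.θ
  𝔱 := (t0 K Y.G' r).map (io O _ r)
  𝔞 := aF (Y.G'.rcr r) Sum.inl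
  𝔢 := Y.G'.aP.comap Y.jr
  E := Rel.IK (DD K n S.T r) Y.k
  π := C ϖ
  π₀ := C ϖ
  y := y1 O _
  α := fun i => ψ0 S L τ n r (Y.ta i) - 2
  β := fun i => 1 - ψ0 S L τ n r (Y.ta i) + ψ0 S L τ n r (Y.da i)
  𝔯 := Ideal.span (Set.range fun i => y1 O _ i ^ 2 -
    io O _ r (ψ0 S L τ n r (Y.ta i) - 2) * y1 O _ i +
    io O _ r (1 - ψ0 S L τ n r (Y.ta i) + ψ0 S L τ n r (Y.da i)))
  τP := fun l => tauP (Y.G'.rcr r) Sum.inl (Fin.castAdd r (Y.G'.iτ l))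
  DP := fun l => trS (Y.G'.rcr r) Sum.inl (Fin.castAdd r (Y.G'.iφ l))
  IP := IPt (Y.G'.rcr r) Sum.inl (fun l => Fin.castAdd r (Y.G'.iτ l))
    fun l => Fin.castAdd r (Y.G'.iφ l)
  τl := fun l => Set.range fun p : Fin 2 × Fin 2 => ((DD K n S.T r).T l - 1) p.1 p.2
  Dl := fun l => ((DD K n S.T r).Φ l).trace
  IJ := fun J => Ideal.span {u | (∃ l ∈ J, u = ((DD K n S.T r).T l).trace ∨
    u = ((DD K n S.T r).Φ l).trace ∨ u = ((DD K n S.T r).T l * (DD K n S.T r).Φ l).trace) ∨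
    ∃ l, l ∉ J ∧ ∃ a b, u = ((DD K n S.T r).T l - 1) a b}
  a := 4 * S.T.card - 1
  d := 4 * S.T.card + 2 * r + 1

end defs

/-- the common context of the rows -/
def All (Φ : ∀ (O F : Type) [CommRing O] [IsDomain O] [IsDiscreteValuationRing O] [Coef O]
    [Field F] [Finite F] [CharP F 2] (ϖ : O) (S : Dat O F) (L : Pl O) (X : Finset ℕ) (as : ℕ)
    (β : Type) (τ ι' : β → Type) [Fintype β] [∀ b, Fintype (τ b)] [∀ b, Fintype (ι' b)]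
    (K : Kx O β τ ι' L.C) (n : ℕ), Gs S L K.g n → Prop) : Prop :=
  ∀ (O F : Type) [CommRing O] [IsDomain O] [IsDiscreteValuationRing O] [Coef O]
    [Field F] [Finite F] [CharP F 2] (ϖ : O) (S : Dat O F) (L : Pl O) (X : Finset ℕ) (as : ℕ)
    (β : Type) (τ ι' : β → Type) [Fintype β] [∀ b, Fintype (τ b)] [∀ b, Fintype (ι' b)]
    (K : Kx O β τ ι' L.C) (n : ℕ) (G : Gs S L K.g n),
    Irreducible ϖ → Cx S L X as → K.Ok L S ϖ → K.Det L S → Φ O F ϖ S L X as β τ ι' K n G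

/-- the context at a curve -/
def AllC (Φ : ∀ (O F : Type) [CommRing O] [IsDomain O] [IsDiscreteValuationRing O] [Coef O]
    [Field F] [Finite F] [CharP F 2] (ϖ : O) (S : Dat O F) (L : Pl O) (X : Finset ℕ)
    (β : Type) (τ ι' : β → Type) [Fintype β] [∀ b, Fintype (τ b)] [∀ b, Fintype (ι' b)]
    (K : Kx O β τ ι' L.C) (n r s : ℕ) (V : Type) [CommRing V],
    Pc (S := S) (n := n) K r s V → Prop) : Prop :=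
  All fun O F _ _ _ _ _ _ _ ϖ S L X as β τ ι' _ _ _ K n G =>
    ∀ (r s : ℕ) (V : Type) [CommRing V] [IsDomain V] [IsDiscreteValuationRing V] [CharP V 2]
      [IsAdicComplete (maximalIdeal V) V] [Finite (ResidueField V)]
      (Y : Pc (S := S) (n := n) K r s V), Irreducible Y.t → Y.G' = G → Y.Ok →
      Φ O F ϖ S L X β τ ι' K n r s V Y

/-! ### generators and pseudo objects -/

def GENS : Prop := ∀ (O F : Type) [CommRing O] [IsLocalRing O] [Field F] [Finite F] [CharP F 2]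
  (S : Dat O F) (L : Pl O) (κ : Type) [Fintype κ] (gk : κ → GQ), OkG L S → L.W = ∅ →
  ∃ n : ℕ, Nonempty (Gs S L gk n)

/-- good ideals belong to pseudo objects -/
def GPW : Prop := All fun O F _ _ _ _ _ _ _ ϖ S L X as β τ ι' _ _ _ K n G =>
  ∀ (Q : Finset ℕ) (r : ℕ) (a : Ideal (Tg O)), a ≠ ⊤ → Mod.Gs ϖ L S.T Q r a → Gp S L Q r a

/-- kernels of points and intersections -/
def GPO : Prop := All fun O F _ _ _ _ _ _ _ ϖ S L X as β τ ι' _ _ _ K n G =>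
  (∀ (Q : Finset ℕ) (r : ℕ) (B : Type) [CommRing B] (Z : PO S B) (u : Tg O →+* B), Z.Std u →
    Z.Cl L Q → (∀ i, Z.π (u (yy i)) = 0) → (∀ i, r ≤ i → u (yy i) = 0) →
    Gp S L Q r (RingHom.ker u) ∧ Mod.Gs ϖ L S.T Q r (RingHom.ker u)) ∧
  (∀ Q r a b, Gp S L Q r a → Gp S L Q r b → Gp S L Q r (a ⊓ b)) ∧
  ∀ (Q : Finset ℕ) (B : Type) [CommRing B] (Y : Obj S B), Ty (ClG L S) Q B Y →
    ∃ Z : PO S B, Z.Cl L Q ∧ Z.ι = Y.ι ∧ Z.π = Y.π ∧ ∀ g, Z.t g = (Y.ρ g).trace ∧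
      (Z.d g : B) = (Y.ρ g).det

/-- the traces are generated by the symbols -/
def GPG : Prop := All fun O F _ _ _ _ _ _ _ ϖ S L X as β τ ι' _ _ _ K n G =>
  ∀ (r : ℕ) (q : Fin r → ℕ) (τ' : Fin r → GQ),
    (∀ i, q i ∉ S.T ∧ ∃ P, Ov (q i) P ∧ Gn (q i) P (τ' i)) →
    ∀ (B : Type) [CommRing B] (Z : PO S B), Z.Cl L (Finset.univ.image q) →
    ∀ R : Subring B, (∀ o, Z.ι o ∈ R) → (∀ s, Z.val (G.rcr r) (Fin.append G.γ τ') s ∈ R) →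
      ∀ g, Z.t g ∈ R ∧ (Z.d g : B) ∈ R

/-- universal traces -/
def LAM : Prop := All fun O F _ _ _ _ _ _ _ ϖ S L X as β τ ι' _ _ _ K n G =>
  ∀ (r : ℕ) (q : Fin r → ℕ) (τ' : Fin r → GQ),
    (∀ i, q i ∉ S.T ∧ ∃ P, Ov (q i) P ∧ Gn (q i) P (τ' i)) →
    ∃ tu du : GQ → PS O (Sy (n + r)), ∀ (B : Type) [CommRing B] (Z : PO S B)
      (ψ : PS O (Sy (n + r)) →+* B), Z.Cl L (Finset.univ.image q) →
      Hm Z.ι (Z.val (G.rcr r) (Fin.append G.γ τ')) ψ → ∀ g, ψ (tu g) = Z.t g ∧ ψ (du g) = Z.d g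

/-- universal traces of level zero -/
def LAM0 : Prop := All fun O F _ _ _ _ _ _ _ ϖ S L X as β τ ι' _ _ _ K n G =>
  ∃ tu du : GQ → PS O (Sy n), G.Tu tu ∧ ∀ (B : Type) [CommRing B] (Z : PO S B)
    (ψ : PS O (Sy n) →+* B), Z.Cl L ∅ → Hm Z.ι (Z.val G.rc G.γ) ψ → ∀ g, ψ (du g) = Z.d g

/-- pseudo objects are objects up to the determinants of the commutators -/
def KDEL : Prop := All fun O F _ _ _ _ _ _ _ ϖ S L X as β τ ι' _ _ _ K n G =>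
  ∀ (r : ℕ) (q : Fin r → ℕ) (τ' : Fin r → GQ),
    (∀ i, q i ∉ S.T ∧ ∃ P, Ov (q i) P ∧ Gn (q i) P (τ' i)) →
    ∀ (B : Type) [CommRing B] (Z : PO S B) (ψ : PS O (Sy (n + r)) →+* B),
      Z.Cl L (Finset.univ.image q) → Hm Z.ι (Z.val (G.rcr r) (Fin.append G.γ τ')) ψ →
      ∀ i k, i ≠ k → ∀ f ∈ Kn K G r q τ', ψ0 S L τ n r (dlS (G.rcr r) id i k) * f ∈
        (RingHom.ker ψ).map (ψ0 S L τ n r) ⊔ t0 K G r

/-! ### curves -/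

def CRV : Prop := All fun O F _ _ _ _ _ _ _ ϖ S L X as β τ ι' _ _ _ K n G =>
  ∀ p : Ideal (PS O (Sy n)), Chain.Cv p → G.aP ≤ p → C ϖ ∈ p →
    ∃ (V : Type) (_ : CommRing V) (_ : IsDomain V) (_ : IsDiscreteValuationRing V) (_ : CharP V 2)
      (_ : IsAdicComplete (maximalIdeal V) V) (_ : Finite (ResidueField V)) (t : V) (j : O →+* V)
      (ρ : GQ →* GL (Fin 2) V) (θ : PS O (Sy n) →+* V),
      Irreducible t ∧ G.Crv t j ρ θ ∧ RingHom.ker θ = p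

def NICE : Prop := All fun O F _ _ _ _ _ _ _ ϖ S L X as β τ ι' _ _ _ K n G =>
  ∀ (V : Type) [CommRing V] [IsDomain V] [IsDiscreteValuationRing V] [CharP V 2]
    [IsAdicComplete (maximalIdeal V) V] [Finite (ResidueField V)] (t : V) (j : O →+* V)
    (ρ : GQ →* GL (Fin 2) V) (θ : PS O (Sy n) →+* V), Irreducible t → G.Crv t j ρ θ →
    Chain.Cv (RingHom.ker θ) → (∀ h : as ∈ L.C, θ (G.fr ⟨as, h⟩) = 0) →
    _root_.P022S.Sel.Nice0 t ρ S.T L.D ∧ (∃ g ∈ Ginf, (ρ g : M2 V).trace ≠ 0) ∧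
      G.Irr (RingHom.ker θ)

/-- the framed curve satisfies all relations; the universal traces on a curve -/
def COBJ : Prop := All fun O F _ _ _ _ _ _ _ ϖ S L X as β τ ι' _ _ _ K n G =>
  ∀ (V : Type) [CommRing V] [IsDomain V] [IsDiscreteValuationRing V] [CharP V 2]
    [IsAdicComplete (maximalIdeal V) V] [Finite (ResidueField V)] (t : V) (j : O →+* V)
    (ρ : GQ →* GL (Fin 2) V) (θ : PS O (Sy n) →+* V), Irreducible t → G.Crv t j ρ θ →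
    G.aP ≤ RingHom.ker θ ∧ (∀ tu, G.Tu tu → ∀ g, θ (tu g) = (ρ g : M2 V).trace) ∧
    ∀ (r : ℕ) (q : Fin r → ℕ) (τ' : Fin r → GQ),
      (∀ i, q i ∉ S.T ∧ ∃ P, Ov (q i) P ∧ Gn (q i) P (τ' i)) →
      ∀ θ0 : S0 O τ L n S.T r →+* V, Cf K G r j ρ θ0 → Kn K G r q τ' ≤ RingHom.ker θ0

/-! ### the tangent space at a curve -/

/-- a point of the framed ring which satisfies the relations is an object -/
def REPO : Prop := All fun O F _ _ _ _ _ _ _ ϖ S L X as β τ ι' _ _ _ K n G =>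
  ∀ (r : ℕ) (q : Fin r → ℕ) (τ' : Fin r → GQ),
    (∀ i, q i ∉ S.T ∧ ∃ P, Ov (q i) P ∧ Gn (q i) P (τ' i)) →
    ∀ (B : Type) [CommRing B] [Finite B] (π : B →+* F) (ψ : S0 O τ L n S.T r →+* B),
      (∀ u, π u ≠ 0 → IsUnit u) → (∀ f, π (ψ f) = S.red (constantCoeff f)) →
      Kn K G r q τ' ≤ RingHom.ker ψ →
      ∃ Y : Obj S B, Y.π = π ∧ Ty (ClG L S) (Finset.univ.image q) B Y ∧
        Hm Y.ι (v0 K G r Y.ι Y.ρ Y.α Y.β τ') ψ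

/-- the vectors killed by the Jacobian rows are relative tangent vectors -/
def TANV : Prop := All fun O F _ _ _ _ _ _ _ ϖ S L X as β τ ι' _ _ _ K n G =>
  ∀ (V : Type) [CommRing V] [IsDomain V] [IsDiscreteValuationRing V] [CharP V 2]
    [IsAdicComplete (maximalIdeal V) V] [Finite (ResidueField V)] (t : V) (j : O →+* V)
    (ρ : GQ →* GL (Fin 2) V) (θ : PS O (Sy n) →+* V), Irreducible t → G.Crv t j ρ θ →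
    ∀ (r : ℕ) (q : Fin r → ℕ) (τ' : Fin r → GQ),
      (∀ i, q i ∉ S.T ∧ ∃ P, Ov (q i) P ∧ Gn (q i) P (τ' i)) →
      ∀ θ0 : S0 O τ L n S.T r →+* V, Cf K G r j ρ θ0 → ∀ N : ℕ,
      (_root_.P022G.Sel.TanS (_root_.P022G.Sel.rd (_root_.P022G.Sel.tI t N) ρ) S.T
        (Finset.univ.image q) L.D).Finite →
      Nat.card {v : Rs (n + r) S.T → V ⧸ _root_.P022G.Sel.tI t N //
          ∀ f : Kn K G r q τ', ∑ z, Ideal.Quotient.mk (_root_.P022G.Sel.tI t N)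
            (θ0 (pderiv O (Sum.inr z) f.1)) * v z = 0} *
        Nat.card (V ⧸ _root_.P022G.Sel.tI t N) ^ 4 ≤
      Nat.card (_root_.P022G.Sel.TanS (_root_.P022G.Sel.rd (_root_.P022G.Sel.tI t N) ρ) S.T
        (Finset.univ.image q) L.D)

/-- **the data at a nice curve exist** for all primes in the given classes -/
def PCEX : Prop := All fun O F _ _ _ _ _ _ _ ϖ S L X as β τ ι' _ _ _ K n G =>
  ∀ (V : Type) [CommRing V] [IsDomain V] [IsDiscreteValuationRing V] [CharP V 2]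
    [IsAdicComplete (maximalIdeal V) V] [Finite (ResidueField V)] (t : V) (j : O →+* V)
    (ρ : GQ →* GL (Fin 2) V) (θ : PS O (Sy n) →+* V), Irreducible t → G.Crv t j ρ θ →
    _root_.P022S.Sel.Nice0 t ρ S.T L.D → G.Irr (RingHom.ker θ) →
    ∃ (r : ℕ) (σ : Fin r → GQ) (U : Subgroup GQ) (T₁ : Finset ℕ), IsOpen (U : Set GQ) ∧ U.Normal ∧
      (∀ i, σ i ∈ Ginf) ∧ S.T ⊆ T₁ ∧ ∀ q : ℕ → Fin r → ℕ,
      (∀ m, Function.Injective (q m) ∧ ∀ i, _root_.P022S.Sel.Aux0 U T₁ (σ i) (q m i)) →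
      ∀ τq : ℕ → Fin r → GQ, (∀ m i, ∃ P, Ov (q m i) P ∧ Inert P (τq m i)) →
        ∃ (s : ℕ) (Y : Pc (S := S) (n := n) K r s V), Y.Ok ∧ Y.G' = G ∧ Y.t = t ∧ Y.θA = θ ∧
          Y.q = q ∧ Y.τq = τq

/-- **auxiliary primes which avoid finitely many surfaces** -/
def EXQ : Prop := All fun O F _ _ _ _ _ _ _ ϖ S L X as β τ ι' _ _ _ K n G =>
  ∀ tu, G.Tu tu → ∀ s : Finset (Ideal (PS O (Sy n))),
    (∀ E ∈ s, Pd (G.aP ⊔ Ideal.span {C ϖ}) 2 E ∧ ∃ g ∈ Ginf, tu g ∉ E) →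
    ∀ (r : ℕ) (σ : Fin r → GQ) (U : Subgroup GQ), IsOpen (U : Set GQ) → U.Normal →
      (∀ i, σ i ∈ Ginf) → ∀ (A : Finset ℕ) (n₀ : ℕ), S.T ⊆ A →
      ∃ (q : ℕ → Fin r → ℕ) (c : ℕ), ∀ m, Function.Injective (q m) ∧ ∀ i,
        _root_.P022S.Sel.Aux0 U A (σ i) (q m i) ∧ Aq0 A (m + n₀) (q m i) ∧
        ∀ φ, IsFrob (q m i) φ → ∀ E ∈ s, tu φ ∉ E ⊔ maximalIdeal (PS O (Sy n)) ^ c

/-! ### the rings at a curve -/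

def RCOV : Prop := AllC fun O F _ _ _ _ _ _ _ ϖ S L X β τ ι' _ _ _ K n r s V _ Y =>
  letI : Algebra (S0 O τ L n S.T r) (S1 O τ L n S.T r) := (io O _ r).toAlgebra
  P022D.PA.Cov _ _ (Y.rd ϖ).y (Y.rd ϖ).α (Y.rd ϖ).β (Y.rd ϖ).𝔯 ∧ (Y.rd ϖ).𝔱 ≤ (Y.rd ϖ).𝔭 ∧
    (Y.rd ϖ).𝔢 ≤ (Y.rd ϖ).p0 ∧ (Y.rd ϖ).p0 = (RingHom.ker Y.θA).comap Y.jr ∧
    Function.Surjective Y.jr ∧ Y.θ (C ϖ) = 0

def RFL : Prop := AllC fun O F _ _ _ _ _ _ _ ϖ S L X β τ ι' _ _ _ K n r s V _ Y =>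
  Pt.Pur (Y.rd ϖ).ψ (Y.rd ϖ).𝔞 (Y.rd ϖ).𝔱 (Y.rd ϖ).𝔭 ∧
    Pt.Tf (Y.rd ϖ).ψ (Y.rd ϖ).𝔞 (Y.rd ϖ).𝔱 (Y.rd ϖ).𝔭 (Y.rd ϖ).π

def RUP : Prop := AllC fun O F _ _ _ _ _ _ _ ϖ S L X β τ ι' _ _ _ K n r s V _ Y =>
  ∀ η : Ideal (PP O n r), η.IsPrime → (Y.rd ϖ).𝔞 ≤ η → η ≤ (Y.rd ϖ).p0 →
    ∃ η' : Ideal (S1 O τ L n S.T r), η'.IsPrime ∧ η' ≤ (Y.rd ϖ).𝔭 ∧
      η.map (Y.rd ϖ).ψ ⊔ (Y.rd ϖ).𝔱 ≤ η' ∧
      (((Y.rd ϖ).a : ℕ) : WithBot ℕ∞) + ringKrullDim (PP O n r ⧸ η) ≤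
        ringKrullDim (S1 O τ L n S.T r ⧸ η')

/-- the equations `τ_a = 1` at the primes of `X'` -/
def EU {O : Type} [CommRing O] {L : Pl O} {β : Type} {τ ι' : β → Type} (K : Kx O β τ ι' L.C)
    (n : ℕ) (T : Finset ℕ) (r : ℕ) (X' : Finset ℕ) : Ideal (S0 O τ L n T r) :=
  Ideal.span {u | ∃ l : L.C, (l : ℕ) ∈ X' ∧ ∃ a b, u = ((DD K n T r).T l - 1) a b}

/-- level zero; also for ideals which contain the equations `τ_a = 1` -/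
def RGAL0 : Prop := AllC fun O F _ _ _ _ _ _ _ ϖ S L X β τ ι' _ _ _ K n r s V _ Y =>
  letI : Algebra (S0 O τ L n S.T r) (S1 O τ L n S.T r) := (io O _ r).toAlgebra
  (Y.rd ϖ).Gal (Y.rd ϖ).E (Y.rd ϖ).𝔢 ∧ ∀ 𝔟 : Ideal (PP O n r), (Y.rd ϖ).𝔢 ≤ 𝔟 →
    (∀ l : L.C, (l : ℕ) ∈ X → (Y.rd ϖ).τP l ⊆ 𝔟) →
    (Y.rd ϖ).Gal ((Y.rd ϖ).E ⊔ EU K n S.T r X) 𝔟

/-- the patched modules; `W` is an additional property of the ideals -/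
def RGAL : Prop := AllC fun O F _ _ _ _ _ _ _ ϖ S L X β τ ι' _ _ _ K n r s V _ Y =>
  letI : Algebra (S0 O τ L n S.T r) (S1 O τ L n S.T r) := (io O _ r).toAlgebra
  ∀ [P022D.PA.Base (PP O n r)] (N : ℕ → Type) [∀ m, AddCommGroup (N m)]
    [∀ m, Module (PP O n r) (N m)] (W : Ideal (Tg O) → Prop),
    (∀ m k : ℕ, ∃ a : Ideal (Tg O), Gp S L (Finset.univ.image (Y.q m)) r a ∧ W a ∧
      (∀ i, dd (Y.τq m i) - (1 + yy i) * (tt (Y.τq m i) - (1 + yy i)) ∈ a) ∧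
      ∀ Ψ : PP O n r →+* Tg O ⧸ a, Hm ((Ideal.Quotient.mk a).comp MvPolynomial.C)
        (fun z => Ideal.Quotient.mk a (Y.G'.vP (Y.τ' m) z)) Ψ →
        RingHom.ker Ψ ≤ Module.annihilator (PP O n r) (N m) ⊔ maximalIdeal (PP O n r) ^ k) →
    (Y.rd ϖ).Gal (Y.rd ϖ).E (Pt.An Y.U N) ∧
    (∀ l : L.C, (∀ a, W a → tt (L.τ l) ∈ a) →
      (Y.rd ϖ).Gal ((Y.rd ϖ).E ⊔ Ideal.span {((DD K n S.T r).T l).trace}) (Pt.An Y.U N)) ∧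
    ((∀ a, W a → ∀ l ∈ X, ∀ g, tt (g * L.τ l) - tt g ∈ a) →
      (Y.rd ϖ).Gal ((Y.rd ϖ).E ⊔ EU K n S.T r X) (Pt.An Y.U N))

def RLOC : Prop := AllC fun O F _ _ _ _ _ _ _ ϖ S L X β τ ι' _ _ _ K n r s V _ Y =>
  letI : Algebra (S0 O τ L n S.T r) (S1 O τ L n S.T r) := (io O _ r).toAlgebra
  ∀ 𝔮, (Y.rd ϖ).Pn 𝔮 →
    ((Y.rd ϖ).𝔢.map (Y.rd ϖ).ψ ≤ 𝔮 → ∀ i, (Y.rd ϖ).y i ∈ 𝔮 ∧ io O _ r ((Y.rd ϖ).α i) ∈ 𝔮 ∧
      io O _ r ((Y.rd ϖ).β i) ∈ 𝔮) ∧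
    (∀ l, (∀ u ∈ (Y.rd ϖ).τP l, (Y.rd ϖ).ψ u ∈ 𝔮) → ∀ u ∈ (Y.rd ϖ).τl l, io O _ r u ∈ 𝔮) ∧
    (∀ l, (Y.rd ϖ).ψ ((Y.rd ϖ).DP l) ∈ 𝔮 → io O _ r ((Y.rd ϖ).Dl l) ∈ 𝔮) ∧
    ∀ J, (Y.rd ϖ).IP J ≤ 𝔮.comap (Y.rd ϖ).ψ ↔ (Y.rd ϖ).IJ J ≤ 𝔮.comap (io O _ r)

open Classical in
/-- the multiplicities outside `X` -/
def mX {O : Type} [CommRing O] {L : Pl O} {β : Type} {τ ι' : β → Type} (K : Kx O β τ ι' L.C)
    (X : Finset ℕ) (J : Finset L.C) : ℕ :=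
  ∏ l ∈ Finset.univ.filter (fun l : L.C => (l : ℕ) ∉ X),
    if l ∈ J then 2 ^ K.a l + 2 ^ K.a' l else 2 ^ (K.a l + 1)

open Classical in
def RCA : Prop := AllC fun O F _ _ _ _ _ _ _ ϖ S L X β τ ι' _ _ _ K n r s V _ Y =>
  letI : Algebra (S0 O τ L n S.T r) (S1 O τ L n S.T r) := (io O _ r).toAlgebra
  (∀ η, (Y.rd ϖ).Tp η →
    (∀ 𝔮 : Ideal (S0 O τ L n S.T r), 𝔮.IsPrime → 𝔮 ≤ (Y.rd ϖ).p1 → (Y.rd ϖ).E ≤ 𝔮 →
      (Y.rd ϖ).π₀ ∈ 𝔮 → (Y.rd ϖ).IJ (P022D.Core.ty (Y.rd ϖ).τl η) ≤ 𝔮 → η ≤ 𝔮) ∧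
    (Y.rd ϖ).IJ (P022D.Core.ty (Y.rd ϖ).τl η) ≤ η ∧
    ∀ l, l ∉ P022D.Core.ty (Y.rd ϖ).τl η → (Y.rd ϖ).Dl l ∉ η) ∧
  ∀ (J : Finset L.C) (a : L.C), (a : ℕ) ∈ X → a ∉ J → (Y.rd ϖ).IJ J ≤ (Y.rd ϖ).p1 →
    ∀ η, (Y.rd ϖ).Tp η → P022D.Core.ty (Y.rd ϖ).τl η = insert a J →
    ∀ 𝔮 : Ideal (S0 O τ L n S.T r), 𝔮.IsPrime → 𝔮 ≤ η →
      (Y.rd ϖ).E ⊔ Ideal.span {((DD K n S.T r).T a).trace} ≤ 𝔮 → (Y.rd ϖ).π₀ ∉ 𝔮 →
      ∃ η', (Y.rd ϖ).Tp η' ∧ P022D.Core.ty (Y.rd ϖ).τl η' = J ∧ 𝔮 ≤ η'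

def RFIN : Prop := AllC fun O F _ _ _ _ _ _ _ ϖ S L X β τ ι' _ _ _ K n r s V _ Y =>
  letI : Algebra (S0 O τ L n S.T r) (S1 O τ L n S.T r) := (io O _ r).toAlgebra
  (∀ (η : Ideal (S0 O τ L n S.T r)) [η.IsPrime], (Y.rd ϖ).Tp η →
    (Y.rd ϖ).E ⊔ EU K n S.T r X ≤ η →
    P022D.PA.ln η (S0 O τ L n S.T r ⧸ ((Y.rd ϖ).E ⊔ EU K n S.T r X ⊔ Ideal.span {(Y.rd ϖ).π₀})) ≤
      (mX K X (P022D.Core.ty (Y.rd ϖ).τl η) : ℕ)) ∧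
  ∀ Z : Ideal (S0 O τ L n S.T r), Z.IsPrime → Z ≤ (Y.rd ϖ).p1 →
    (Y.rd ϖ).E ⊔ EU K n S.T r X ≤ Z → (Y.rd ϖ).π₀ ∉ Z →
    ∃ 𝔮 η : Ideal (S0 O τ L n S.T r), 𝔮.IsPrime ∧ (Y.rd ϖ).Tp η ∧
      (Y.rd ϖ).E ⊔ EU K n S.T r X ≤ 𝔮 ∧ 𝔮 ≤ Z ∧ 𝔮 ≤ η

/-- all the hypotheses on the rings -/
def ROK : Prop := AllC fun O F _ _ _ _ _ _ _ ϖ S L X β τ ι' _ _ _ K n r s V _ Y =>
  letI : Algebra (S0 O τ L n S.T r) (S1 O τ L n S.T r) := (io O _ r).toAlgebra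
  (Y.rd ϖ).Ok3

/-! ### the geometry of the trace ring -/

def PRESC : Prop := All fun O F _ _ _ _ _ _ _ ϖ S L X as β τ ι' _ _ _ K n G =>
  ∀ (J : Finset L.C) (p : Ideal (PS O (Sy n))), Chain.Cv p → G.IT ϖ J ≤ p → G.Irr p →
    ∃ E, Pd (G.IT ϖ J) 2 E ∧ E ≤ p

def CONNJ : Prop := All fun O F _ _ _ _ _ _ _ ϖ S L X as β τ ι' _ _ _ K n G =>
  ∀ J : Finset L.C, (∀ a : L.C, (a : ℕ) ∈ X → a ∈ J) → Cn (G.IT ϖ J) 1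

def ZED : Prop := All fun O F _ _ _ _ _ _ _ ϖ S L X as β τ ι' _ _ _ K n G =>
  ∃ Z, Pd G.aP 3 Z ∧ (∀ a : L.C, (a : ℕ) ∈ X → tauP G.rc id (G.iτ a) ⊆ Z) ∧
    ∀ f ∈ Z, constantCoeff f = 0

/-- on a curve the trace of the Frobenius element decides -/
def TYP : Prop := All fun O F _ _ _ _ _ _ _ ϖ S L X as β τ ι' _ _ _ K n G =>
  ∀ (V : Type) [CommRing V] [IsDomain V] [IsDiscreteValuationRing V] [CharP V 2]
    [IsAdicComplete (maximalIdeal V) V] (t : V) (j : O →+* V)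
    (ρ : GQ →* GL (Fin 2) V) (θ : PS O (Sy n) →+* V), Irreducible t → G.Crv t j ρ θ →
    ∀ l : L.C, θ (G.fr l) = 0 → θ (trS G.rc id (G.iτ l)) = 0 ∧
      θ (tr2 G.rc id (G.iτ l) (G.iφ l)) = 0

/-! ### the statements with modular forms -/

def SEED : Prop := All fun O F _ _ _ _ _ _ _ ϖ S L X as β τ ι' _ _ _ K n G =>
  AllF ϖ F L S.T fun I Y0 W0 _ _ _ _ iJ => ∀ J : Finset L.C, (∀ a : L.C, (a : ℕ) ∈ X → a ∈ J) →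
    ∃ E, Pd (G.IT ϖ J) 2 E ∧ G.An (Y0 (iJ J)) ≤ E

def PATCH : Prop := All fun O F _ _ _ _ _ _ _ ϖ S L X as β τ ι' _ _ _ K n G =>
  AllF ϖ F L S.T fun I Y0 W0 _ _ _ _ iJ => ∀ (J : Finset L.C) (p E E' : Ideal (PS O (Sy n))),
    Chain.Cv p → (∀ h : as ∈ L.C, G.fr ⟨as, h⟩ ∈ p) → Pd (G.IT ϖ J) 2 E → Pd (G.IT ϖ J) 2 E' →
    E ≤ p → E' ≤ p → G.An (Y0 (iJ J)) ≤ E → G.An (Y0 (iJ J)) ≤ E'

open Classical in
def LOWER : Prop := All fun O F _ _ _ _ _ _ _ ϖ S L X as β τ ι' _ _ _ K n G =>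
  AllF ϖ F L S.T fun I Y0 W0 _ _ _ _ iJ => ∀ (J : Finset L.C) (a : L.C), (a : ℕ) ∈ X → a ∉ J →
    ∀ p E E' : Ideal (PS O (Sy n)), Chain.Cv p → (∀ h : as ∈ L.C, G.fr ⟨as, h⟩ ∈ p) →
    Pd (G.IT ϖ (insert a J)) 2 E → Pd (G.IT ϖ J) 2 E' → E ≤ p → E' ≤ p →
    G.An (Y0 (iJ (insert a J))) ≤ E → G.An (Y0 (iJ J)) ≤ E'

def FINAL : Prop := All fun O F _ _ _ _ _ _ _ ϖ S L X as β τ ι' _ _ _ K n G =>
  AllF ϖ F (subL L X) (S.T \ X) fun I Y0 W0 _ _ _ _ iJ => ∀ Z C0 p : Ideal (PS O (Sy n)),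
    Z.IsPrime → G.aP ≤ Z → (∀ a : L.C, (a : ℕ) ∈ X → tauP G.rc id (G.iτ a) ⊆ Z) → C ϖ ∉ Z →
    Z ≤ C0 → Pd (G.aP ⊔ Ideal.span {C ϖ}) 2 C0 → C0 ≤ p → Chain.Cv p →
    (∀ h : as ∈ L.C, G.fr ⟨as, h⟩ ∈ p) →
    (∀ J : Finset L.C, (∀ a ∈ J, (a : ℕ) ∉ X) → G.IT ϖ J ≤ p →
      ∃ E, Pd (G.IT ϖ J) 2 E ∧ E ≤ p ∧ G.An (Y0 (iJ (resJ X J))) ≤ E) → G.An W0 ≤ Z

def OUTG : Prop := All fun O F _ _ _ _ _ _ _ ϖ S L X as β τ ι' _ _ _ K n G =>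
  ∀ (W0 : Type) [AddCommGroup W0] [Module (Tg O) W0],
    Gm ϖ (subL L X) (S.T \ X) ∅ 0 W0 → Dm O (S.T \ X) ∅ W0 →
    (∀ f ∈ G.An W0, constantCoeff f = 0) → Out2 ϖ (subL L X) W0

/-- the annihilators of such modules -/
def TRA : Prop := All fun O F _ _ _ _ _ _ _ ϖ S L X as β τ ι' _ _ _ K n G =>
  ∀ (Y Y' : Type) [AddCommGroup Y] [Module (Tg O) Y] [AddCommGroup Y'] [Module (Tg O) Y'],
    Gm ϖ L S.T ∅ 0 Y → Dm O S.T ∅ Y → Gm ϖ (subL L X) (S.T \ X) ∅ 0 Y' → Dm O (S.T \ X) ∅ Y' →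
    Tr O Y Y' → G.An Y' ≤ G.An Y

/-- **the Galois side** -/
def L2S : Prop := ∀ (O F : Type) [CommRing O] [IsDomain O] [IsDiscreteValuationRing O] [Coef O]
  [Field F] [Finite F] [CharP F 2] (ϖ : O) (S : Dat O F) (L : Pl O) (X : Finset ℕ) (as : ℕ),
  Irreducible ϖ → Cx S L X as →
  AllF ϖ F L S.T fun I Y0 W0 _ _ _ _ iJ =>
    AllF ϖ F (subL L X) (S.T \ X) fun I' Y0' W0' _ _ _ _ iJ' =>
      (∀ J : Finset L.C, (∀ a ∈ J, (a : ℕ) ∉ X) → Tr O (Y0 (iJ J)) (Y0' (iJ' (resJ X J)))) →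
      Out2 ϖ (subL L X) W0'

end Vale.Agent.P022S
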