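import Vale.Agent.P022S.Nice0

/-! # P022S, block NICE: curves with residually trivial traces are irreducible on `Ginf` -/

set_option linter.all false

noncomputable section

namespace Vale.Agent.P022S.Nice

open NumberField IsLocalRing Vale.Agent.P022 Vale.Agent.P022.C Vale.Agent.P022.H853
open Vale.Agent.P022.H790.CT Vale.Agent.P022G.Nice
open Vale.Agent.P022D.G (Inert)
open Vale.Agent.P022D.Sel (Ginf M2)
open _root_.P022G.Sel (mr rd tI)

variable {A : Type} [CommRing A] [IsDomain A] [IsDiscreteValuationRing A] [CharP A 2]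

/-- the hypotheses on the trace -/
structure Tc (t : A) (τ : GQ → A) : Prop where
  ht : Irreducible t
  sc : ∀ g, t ∣ τ g
  opn : ∀ N, ∃ U : Subgroup GQ, IsOpen (U : Set GQ) ∧ ∀ v ∈ U, ∀ g, t ^ N ∣ τ (v * g) - τ g
  unr : ∀ l : ℕ, l.Prime → l ≠ 2 → ∀ σ, Inert l σ → τ σ = 0
  a0 : ∃ φ n, φ ∉ Cyq n ∧ τ φ = 0
  a1 : ∃ φ, cyc 8 φ = 1 ∧ φ ∉ Lay 2 2 ∧ τ φ = 0
  a2 : ∃ φ, cyc 8 φ = 1 ∧ φ ∉ Lay 3 (-4) ∧ τ φ = 0
  nc : ∃ g, τ g ≠ 0

/-- a representation over the algebraic closure with trace `τ` -/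
structure Rp (τ : GQ → A) (σ : GQ →* M2 (Kb A)) : Prop where
  tr : ∀ g, σ g 0 0 + σ g 1 1 = algebraMap A _ (τ g)
  dt : ∀ g, σ g 0 0 * σ g 1 1 - σ g 0 1 * σ g 1 0 = 1

/-- the conjugate representation -/
def cj {K : Type} [CommRing K] (σ : GQ →* M2 K) (P : GL (Fin 2) K) : GQ →* M2 K where
  toFun g := ((P⁻¹ : GL (Fin 2) K) : M2 K) * σ g * P
  map_one' := by rw [map_one, mul_one, Units.inv_mul]
  map_mul' g h := by
    rw [map_mul]
    simp only [mul_assoc, Units.mul_inv_cancel_left]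

variable {t : A} {τ : GQ → A} {σ : GQ →* M2 (Kb A)}

theorem Rp.cj (R : Rp τ σ) (P : GL (Fin 2) (Kb A)) : Rp τ (cj σ P) where
  tr g := by
    rw [← R.tr, ← Matrix.trace_fin_two, ← Matrix.trace_fin_two]
    exact Matrix.trace_units_conj' P _
  dt g := by
    rw [← R.dt g, ← Matrix.det_fin_two, ← Matrix.det_fin_two]
    exact Matrix.det_units_conj' P _

theorem Rp.sw (R : Rp τ σ) : haveI := kb_char (A := A); Rp τ (sw σ) where
  tr g := (add_comm _ _).trans (R.tr g)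
  dt g := by
    show σ g 1 1 * σ g 0 0 - σ g 1 0 * σ g 0 1 = 1
    linear_combination R.dt g

theorem Rp.zero (R : Rp τ σ) {g : GQ} (h : σ g 0 0 + σ g 1 1 = 0) : τ g = 0 :=
  kb_inj ((R.tr g).symm.trans (h.trans (map_zero _).symm))

theorem Rp.one (R : Rp τ σ) {g : GQ} (h : σ g 1 0 = 0) (h0 : τ g = 0) :
    σ g 0 0 = 1 ∧ σ g 1 1 = 1 := by
  haveI := kb_char (A := A)
  have t2 : (2 : Kb A) = 0 := CharP.cast_eq_zero _ 2
  have a := R.tr g
  have d := R.dt g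
  rw [h0, map_zero] at a
  rw [h] at d
  have e : σ g 0 0 = 1 := sq_one (by linear_combination σ g 0 0 * a - d - t2)
  rw [e] at d
  exact ⟨e, by linear_combination d⟩

/-- a stable line on a subgroup of index at most two is impossible -/
theorem chr (T : Tc t τ) (R : Rp τ σ)
    (ine : ∀ l : ℕ, l.Prime → l ≠ 2 → ∀ g, Inert l g → σ g 1 0 = 0)
    (off : ∀ g, σ g 1 0 ≠ 0 → σ g 0 0 = 0 ∧ σ g 1 1 = 0)
    (op : ∃ U : Subgroup GQ, IsOpen (U : Set GQ) ∧ ∀ v ∈ U, σ v 1 0 = 0) : False := by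
  haveI := kb_char (A := A)
  haveI : CharP (integralClosure A (Kb A)) 2 :=
    (integralClosure A (Kb A)).val.toRingHom.charP Subtype.val_injective 2
  have t2 : (2 : Kb A) = 0 := CharP.cast_eq_zero _ 2
  obtain ⟨m, sep, hm⟩ := ex_m T.ht
  have hd := R.dt
  set M := Up σ hd with hM
  have mM : ∀ g, g ∈ M ↔ σ g 1 0 = 0 := fun g => Iff.rfl
  have a0 : ∀ g ∉ M, σ g 0 0 = 0 := fun g hg => (off g hg).1
  have d0 : ∀ g ∉ M, σ g 1 1 = 0 := fun g hg => (off g hg).2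
  have two : ∀ g ∉ M, ∀ h ∉ M, g * h ∈ M := fun g hg h hh => by
    rw [mM, ent, a0 h hh, d0 g hg]; ring
  have nm : ∀ {g h : GQ}, g ∉ M → h ∈ M → g * h ∉ M := fun hg hh e =>
    hg ((M.mul_mem_cancel_right hh).1 e)
  have ad : ∀ g ∈ M, σ g 0 0 * σ g 1 1 = 1 := fun g hg => by
    have := hd g
    rw [(mM g).1 hg] at this
    linear_combination this
  have ml : ∀ g h, h ∈ M → σ (g * h) 0 0 = σ g 0 0 * σ h 0 0 := fun g h hh => by
    rw [ent, (mM h).1 hh]; ring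
  have an : ∀ s ∉ M, ∀ g ∈ M, σ (s * g * s⁻¹) 0 0 * σ g 0 0 = 1 := fun s hs g hg => by
    have e1 := ent σ (s * g * s⁻¹) s 0 1
    rw [inv_mul_cancel_right, ent, a0 s hs, d0 s hs] at e1
    have e2 := hd s
    rw [a0 s hs] at e2
    have e3 := ad g hg
    linear_combination (σ s 1 0 * σ g 0 0) * e1 - (σ (s * g * s⁻¹) 0 0 * σ g 0 0 - 1) * e2 -
      (σ s 0 1 * σ s 1 0) * e3
  have ex : ∀ (k : ℕ) g, g ∈ M → t ^ k ∣ τ g →
      ∃ b : integralClosure A (Kb A), (b : Kb A) = σ g 0 0 ∧ b - 1 ∈ m ^ k := fun k g hg h =>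
    hm k (τ g) _ h (by rw [← R.tr]; linear_combination -ad g hg)
  have ex1 : ∀ g, ∃ b : integralClosure A (Kb A), g ∈ M → (b : Kb A) = σ g 0 0 ∧ b - 1 ∈ m :=
    fun g => by
      by_cases hg : g ∈ M
      · obtain ⟨b, h1, h2⟩ := ex 1 g hg (by rw [pow_one]; exact T.sc g)
        exact ⟨b, fun _ => ⟨h1, by rwa [pow_one] at h2⟩⟩
      · exact ⟨0, fun h => absurd h hg⟩
  choose y hy using ex1
  have nor : M.Normal := ⟨fun g hg s => by
    by_cases hs : s ∈ M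
    · exact M.mul_mem (M.mul_mem hs hg) (M.inv_mem hs)
    · exact two _ (nm hs hg) _ fun e => hs (by simpa using M.inv_mem e)⟩
  have one : ∀ g ∈ M, τ g = 0 → y g = 1 := fun g hg h =>
    Subtype.ext ((hy g hg).1.trans (R.one hg h).1)
  have an' : ∀ s ∉ M, ∀ g ∈ M, y (s * g * s⁻¹) * y g = 1 := fun s hs g hg => Subtype.ext (by
    rw [MulMemClass.coe_mul, (hy _ (nor.conj_mem g hg s)).1, (hy g hg).1]
    exact an s hs g hg)
  have τ1 : τ 1 = 0 := R.zero (by rw [map_one]; exact one_add_one_eq_two.trans t2)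
  have D : Dt m M y :=
    { sep := sep
      nor := nor
      sq := fun g => by
        by_cases hg : g ∈ M
        · exact M.mul_mem hg hg
        · exact two g hg g hg
      mul := fun g hg h hh => Subtype.ext (by
        rw [MulMemClass.coe_mul, (hy _ (M.mul_mem hg hh)).1, (hy g hg).1, (hy h hh).1, ml g h hh])
      one := one 1 M.one_mem τ1
      res := fun g hg => (hy g hg).2
      opn := fun k => by
        obtain ⟨U, hU, h⟩ := T.opn k
        obtain ⟨V, hV, h'⟩ := op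
        refine ⟨U ⊓ V, hU.inter hV, fun v hv => ⟨h' v hv.2, ?_⟩⟩
        have e := h v hv.1 1
        rw [mul_one, τ1, sub_zero] at e
        obtain ⟨b, h1, h2⟩ := ex k v (h' v hv.2) e
        rwa [show y v = b from Subtype.ext ((hy v (h' v hv.2)).1.trans h1.symm)]
      cj := fun s g hg => by
        by_cases hs : s ∈ M
        · left
          have e := ml s s⁻¹ (M.inv_mem hs)
          rw [mul_inv_cancel, map_one, show (1 : M2 (Kb A)) 0 0 = 1 from rfl] at e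
          apply Subtype.ext
          rw [(hy _ (nor.conj_mem g hg s)).1, (hy g hg).1, ml _ _ (M.inv_mem hs), ml _ _ hg]
          linear_combination -(σ g 0 0) * e
        · exact Or.inr (an' s hs g hg)
      unr := fun l hl h2 g hg => ⟨ine l hl h2 g hg, one g (ine l hl h2 g hg) (T.unr l hl h2 g hg)⟩ }
  have fin : (∀ g ∈ M, y g = 1) → False := fun h => by
    obtain ⟨g, hg⟩ := T.nc
    apply hg (R.zero _)
    by_cases gM : g ∈ M
    · have e : σ g 0 0 = 1 := (hy g gM).1.symm.trans (by rw [h g gM]; rfl)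
      have e2 := ad g gM
      rw [e] at e2 ⊢
      linear_combination e2 + t2
    · rw [a0 g gM, d0 g gM, add_zero]
  apply fin
  by_cases hT : ∃ s, s ∉ M
  · obtain ⟨φ₁, a1, b1, c1⟩ := T.a1
    obtain ⟨φ₂, a2, b2, c2⟩ := T.a2
    exact D.anti hT two an' a1 b1 (fun e => one _ e c1) a2 b2 fun e => one _ e c2
  · push Not at hT
    obtain ⟨φ, n, a, b⟩ := T.a0
    have e : M = ⊤ := (Subgroup.eq_top_iff' M).2 hT
    exact fun g _ => (e ▸ D).top a (one φ (hT φ) b) g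

theorem red (T : Tc t τ) (R : Rp τ σ) (h : ∀ g, σ g 1 0 = 0) : False :=
  chr T R (fun _ _ _ g _ => h g) (fun g e => absurd (h g) e) ⟨⊤, isOpen_univ, fun v _ => h v⟩

theorem low (T : Tc t τ) (R : Rp τ σ) {s : GQ} (hs : s ∈ Ginf) (e01 : σ s 0 1 = 0)
    (e10 : σ s 1 0 = 0) (h0 : τ s ≠ 0) : ∃ g ∈ Ginf, σ g 1 0 ≠ 0 := by
  haveI := kb_char (A := A)
  by_contra hn
  push Not at hn
  have hne : σ s 0 0 - σ s 1 1 ≠ 0 := fun e => h0 (R.zero (by rwa [CharTwo.sub_eq_add] at e))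
  have a0 : ∀ g, σ g 1 0 ≠ 0 → σ g 0 0 = 0 := fun g hg => by
    have k := hn _ (P022D.Sel.Kum.conj_mem g hs)
    have e : g * (g⁻¹ * s * g) = s * g := by group
    have e1 := ent σ g (g⁻¹ * s * g) 0 0
    have e2 := ent σ g (g⁻¹ * s * g) 1 0
    rw [e, ent, k] at e1 e2
    rw [e01] at e1
    rw [e10] at e2
    have e3 : σ g 0 0 * σ g 1 0 * (σ s 0 0 - σ s 1 1) = 0 := by
      linear_combination σ g 1 0 * e1 - σ g 0 0 * e2
    exact ((mul_eq_zero.1 ((mul_eq_zero.1 e3).resolve_right hne)).resolve_right hg)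
  have d0 : ∀ g, σ g 1 0 ≠ 0 → σ g 1 1 = 0 := fun g hg => by
    have hg' : σ g⁻¹ 1 0 ≠ 0 := fun e => hg (by
      have := (Up σ R.dt).inv_mem (show g⁻¹ ∈ Up σ R.dt from e)
      rwa [inv_inv] at this)
    have e1 := ent σ g⁻¹ g 0 1
    have e2 := R.dt g⁻¹
    rw [inv_mul_cancel, map_one, show (1 : M2 (Kb A)) 0 1 = 0 from rfl] at e1
    rw [a0 _ hg'] at e1 e2
    linear_combination (σ g⁻¹ 1 0) * e1 - σ g 1 1 * e2
  refine chr T R (fun l hl h2 g hg => hn g (inert_inf hl h2 hg)) (fun g h => ⟨a0 g h, d0 g h⟩) ?_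
  obtain ⟨N, hN⟩ : ∃ N, ¬ t ^ N ∣ τ s := not_forall.1 fun e => h0 (sep_max _ fun k => by
    rw [T.ht.maximalIdeal_eq, Ideal.span_singleton_pow, Ideal.mem_span_singleton]
    exact e k)
  obtain ⟨U, hU, h⟩ := T.opn N
  refine ⟨U, hU, fun v hv => by_contra fun e => hN ?_⟩
  have := h v hv s
  rwa [R.zero (g := v * s) (by rw [ent, ent, a0 v e, d0 v e, e01, e10]; ring), zero_sub,
    dvd_neg] at this

/-- a normal subgroup on which the trace vanishes acts trivially -/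
theorem uni (T : Tc t τ) (R : Rp τ σ) {N : Subgroup GQ} (hN : N.Normal) (h0 : ∀ g ∈ N, τ g = 0)
    {s : GQ} (hs : s ∈ N) : σ s = 1 := by
  by_contra hn
  obtain ⟨P, hP⟩ := tri (σ s)
  have R' := R.cj P
  have n' : cj σ P s ≠ 1 := fun e => hn (by
    have : σ s = P * cj σ P s * ((P⁻¹ : GL (Fin 2) (Kb A)) : M2 (Kb A)) := by
      show _ = (P : M2 (Kb A)) * (_ * σ s * _) * _
      simp only [mul_assoc, Units.mul_inv_cancel_left, Units.mul_inv, mul_one]
    rw [this, e, mul_one, Units.mul_inv])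
  change cj σ P s 1 0 = 0 at hP
  generalize cj σ P = σ' at R' n' hP
  obtain ⟨a, d⟩ := R'.one hP (h0 s hs)
  have b : σ' s 0 1 ≠ 0 := fun b => n' (by
    ext i j
    fin_cases i <;> fin_cases j
    exacts [a, b, hP, d])
  have k : ∀ h ∈ N, σ' h 1 0 = 0 := fun h hh => by
    have e1 := R'.tr (h * s)
    have e2 := R'.tr h
    rw [h0 _ (N.mul_mem hh hs), ent, ent, a, d, hP] at e1
    rw [h0 h hh] at e2
    exact (mul_eq_zero.1 (show σ' h 1 0 * σ' s 0 1 = 0 by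
      linear_combination e1 - e2)).resolve_right b
  refine red T R' fun g => ?_
  have hh := hN.conj_mem' s hs g
  have e1 := ent σ' g (g⁻¹ * s * g) 0 0
  rw [show g * (g⁻¹ * s * g) = s * g by group, ent, k _ hh, (R'.one (k _ hh) (h0 _ hh)).1, a] at e1
  exact (mul_eq_zero.1 (show σ' s 0 1 * σ' g 1 0 = 0 by linear_combination e1)).resolve_left b

theorem ex_s (T : Tc t τ) (R : Rp τ σ) : ∃ s ∈ Ginf, τ s ≠ 0 := by
  haveI := kb_char (A := A)
  have t2 : (2 : Kb A) = 0 := CharP.cast_eq_zero _ 2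
  by_contra hn
  push Not at hn
  obtain ⟨φ, hφ⟩ := ex_three
  have h2 : ∀ u ∈ H2, τ u = 0 := fun u hu => by
    have e := uni T R inf_nor hn (hφ u hu)
    have e1 : σ (φ * u * φ⁻¹) = σ (u * u * u) := by
      rw [← inv_mul_cancel_right (φ * u * φ⁻¹) (u ^ 3), map_mul _ _ (u ^ 3), e, one_mul, pow_three',]
    have e2 : (σ (φ * u * φ⁻¹)).trace = (σ u).trace := by
      rw [map_mul, map_mul, Matrix.trace_mul_cycle, ← map_mul, inv_mul_cancel, map_one, one_mul]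
    rw [e1, Matrix.trace_fin_two, Matrix.trace_fin_two] at e2
    simp only [ent] at e2
    refine R.zero (pow_eq_zero_iff (n := 3) (by norm_num) |>.1 ?_)
    linear_combination e2 + 3 * (σ u 0 0 + σ u 1 1) * R.dt u + 2 * (σ u 0 0 + σ u 1 1) * t2
  obtain ⟨s, hs⟩ := T.nc
  obtain ⟨P, h10, h01⟩ := dg (σ s) fun e => hs (R.zero (by rwa [Matrix.trace_fin_two] at e))
  have R' := R.cj P
  change cj σ P s 1 0 = 0 at h10
  change cj σ P s 0 1 = 0 at h01
  generalize cj σ P = σ' at R' h10 h01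
  refine red T R' fun g => ?_
  have e := uni T R' h2_nor h2 (h2_com g s)
  have e1 : σ' (g * s) = σ' (s * g) := by
    rw [show g * s = g * s * g⁻¹ * s⁻¹ * (s * g) by group, map_mul _ _ (s * g), e, one_mul]
  have e2 := ent σ' g s 1 0
  rw [e1, ent, h10] at e2
  exact (mul_eq_zero.1 (show σ' g 1 0 * (σ' s 0 0 + σ' s 1 1) = 0 by
    linear_combination e2 + σ' g 1 0 * σ' s 0 0 * t2)).resolve_right fun e => hs (R'.zero e)

theorem ex_k (T : Tc t τ) (R : Rp τ σ) {s : GQ} (hs : s ∈ Ginf) (h0 : τ s ≠ 0) :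
    ∃ k ∈ Ginf, (σ s * σ k - σ k * σ s).det ≠ 0 := by
  haveI := kb_char (A := A)
  obtain ⟨P, h10, h01⟩ := dg (σ s) fun e => h0 (R.zero (by rwa [Matrix.trace_fin_two] at e))
  have R' := R.cj P
  have e : ∀ k, (cj σ P s * cj σ P k - cj σ P k * cj σ P s).det =
      (σ s * σ k - σ k * σ s).det := fun k => by
    rw [← map_mul, ← map_mul, ← Matrix.det_units_conj' P (σ s * σ k - _), ← map_mul, ← map_mul,
      mul_sub, sub_mul]
    rfl
  change cj σ P s 1 0 = 0 at h10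
  change cj σ P s 0 1 = 0 at h01
  simp only [← e]
  generalize cj σ P = σ' at R' h10 h01
  obtain ⟨g, hg, a⟩ := low T R' hs h01 h10 h0
  obtain ⟨h, hh, b⟩ := low T R'.sw hs h10 h01 h0
  change σ' h 0 1 ≠ 0 at b
  obtain ⟨k, hk, c, d⟩ : ∃ k ∈ Ginf, σ' k 0 1 ≠ 0 ∧ σ' k 1 0 ≠ 0 := by
    by_cases u : σ' g 0 1 = 0
    · by_cases v : σ' h 1 0 = 0
      · have x := R'.dt g
        have y := R'.dt h
        rw [u, zero_mul, sub_zero] at x
        rw [v, mul_zero, sub_zero] at y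
        refine ⟨g * h, mul_mem hg hh, ?_, ?_⟩
        · rw [ent, u, zero_mul, add_zero]
          exact mul_ne_zero (left_ne_zero_of_mul_eq_one x) b
        · rw [ent, v, mul_zero, add_zero]
          exact mul_ne_zero a (left_ne_zero_of_mul_eq_one y)
      · exact ⟨h, hh, b, v⟩
    · exact ⟨g, hg, u, a⟩
  refine ⟨k, hk, ?_⟩
  rw [show (σ' s * σ' k - σ' k * σ' s).det = (σ' s 0 0 - σ' s 1 1) ^ 2 * (σ' k 0 1 * σ' k 1 0) by
    simp only [Matrix.det_fin_two, Matrix.sub_apply, Matrix.mul_apply, Fin.sum_univ_two, h10, h01]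
    ring]
  exact mul_ne_zero (pow_ne_zero _ fun e => h0 (R'.zero (by rwa [CharTwo.sub_eq_add] at e)))
    (mul_ne_zero c d)

/-- **nice curves**, residually scalar case -/
theorem niceS (ht : Irreducible t) (ρ : GQ →* GL (Fin 2) A)
    (opn : ∀ N, IsOpen {g : GQ | rd (tI t N) ρ g = 1}) (hd : ∀ g, (mr ρ g).det = 1)
    (sc : ∀ g, t ∣ (mr ρ g).trace) {a : ℕ} (ha : a.Prime) (h2 : a ≠ 2) {φ : GQ}
    (hφ : IsFrob a φ) (h8 : cyc 8 φ = 1) (l1 : φ ∉ Lay 2 2) (l2 : φ ∉ Lay 3 (-4))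
    (h0 : (mr ρ φ).trace = 0) (nc : ∃ g, (mr ρ g).trace ≠ 0) :
    (∃ s ∈ Ginf, (mr ρ s).trace ≠ 0) ∧
    (∀ s ∈ Ginf, (mr ρ s).trace ≠ 0 →
      ∃ k ∈ Ginf, (mr ρ s * mr ρ k - mr ρ k * mr ρ s).det ≠ 0) ∧
    ∃ δ : A, δ ≠ 0 ∧ ∀ Z : M2 A, δ • Z ∈ Submodule.span A (mr ρ '' (Ginf : Set GQ)) := by
  have mm : ∀ x : A, t ∣ x → x ∈ maximalIdeal A := fun x hx => by
    rwa [ht.maximalIdeal_eq, Ideal.mem_span_singleton]
  obtain ⟨n, hn⟩ := frob_cyq ha h2 hφ
  have T : Tc t fun g => (mr ρ g).trace :=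
    ⟨ht, sc, fun N => ⟨(rd (tI t N) ρ).ker, opn N, fun v hv g => by
      have e := (rd_one ρ N v).1 hv
      rw [show mr ρ (v * g) = mr ρ v * mr ρ g by simp only [mr, map_mul, Units.val_mul],
        ← Matrix.trace_sub, ← sub_one_mul, Matrix.trace_fin_two, Matrix.mul_apply,
        Matrix.mul_apply, Fin.sum_univ_two, Fin.sum_univ_two]
      exact dvd_add (dvd_add ((e _ _).mul_right _) ((e _ _).mul_right _))
        (dvd_add ((e _ _).mul_right _) ((e _ _).mul_right _))⟩,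
    fun l hl h2 g hg => cst_range sep_max (mono (fun x hx => sep_max x fun k => by
      rw [ht.maximalIdeal_eq, Ideal.span_singleton_pow, Ideal.mem_span_singleton]
      exact hx k) ρ hd opn hl h2 hg) cst_zero (by rw [sub_zero]; exact mm _ (sc g)),
    ⟨φ, n, hn, h0⟩, ⟨φ, h8, l1, h0⟩, ⟨φ, h8, l2, h0⟩, nc⟩
  let σ : GQ →* M2 (Kb A) :=
    (algebraMap A (Kb A)).mapMatrix.toMonoidHom.comp ((Units.coeHom _).comp ρ)
  have R : Rp (fun g => (mr ρ g).trace) σ :=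
    ⟨fun g => by rw [Matrix.trace_fin_two, map_add]; rfl, fun g => by
      rw [← Matrix.det_fin_two, ← map_one (algebraMap A (Kb A)), ← hd g, RingHom.map_det]; rfl⟩
  have k : ∀ s ∈ Ginf, (mr ρ s).trace ≠ 0 →
      ∃ k ∈ Ginf, (mr ρ s * mr ρ k - mr ρ k * mr ρ s).det ≠ 0 := fun s hs h => by
    obtain ⟨k, hk, e⟩ := ex_k T R hs h
    refine ⟨k, hk, fun e' => e ?_⟩
    rw [← map_zero (algebraMap A (Kb A)), ← e', RingHom.map_det, map_sub, map_mul, map_mul]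
    rfl
  obtain ⟨s, hs, h⟩ := ex_s T R
  refine ⟨⟨s, hs, h⟩, k, ?_⟩
  obtain ⟨k, hk, e⟩ := k s hs h
  refine ⟨_, e, fun Z => ?_⟩
  obtain ⟨c, hc⟩ := cram (mr ρ s) (mr ρ k) Z
  have m : ∀ x ∈ Ginf, mr ρ x ∈ Submodule.span A (mr ρ '' (Ginf : Set GQ)) := fun x hx =>
    Submodule.subset_span ⟨x, hx, rfl⟩
  have m1 := m 1 (one_mem _)
  have m2 := m _ (mul_mem hs hk)
  rw [mr, map_one, Units.val_one] at m1
  rw [mr, map_mul, Units.val_mul] at m2
  rw [hc]
  exact add_mem (add_mem (add_mem (Submodule.smul_mem _ _ m1) (Submodule.smul_mem _ _ (m s hs)))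
    (Submodule.smul_mem _ _ (m k hk))) (Submodule.smul_mem _ _ m2)

end Vale.Agent.P022S.Nice
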