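import Vale.Agent.P022S.Rows
import Vale.Agent.P022S.Wx.Hd

/-!
# P022S: the last step without principal series modules (statements)
-/

set_option linter.all false

noncomputable section

namespace Vale.Agent.P022S

open NumberField IsLocalRing MvPowerSeries Filter
open Vale.Agent.P022 Vale.Agent.P022S.R Vale.Agent.P022S.Loc
open Vale.Agent.P027M.S (Inert mx)
open Vale.Agent.P022D.Sel (M2 IsDec Ginf)
open Vale.Agent.P022D.Core (PS io y1 Coef)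
open Vale.Agent.P022E.Loc (Pl)
open Vale.Agent.P022E.GW (Ov Gn)
open Vale.Agent.P022E.As (Tg cc tt dd yy Gw Gm Out2 Lv2 Sb2 Big mT mul2)
open Vale.Agent.P022G (Hm KI subL resJ Tr)
open Vale.Agent.P022G.Word (wd)
open Vale.Agent.P022G.Chain (Pd Cn)
open Vale.Agent.P022G.Ps (Ps2)
open Vale.Agent.P022S.Mod (Dm)
open Vale.Agent.P022G

section forms
variable {O F : Type} [CommRing O] [IsLocalRing O] [Field F]

theorem hd4_of {ϖ : O} {S : P022D.R.Dat O F} {L : Pl O} {I : Type} {Y0 : I → Type} {W0 : Type}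
    [∀ i, AddCommGroup (Y0 i)] [∀ i, Module (Tg O) (Y0 i)] [AddCommGroup W0] [Module (Tg O) W0]
    {ses : I → I → I → Prop} {ig ib : I} {iJ : Finset L.C → I}
    (h : Wx.HDX True ϖ S L Y0 W0 ses ig ib iJ) : HD4 ϖ S L Y0 W0 ses ig ib iJ := by
  refine ⟨h.comb, h.low trivial, h.gm0, h.gmW, h.dm0, h.dmW, h.pi0, h.sb0, h.det0, h.big,
    fun r => ?_⟩
  obtain ⟨b, c, n₀, A, k⟩ := h.lev r
  refine ⟨b, c, n₀, A, fun n q h1 h2 => ?_⟩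
  obtain ⟨τ, φ, Yb, Wc, Pc, i1, i2, i3, i4, i5, i6, e1, e2, e3, e4⟩ := k n q h1 fun i =>
    ⟨(h2 i).prime, (h2 i).out, (h2 i).one, (h2 i).two⟩
  exact ⟨τ, φ, Yb, Wc, Pc, i1, i2, i3, i4, i5, i6, e1, e2, e3, e4 trivial⟩

theorem HD4.hdx {ϖ : O} {S : P022D.R.Dat O F} {L : Pl O} {I : Type} {Y0 : I → Type} {W0 : Type}
    [∀ i, AddCommGroup (Y0 i)] [∀ i, Module (Tg O) (Y0 i)] [AddCommGroup W0] [Module (Tg O) W0]
    {ses : I → I → I → Prop} {ig ib : I} {iJ : Finset L.C → I}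
    (h : HD4 ϖ S L Y0 W0 ses ig ib iJ) (ps : Prop) : Wx.HDX ps ϖ S L Y0 W0 ses ig ib iJ := by
  refine ⟨h.comb, fun _ => h.low, h.gm0, h.gmW, h.dm0, h.dmW, h.pi0, h.sb0, h.det0, h.big,
    fun r => ?_⟩
  obtain ⟨b, c, n₀, A, k⟩ := h.lev r
  refine ⟨b, c, n₀, A, fun n q h1 h2 => ?_⟩
  obtain ⟨τ, φ, Yb, Wc, Pc, i1, i2, i3, i4, i5, i6, e1, e2, e3, e4⟩ := k n q h1 fun i =>
    ⟨(h2 i).prime, (h2 i).out, (h2 i).one, (h2 i).two⟩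
  exact ⟨τ, φ, Yb, Wc, Pc, i1, i2, i3, i4, i5, i6, e1, e2, e3, fun _ => e4⟩

/-- the forms side for the places `L'` and the set `T'`, without principal series -/
def AllX (ϖ : O) (F : Type) [Field F] (L' : Pl O)
    (T' : Finset ℕ) (Φ : ∀ (I : Type) (Y0 : I → Type) (W0 : Type) [∀ i, AddCommGroup (Y0 i)]
      [∀ i, Module (Tg O) (Y0 i)] [AddCommGroup W0] [Module (Tg O) W0],
      (Finset L'.C → I) → Prop) : Prop :=
  ∀ (Sf : P022D.R.Dat O F) (I : Type) (Y0 : I → Type) (W0 : Type) [∀ i, AddCommGroup (Y0 i)]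
    [∀ i, Module (Tg O) (Y0 i)] [AddCommGroup W0] [Module (Tg O) W0] (ses : I → I → I → Prop)
    (ig ib : I) (iJ : Finset L'.C → I), Sf.T = T' → Wx.HDX False ϖ Sf L' Y0 W0 ses ig ib iJ →
    Φ I Y0 W0 iJ

end forms

def FINALX : Prop := All fun O F _ _ _ _ _ _ _ ϖ S L X as β τ ι' _ _ _ K n G =>
  AllX ϖ F (subL L X) (S.T \ X) fun I Y0 W0 _ _ _ _ iJ => ∀ Z C0 p : Ideal (PS O (Sy n)),
    Z.IsPrime → G.aP ≤ Z → (∀ a : L.C, (a : ℕ) ∈ X → tauP G.rc id (G.iτ a) ⊆ Z) → C ϖ ∉ Z →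
    Z ≤ C0 → Pd (G.aP ⊔ Ideal.span {C ϖ}) 2 C0 → C0 ≤ p → Chain.Cv p →
    (∀ h : as ∈ L.C, G.fr ⟨as, h⟩ ∈ p) →
    (∀ J : Finset L.C, (∀ a ∈ J, (a : ℕ) ∉ X) → G.IT ϖ J ≤ p →
      ∃ E, Pd (G.IT ϖ J) 2 E ∧ E ≤ p ∧ G.An (Y0 (iJ (resJ X J))) ≤ E) → G.An W0 ≤ Z

/-- **the Galois side** -/
def L2X : Prop := ∀ (O F : Type) [CommRing O] [IsDomain O] [IsDiscreteValuationRing O] [Coef O]
  [Field F] [Finite F] [CharP F 2] (ϖ : O) (S : Dat O F) (L : Pl O) (X : Finset ℕ) (as : ℕ),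
  Irreducible ϖ → Cx S L X as →
  AllF ϖ F L S.T fun I Y0 W0 _ _ _ _ iJ =>
    AllX ϖ F (subL L X) (S.T \ X) fun I' Y0' W0' _ _ _ _ iJ' =>
      (∀ J : Finset L.C, (∀ a ∈ J, (a : ℕ) ∉ X) → Tr O (Y0 (iJ J)) (Y0' (iJ' (resJ X J)))) →
      Out2 ϖ (subL L X) W0'

end Vale.Agent.P022S
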