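import Vale.Agent.P022S.Kd
import Vale.Agent.P022S.Mdl
import Vale.Agent.P022G.Crv.Uni

/-!
P022S: universal traces for a class of points, and the representation over a curve.
-/

set_option linter.all false

noncomputable section

namespace Vale.Agent.P022S.Uni

open IsLocalRing
open Vale.Agent.P022 Vale.Agent.P022.H346 Vale.Agent.P022G.Word
open Vale.Agent.P022S.Kd (N N_normal)

/-- classes of points -/
abbrev Cls (A : Type) [CommRing A] : Type 1 :=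
  ∀ (B : Type) [CommRing B], (A →+* B) → (GQ → B) → (GQ →* Bˣ) → Prop

variable {A F : Type} [CommRing A] [Field F] {n : ℕ}

/-- the properties of a point -/
structure Pf (F : Type) [Field F] (γ : Fin n → GQ) (p : Finset (Fin n) → A) (r : Fin n → A)
    (I : Set GQ) {B : Type} [CommRing B] (ψ : A →+* B) (t : GQ → B) (d : GQ →* Bˣ) : Prop where
  fin : Finite B
  tf : TF t d
  res : ∃ π : B →+* F, (∀ u, π u ≠ 0 → IsUnit u) ∧ Function.Surjective (π.comp ψ) ∧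
    ∀ g, π (t g) = 0 ∧ π (d g) = 1
  opn : IsOpen (N t d : Set GQ)
  unr : ∀ s ∈ I, s ∈ N t d
  hp : ∀ s, ψ (p s) = t (wd γ s)
  hr : ∀ i, ψ (r i) = d (γ i)

/-- generation of the quotients which are `2`-groups and kill `I` -/
def Gn (γ : Fin n → GQ) (I : Set GQ) : Prop := ∀ K : Subgroup GQ, K.Normal →
  IsOpen (K : Set GQ) → (∀ g, ∃ k : ℕ, g ^ 2 ^ k ∈ K) → (∀ s ∈ I, s ∈ K) →
  ∀ g, ∃ w ∈ Subgroup.closure (Set.range γ), g⁻¹ * w ∈ K

/-- the universal traces and determinants, `K` is the ideal of the class -/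
structure Un [IsLocalRing A] (𝒬 : Cls A) (K : Ideal A) (ta da : GQ → A) : Prop where
  ev : ∀ (B : Type) [CommRing B] (ψ : A →+* B) (t : GQ → B) (d : GQ →* Bˣ), 𝒬 B ψ t d →
    ∀ g, ψ (ta g) = t g ∧ ψ (da g) = d g
  opn : ∀ k : ℕ, ∃ U : Subgroup GQ, U.Normal ∧ IsOpen (U : Set GQ) ∧ ∀ u ∈ U,
    (∀ y z, ta (y * u * z) - ta (y * z) ∈ K ⊔ maximalIdeal A ^ k) ∧
      da u - 1 ∈ K ⊔ maximalIdeal A ^ k

variable {γ : Fin n → GQ} {p : Finset (Fin n) → A} {r : Fin n → A} {I : Set GQ}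

theorem N_mid {G B : Type} [Group G] [CommRing B] {t : G → B} {d : G →* Bˣ} (T : TF t d) {u : G}
    (hu : u ∈ N t d) (y z : G) : t (y * u * z) = t (y * z) := by
  rw [T.comm, ← mul_assoc, hu.1, T.comm]

section pt

variable {B : Type} [CommRing B] {ψ : A →+* B} {t : GQ → B} {d : GQ →* Bˣ}

theorem Pf.two [CharP F 2] (h : Pf F γ p r I ψ t d) : ∃ k : ℕ, ∀ g, g ^ 2 ^ k ∈ N t d := by
  have := h.fin
  obtain ⟨π, h1, -, h3⟩ := h.res
  obtain ⟨k, hk⟩ := Kd.nil π h1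
  exact ⟨k, fun g => Kd.pow_mem h.tf _ hk (by
    rw [RingHom.mem_ker, map_ofNat]; exact CharTwo.two_eq_zero) (h3 g).1 (by
    rw [RingHom.mem_ker, map_sub, map_one, (h3 g).2, sub_self])⟩

theorem Pf.nil [IsLocalRing A] (h : Pf F γ p r I ψ t d) :
    ∃ k : ℕ, ∀ f ∈ maximalIdeal A ^ k, ψ f = 0 := by
  have := h.fin
  obtain ⟨π, h1, h2, -⟩ := h.res
  obtain ⟨k, hk⟩ := Kd.nil π h1
  refine ⟨k, fun f hf => ?_⟩
  rw [← ker_eq_maximalIdeal _ h2, ← RingHom.comap_ker] at hf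
  have := Ideal.le_comap_pow ψ k hf
  rwa [hk, Ideal.mem_comap, Ideal.mem_bot] at this

theorem Pf.max [IsLocalRing A] (h : Pf F γ p r I ψ t d) {g : GQ} {x y : A} (hx : ψ x = t g)
    (hy : ψ y = d g) : x ∈ maximalIdeal A ∧ y - 1 ∈ maximalIdeal A := by
  obtain ⟨π, -, h2, h3⟩ := h.res
  rw [← ker_eq_maximalIdeal _ h2, RingHom.mem_ker, RingHom.mem_ker, map_sub, map_one,
    RingHom.comp_apply, RingHom.comp_apply, hx, hy, (h3 g).1, (h3 g).2, sub_self]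
  exact ⟨rfl, rfl⟩

end pt

theorem ex_fin [CharP F 2] (hG : Gn γ I) {σ : Type} [Finite σ] {B : σ → Type}
    [∀ e, CommRing (B e)] (ψ : ∀ e, A →+* B e) (t : ∀ e, GQ → B e) (d : ∀ e, GQ →* (B e)ˣ)
    (h : ∀ e, Pf F γ p r I (ψ e) (t e) (d e)) (g : GQ) :
    (∃ f, ∀ e, ψ e f = t e g) ∧ ∃ f, ∀ e, ψ e f = d e g := by
  let K : Subgroup GQ := ⨅ e, N (t e) (d e)
  let D : GQ →* (∀ e, B e)ˣ :=
    (MulEquiv.piUnits (M := B)).symm.toMonoidHom.comp (Pi.monoidHom d)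
  have := fun e => (h e).fin
  have T : TF (fun g e => t e g) D := ⟨funext fun e => (h e).tf.one,
    fun g k => funext fun e => (h e).tf.comm g k, fun g k => funext fun e => (h e).tf.mul g k⟩
  obtain ⟨⟨f1, a1⟩, f2, a2⟩ := Kd.gen T γ K (hG K
    (Subgroup.normal_iInf_normal fun e => N_normal (h e).tf) (by
      rw [Subgroup.coe_iInf]
      exact isOpen_iInter_of_finite fun e => (h e).opn) (fun g => by
      choose k hk using fun e => (h e).two
      obtain ⟨m, hm⟩ := (Set.finite_range k).bddAbove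
      refine ⟨m, Subgroup.mem_iInf.2 fun e => ?_⟩
      obtain ⟨c, rfl⟩ := Nat.exists_eq_add_of_le (hm ⟨e, rfl⟩)
      rw [pow_add, pow_mul]
      exact pow_mem (hk e g) _)
    fun s hs => Subgroup.mem_iInf.2 fun e => (h e).unr s hs)
    (fun u hu => ⟨fun g => funext fun e => (Subgroup.mem_iInf.1 hu e).1 g,
      Units.ext (funext fun e => congrArg Units.val (Subgroup.mem_iInf.1 hu e).2)⟩)
    (Pi.ringHom ψ).range (fun s => ⟨p s, funext fun e => (h e).hp s⟩)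
    (fun i => ⟨r i, funext fun e => (h e).hr i⟩) g
  exact ⟨⟨f1, fun e => congrFun a1 e⟩, f2, fun e => congrFun a2 e⟩

variable [IsLocalRing A] [IsNoetherianRing A] [IsAdicComplete (maximalIdeal A) A]
  [Finite (ResidueField A)] {𝒬 : Cls A} {K : Ideal A}

theorem fin_pow (k : ℕ) : Finite (A ⧸ maximalIdeal A ^ k) :=
  haveI : Finite (A ⧸ maximalIdeal A) := ‹Finite (ResidueField A)›
  Ideal.finite_quotient_pow (IsNoetherian.noetherian _) k

theorem ex_univ (hP : ∀ (B : Type) [CommRing B] ψ t d, 𝒬 B ψ t d → Pf F γ p r I ψ t d)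
    (Φ : ∀ (B : Type) [CommRing B], (GQ → B) → (GQ →* Bˣ) → B)
    (h : ∀ (σ : Type) [Finite σ] (B : σ → Type) [∀ e, CommRing (B e)] (ψ : ∀ e, A →+* B e)
      (t : ∀ e, GQ → B e) (d : ∀ e, GQ →* (B e)ˣ), (∀ e, 𝒬 (B e) (ψ e) (t e) (d e)) →
      ∃ f, ∀ e, ψ e f = Φ _ (t e) (d e)) :
    ∃ f, ∀ (B : Type) [CommRing B] ψ t d, 𝒬 B ψ t d → ψ f = Φ B t d := by
  obtain ⟨f, hf⟩ := P022G.Crv.cpt (maximalIdeal A) fin_pow
    {s | ∃ (B : Type) (_ : CommRing B) (ψ : A →+* B) (t : GQ → B) (d : GQ →* Bˣ), 𝒬 B ψ t d ∧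
      s = {f | ψ f = Φ B t d}} (by
      rintro _ ⟨B, _, ψ, t, d, hZ, rfl⟩
      obtain ⟨k, hk⟩ := (hP B ψ t d hZ).nil
      refine ⟨k, fun f hf f' e => ?_⟩
      have := hk _ e
      rw [map_sub, sub_eq_zero] at this
      exact this.symm.trans hf) (fun T hT => by
      choose B _ ψ t d hZ e using fun s : T => hT s.1 s.2
      obtain ⟨f, hf⟩ := h T B ψ t d hZ
      exact ⟨f, fun s hs => (e ⟨s, hs⟩).ge (hf ⟨s, hs⟩)⟩)
  exact ⟨f, fun B _ ψ t d hZ => hf _ ⟨B, _, ψ, t, d, hZ, rfl⟩⟩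

theorem chev (hP : ∀ (B : Type) [CommRing B] ψ t d, 𝒬 B ψ t d → Pf F γ p r I ψ t d)
    (hK : ∀ f, (∀ (B : Type) [CommRing B] ψ t d, 𝒬 B ψ t d → ψ f = 0) → f ∈ K) (k : ℕ) :
    ∃ (σ : Type) (_ : Finite σ) (B : σ → Type) (_ : ∀ e, CommRing (B e)) (ψ : ∀ e, A →+* B e)
      (t : ∀ e, GQ → B e) (d : ∀ e, GQ →* (B e)ˣ), (∀ e, 𝒬 (B e) (ψ e) (t e) (d e)) ∧
      ∀ f, (∀ e, ψ e f = 0) → f ∈ K ⊔ maximalIdeal A ^ k := by
  classical
  by_contra hn
  push Not at hn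
  obtain ⟨f, hf⟩ := P022G.Crv.cpt (maximalIdeal A) fin_pow
    {s | (∃ (B : Type) (_ : CommRing B) (ψ : A →+* B) (t : GQ → B) (d : GQ →* Bˣ), 𝒬 B ψ t d ∧
      s = {f | ψ f = 0}) ∨ s = {f | f ∉ K ⊔ maximalIdeal A ^ k}} (by
      rintro _ (⟨B, _, ψ, t, d, hZ, rfl⟩ | rfl)
      · obtain ⟨k, hk⟩ := (hP B ψ t d hZ).nil
        refine ⟨k, fun f hf f' e => ?_⟩
        have := hk _ e
        rw [map_sub, sub_eq_zero] at this
        exact this.symm.trans hf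
      · refine ⟨k, fun f hf f' e h' => hf ?_⟩
        have := add_mem (Ideal.mem_sup_right (S := K) e) h'
        rwa [sub_add_cancel] at this) (fun T hT => by
      choose B _ ψ t d hZ e using fun s : {s : T // s.1 ≠ {f | f ∉ K ⊔ maximalIdeal A ^ k}} =>
        (hT s.1.1 s.1.2).resolve_right s.2
      obtain ⟨f, h1, h2⟩ := hn _ inferInstance B _ ψ t d hZ
      refine ⟨f, fun s hs => ?_⟩
      by_cases h3 : s = {f | f ∉ K ⊔ maximalIdeal A ^ k}
      · rw [h3]; exact h2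
      · exact (e ⟨⟨s, hs⟩, h3⟩).ge (h1 ⟨⟨s, hs⟩, h3⟩))
  exact hf _ (Or.inr rfl) (Ideal.mem_sup_left (hK f fun B _ ψ t d hZ =>
    hf _ (Or.inl ⟨B, _, ψ, t, d, hZ, rfl⟩)))

/-- **the universal traces** -/
theorem uni [CharP F 2] (hG : Gn γ I)
    (hP : ∀ (B : Type) [CommRing B] ψ t d, 𝒬 B ψ t d → Pf F γ p r I ψ t d)
    (hK : ∀ f, (∀ (B : Type) [CommRing B] ψ t d, 𝒬 B ψ t d → ψ f = 0) → f ∈ K) :
    ∃ ta da, Un 𝒬 K ta da := by
  choose ta ha using fun g => ex_univ hP (fun B _ t d => t g) fun σ _ B _ ψ t d h =>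
    (ex_fin hG ψ t d (fun e => hP _ _ _ _ (h e)) g).1
  choose da hd using fun g => ex_univ hP (fun B _ t d => (d g : B)) fun σ _ B _ ψ t d h =>
    (ex_fin hG ψ t d (fun e => hP _ _ _ _ (h e)) g).2
  refine ⟨ta, da, fun B _ ψ t d h g => ⟨ha g B ψ t d h, hd g B ψ t d h⟩, fun k => ?_⟩
  obtain ⟨σ, _, B, _, ψ, t, d, hZ, h⟩ := chev hP hK k
  refine ⟨⨅ e, N (t e) (d e), Subgroup.normal_iInf_normal fun e => N_normal (hP _ _ _ _ (hZ e)).tf,
    ?_, fun u hu => ⟨fun y z => h _ fun e => ?_, h _ fun e => ?_⟩⟩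
  · rw [Subgroup.coe_iInf]
    exact isOpen_iInter_of_finite fun e => (hP _ _ _ _ (hZ e)).opn
  · rw [map_sub, ha _ _ _ _ _ (hZ e), ha _ _ _ _ _ (hZ e),
      N_mid (hP _ _ _ _ (hZ e)).tf (Subgroup.mem_iInf.1 hu e), sub_self]
  · rw [map_sub, hd _ _ _ _ _ (hZ e), (Subgroup.mem_iInf.1 hu e).2, map_one, Units.val_one,
      sub_self]

variable {ta da : GQ → A}

/-- the universal trace function over any ring which kills `K` -/
theorem Un.tf (hU : Un 𝒬 K ta da)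
    (hP : ∀ (B : Type) [CommRing B] ψ t d, 𝒬 B ψ t d → Pf F γ p r I ψ t d)
    (hK : ∀ f, (∀ (B : Type) [CommRing B] ψ t d, 𝒬 B ψ t d → ψ f = 0) → f ∈ K)
    {V : Type} [CommRing V] (θ : A →+* V) (hθ : K ≤ RingHom.ker θ) :
    ∃ D : GQ →* Vˣ, (∀ g, (D g : V) = θ (da g)) ∧ TF (fun g => θ (ta g)) D ∧
      (∀ s, θ (p s) = θ (ta (wd γ s))) ∧ (∀ i, θ (r i) = θ (da (γ i))) ∧
      ∀ s ∈ I, s ∈ N (fun g => θ (ta g)) D := by
  have key : ∀ f f' : A, (∀ (B : Type) [CommRing B] ψ t d, 𝒬 B ψ t d → ψ f = ψ f') →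
      θ f = θ f' := fun f f' h => by
    rw [← sub_eq_zero, ← map_sub]
    exact hθ (hK _ fun B _ ψ t d k => by rw [map_sub, h B ψ t d k, sub_self])
  have et : ∀ {B : Type} [CommRing B] {ψ t d}, 𝒬 B ψ t d → ∀ g, ψ (ta g) = t g :=
    fun k g => (hU.ev _ _ _ _ k g).1
  have ed : ∀ {B : Type} [CommRing B] {ψ t d}, 𝒬 B ψ t d → ∀ g, ψ (da g) = d g :=
    fun k g => (hU.ev _ _ _ _ k g).2
  let D1 : GQ →* V :=
    { toFun := fun g => θ (da g)
      map_one' := (key _ 1 fun B _ ψ t d k => by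
        rw [ed k, map_one, map_one, Units.val_one]).trans (map_one θ)
      map_mul' := fun g h => by
        rw [← map_mul]
        exact key _ _ fun B _ ψ t d k => by
          rw [map_mul, ed k, ed k, ed k, map_mul, Units.val_mul] }
  refine ⟨D1.toHomUnits, fun _ => rfl, ⟨?_, fun g h => key _ _ fun B _ ψ t d k => by
    rw [et k, et k, (hP _ _ _ _ k).tf.comm], fun g h => ?_⟩,
    fun s => key _ _ fun B _ ψ t d k => by rw [et k, (hP _ _ _ _ k).hp],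
    fun i => key _ _ fun B _ ψ t d k => by rw [ed k, (hP _ _ _ _ k).hr],
    fun s hs => ⟨fun g => key _ _ fun B _ ψ t d k => by
      rw [et k, et k, ((hP _ _ _ _ k).unr s hs).1], Units.ext ((key _ 1 fun B _ ψ t d k => by
      rw [ed k, ((hP _ _ _ _ k).unr s hs).2, map_one, Units.val_one]).trans (map_one θ))⟩⟩
  · rw [← map_ofNat θ 2]
    exact key _ _ fun B _ ψ t d k => by rw [et k, (hP _ _ _ _ k).tf.one, map_ofNat]
  · show _ = _ + θ (da h) * _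
    rw [← map_mul, ← map_mul, ← map_add]
    exact key _ _ fun B _ ψ t d k => by
      rw [map_add, map_mul, map_mul, et k, et k, et k, et k, ed k, (hP _ _ _ _ k).tf.mul]

theorem Un.max (hU : Un 𝒬 K ta da)
    (hP : ∀ (B : Type) [CommRing B] ψ t d, 𝒬 B ψ t d → Pf F γ p r I ψ t d)
    (hK : ∀ f, (∀ (B : Type) [CommRing B] ψ t d, 𝒬 B ψ t d → ψ f = 0) → f ∈ K) (h1 : K ≠ ⊤)
    (g : GQ) : ta g ∈ maximalIdeal A ∧ da g - 1 ∈ maximalIdeal A := by
  by_contra hn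
  exact h1 ((Ideal.eq_top_iff_one _).2 (hK 1 fun B _ ψ t d k =>
    absurd ((hP _ _ _ _ k).max (hU.ev _ _ _ _ k g).1 (hU.ev _ _ _ _ k g).2) hn))

/-- **the representation over a curve** -/
theorem Un.crv (hU : Un 𝒬 K ta da)
    (hP : ∀ (B : Type) [CommRing B] ψ t d, 𝒬 B ψ t d → Pf F γ p r I ψ t d)
    (hK : ∀ f, (∀ (B : Type) [CommRing B] ψ t d, 𝒬 B ψ t d → ψ f = 0) → f ∈ K)
    (q : Ideal A) (hq : q.IsPrime) (hKq : K ≤ q) (h2 : (2 : A) ∈ q)
    (hd : ringKrullDim (A ⧸ q) = 1) (E : Set GQ) (hE : ∀ g ∈ E, da g - 1 ∈ q)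
    (hD : ∀ (Γ : Type) [CommGroup Γ] (η : GQ →* Γ), IsOpen {g | η g = 1} →
      (∀ g, ∃ k : ℕ, η g ^ 2 ^ k = 1) → (∀ g ∈ E, η g = 1) → (∀ s ∈ I, η s = 1) → ∀ g, η g = 1) :
    ∃ (V : Type) (_ : CommRing V) (_ : IsDomain V) (_ : IsDiscreteValuationRing V) (_ : CharP V 2)
      (_ : IsAdicComplete (maximalIdeal V) V) (_ : Finite (ResidueField V)) (s : V)
      (θ : A →+* V) (ρ : GQ →* Mdl.M2 V), Irreducible s ∧ RingHom.ker θ = q ∧
      (∀ f ∈ maximalIdeal A, θ f ∈ maximalIdeal V) ∧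
      (∀ g, (ρ g).trace = θ (ta g) ∧ (ρ g).det = 1 ∧ θ (da g) = 1) ∧
      (∀ w, θ (p w) = (ρ (wd γ w)).trace) ∧ (∀ i, θ (r i) = 1) ∧
      (∀ g i j, s ∣ ρ g i j - (1 : Mdl.M2 V) i j) ∧ (∀ g ∈ I, ρ g = 1) ∧
      ∀ k : ℕ, IsOpen {g | (ρ g).map (Ideal.Quotient.mk (Ideal.span {s ^ k})) = 1} := by
  obtain ⟨V0, _, _, _, _, θ0, k0, l0, _, _⟩ := P022G.Curve.curveP q hq h2 hd
  have hK0 : K ≤ RingHom.ker θ0 := k0 ▸ hKq
  obtain ⟨D, d1, T, e1, e2, e3⟩ := hU.tf hP hK θ0 hK0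
  have mx := hU.max hP hK fun e => hq.ne_top (top_le_iff.1 (e ▸ hKq))
  have pw : ∀ {W : Type} [CommRing W] [IsLocalRing W] (θ : A →+* W), K ≤ RingHom.ker θ →
      (∀ f ∈ maximalIdeal A, θ f ∈ maximalIdeal W) → ∀ k, ∀ f ∈ K ⊔ maximalIdeal A ^ k,
      θ f ∈ maximalIdeal W ^ k := fun θ h1 h2 k =>
    (sup_le (fun f hf => by rw [Ideal.mem_comap, h1 hf]; exact zero_mem _)
      ((Ideal.pow_right_mono h2 k).trans (Ideal.le_comap_pow θ k)) :
      _ ≤ (maximalIdeal _ ^ k).comap θ)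
  have hdet : ∀ g, θ0 (da g) = 1 := fun g => by
    rw [← sub_eq_zero]
    refine IsHausdorff.haus (I := maximalIdeal V0) inferInstance _ fun k => ?_
    rw [SModEq.zero, smul_eq_mul, Ideal.mul_top, ← Ideal.Quotient.eq, map_one]
    let η : GQ →* (V0 ⧸ maximalIdeal V0 ^ k)ˣ :=
      (Units.map (Ideal.Quotient.mk (maximalIdeal V0 ^ k)).toMonoidHom).comp D
    have hη : ∀ g, η g = 1 ↔ θ0 (da g) - 1 ∈ maximalIdeal V0 ^ k := fun g => by
      rw [Units.ext_iff, ← Ideal.Quotient.eq, map_one, ← d1]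
      exact Iff.rfl
    rw [← map_one (Ideal.Quotient.mk (maximalIdeal V0 ^ k)), Ideal.Quotient.eq, ← hη]
    obtain ⟨U, -, hUo, h⟩ := hU.opn k
    refine hD _ η (Subgroup.isOpen_mono (H₁ := U) (H₂ := η.ker) (fun u hu => (hη u).2 ?_) hUo)
      (fun g => ⟨k, ?_⟩) (fun g hg => (hη g).2 ?_) (fun s hs => ?_) g
    · have := pw θ0 hK0 (fun f hf => (l0 f).2 hf) k _ (h u hu).2
      rwa [map_sub, map_one] at this
    · have : Fact (Nat.Prime 2) := ⟨Nat.prime_two⟩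
      rw [← map_pow, hη, ← d1, map_pow, Units.val_pow_eq_pow_val, d1, ← one_pow (2 ^ k),
        ← sub_pow_char_pow]
      refine Ideal.pow_le_pow_right (Nat.lt_two_pow_self).le (Ideal.pow_mem_pow ?_ _)
      have := (l0 _).2 (mx g).2
      rwa [map_sub, map_one] at this
    · have := hE g hg
      rw [← k0, RingHom.mem_ker, map_sub, map_one] at this
      rw [this]
      exact zero_mem _
    · rw [MonoidHom.comp_apply, (e3 s hs).2, map_one]
  obtain ⟨V, _, _, _, _, _, _, f, s, ρ, c, inj, lf, hs, r1, r2, c0, r3⟩ :=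
    Mdl.model T (fun g => (d1 g).trans (hdet g)) fun g => (l0 _).2 (mx g).1
  have hloc : ∀ x ∈ maximalIdeal A, (f.comp θ0) x ∈ maximalIdeal V := fun x hx =>
    lf _ ((l0 x).2 hx)
  have hker : RingHom.ker (f.comp θ0) = q := by
    rw [← RingHom.comap_ker, (RingHom.injective_iff_ker_eq_bot f).1 inj]
    exact k0
  refine ⟨V, inferInstance, inferInstance, inferInstance, inferInstance, inferInstance,
    inferInstance, s, f.comp θ0, ρ, hs, hker, hloc, fun g => ⟨(r1 g).1, (r1 g).2, by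
      rw [RingHom.comp_apply, hdet, map_one]⟩, fun w => by
      rw [(r1 _).1, RingHom.comp_apply, e1], fun i => by
      rw [RingHom.comp_apply, e2, hdet, map_one], r2, fun g hg => ?_, fun k => ?_⟩
  · rw [← map_one ρ]
    ext i j
    refine sub_eq_zero.1 (zero_dvd_iff.1 (r3 0 g 1 (fun z => ?_) i j))
    have := N_mid T (e3 g hg) 1 z
    rw [one_mul] at this
    rw [this, sub_self]
    exact dvd_zero _
  · obtain ⟨m, u, hu⟩ := IsDiscreteValuationRing.eq_unit_mul_pow_irreducible c0 hs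
    obtain ⟨U, -, hUo, h⟩ := hU.opn (m + k)
    let σ : GQ →* Mdl.M2 (V ⧸ Ideal.span {s ^ k}) :=
      (Ideal.Quotient.mk (Ideal.span {s ^ k})).mapMatrix.toMonoidHom.comp ρ
    have e : {g | (ρ g).map (Ideal.Quotient.mk (Ideal.span {s ^ k})) = 1} =
        (σ.toHomUnits.ker : Set GQ) :=
      Set.ext fun g => ⟨fun e => Units.ext e, fun e => congrArg Units.val e⟩
    rw [e]
    refine Subgroup.isOpen_mono (H₁ := U) (fun g hg => Units.ext ?_) hUo
    show σ g = 1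
    rw [← map_one σ]
    ext i j
    refine Ideal.Quotient.eq.2 (Ideal.mem_span_singleton.2 (r3 _ g 1 (fun z => ?_) i j))
    have := pw (f.comp θ0) (hker ▸ hKq) hloc _ _ ((h g hg).1 1 z)
    rw [hs.maximalIdeal_eq, Ideal.span_singleton_pow, Ideal.mem_span_singleton, one_mul,
      map_sub] at this
    rw [hu, mul_assoc, ← pow_add, Units.mul_left_dvd]
    exact this

end Vale.Agent.P022S.Uni
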