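import Vale.Agent.P022S.Utr
import Vale.Agent.P022S.Rep
import Vale.Agent.P022G.Up2
import Vale.Agent.P022D.CA.Cpl

/-!
# P022S: primes of the ring of traces lift to the framed ring
-/

set_option linter.all false

noncomputable section

namespace Vale.Agent.P022S.Up

open IsLocalRing MvPowerSeries Vale.Agent.P022.H346 Vale.Agent.P022G.Word _root_.P022G.Th
open _root_.P022G.Sum Vale.Agent.P022S.Ut

/-- a power series extension of a power series extension -/
theorem ext_add {P S κ : Type} [CommRing P] [CommRing S] {ψ : P →+* S} {z : κ → S} (h : Ext ψ z)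
    (ω : Type) : Ext ((C : S →+* MvPowerSeries ω S).comp ψ)
      (Sum.elim (fun k => C (z k)) X : κ ⊕ ω → MvPowerSeries ω S) := by
  obtain ⟨e, e1, e2⟩ := h
  let m : MvPowerSeries ω (MvPowerSeries κ P) ≃+* MvPowerSeries ω S :=
    RingEquiv.ofRingHom (MvPowerSeries.map e.toRingHom) (MvPowerSeries.map e.symm.toRingHom)
      (by rw [← MvPowerSeries.map_comp]; simp) (by rw [← MvPowerSeries.map_comp]; simp)
  have mC : ∀ f, m (C f) = C (e f) := fun f => map_C e.toRingHom f
  refine ⟨(sumEquiv κ ω P).trans m, fun r => ?_, fun i => ?_⟩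
  · rw [RingEquiv.trans_apply, sumEquiv_C, mC, e1]
    rfl
  · rcases i with i | i
    · rw [RingEquiv.trans_apply, sumEquiv_X_inl, mC, e2]
      rfl
    · rw [RingEquiv.trans_apply, sumEquiv_X_inr]
      exact map_X e.toRingHom i

variable {P : Type} [CommRing P] {n : ℕ} {p : Finset (Fin n) → P} {r : Fin n → Pˣ}

theorem tf_of {K : Type} [CommRing K] (μ : P →+* K) (h : aT p r ≤ RingHom.ker μ) :
    TF (fun w => μ (tw p r w)) ((Units.map μ.toMonoidHom).comp (dw r)) ∧
      ∀ s, μ (tw p r (wd FreeGroup.of s)) = μ (p s) := by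
  obtain ⟨T, h1⟩ := tf_a (p := p) (r := r)
  refine ⟨⟨?_, fun g k => ?_, fun g k => ?_⟩, fun s => ?_⟩
  · have := congrArg (Ideal.Quotient.lift _ μ h) T.one
    rwa [map_ofNat] at this
  · exact congrArg (Ideal.Quotient.lift _ μ h) (T.comm g k)
  · have := congrArg (Ideal.Quotient.lift _ μ h) (T.mul g k)
    rw [map_mul, map_add, map_mul] at this
    exact this
  · exact sub_eq_zero.1 ((map_sub μ _ _).symm.trans (h (h1 s)))

/-- **reconstruction**: `4 n + 5` equations determine everything -/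
theorem recon {K : Type} [CommRing K] (μ : P →+* K) (h : aT p r ≤ RingHom.ker μ)
    (ρ : FreeGroup (Fin n) →* M2 K) (a b : FreeGroup (Fin n)) (A B : M2 K)
    (x1 : A.trace = μ (tw p r a)) (x2 : A.det = μ (dw r a)) (y1 : B.trace = μ (tw p r b))
    (y2 : B.det = μ (dw r b)) (xy : (A * B).trace = μ (tw p r (a * b)))
    (z : ∀ i, (ρ (.of i)).trace = μ (tw p r (.of i)) ∧
      (ρ (.of i) * A).trace = μ (tw p r (.of i * a)) ∧
      (ρ (.of i) * B).trace = μ (tw p r (.of i * b)) ∧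
      (ρ (.of i) * (A * B)).trace = μ (tw p r (.of i * (a * b)))) (hu : IsUnit (del A B)) :
    ρ a = A ∧ ρ b = B ∧ (∀ w, (ρ w).trace = μ (tw p r w)) ∧ (∀ w, (ρ w).det = μ (dw r w)) ∧
      (∀ s, (ρ (wd FreeGroup.of s)).trace = μ (p s)) ∧ ∀ i, (ρ (.of i)).det = μ (r i) := by
  obtain ⟨T, h1⟩ := tf_of μ h
  obtain ⟨σ, s1, s2, s3, s4, s5⟩ := Rep.rep T a b A B x1 x2 y1 y2 xy (by
    rw [del_eq, x1, x2, y1, y2, xy] at hu
    exact hu)
  have e : σ = ρ := FreeGroup.ext_hom _ _ fun i => by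
    have := (s5 (.of i)).trans (by
      rw [← (z i).1, ← (z i).2.1, ← (z i).2.2.1, ← (z i).2.2.2, ← theta])
    exact (hu.smul_left_cancel).1 this
  subst e
  exact ⟨s3, s4, s1, s2, fun s => (s1 _).trans (h1 s), fun i => (s2 _).trans (by
    change μ (dw r (.of i)) = _
    rw [dw_of])⟩

/-- the shifted matrices -/
def sh {S : Type} [CommRing S] (A : M2 S) (k : Fin 2) :
    M2 (MvPowerSeries (Fin 2 × Fin 2 × Fin 2) S) := A.map C + Matrix.of fun i j => X (k, i, j)

theorem sh_cc {S : Type} [CommRing S] (A : M2 S) (k : Fin 2) :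
    (sh A k).map constantCoeff = A := by
  ext i j
  simp [sh]

theorem tr_map {A B : Type} [CommRing A] [CommRing B] (m : A →+* B) (W : M2 A) :
    m W.trace = (W.map m).trace := by
  simp [Matrix.trace_fin_two]

theorem det_map {A B : Type} [CommRing A] [CommRing B] (m : A →+* B) (W : M2 A) :
    m W.det = (W.map m).det := RingHom.map_det m W

/-- **UP** -/
theorem up [IsNoetherianRing P] [IsLocalRing P] {S κ μ : Type} [CommRing S] [Fintype κ]
    [Fintype μ] [IsRegularLocalRing (MvPowerSeries (Fin 2 × Fin 2 × Fin 2) S)] {ψ : P →+* S}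
    {z : κ → S} (h : Ext ψ z) (ρ : FreeGroup (Fin n) →* M2 S) (a b : FreeGroup (Fin n))
    {𝔭 𝔱 : Ideal S} (hp : 𝔭.IsPrime) (g : μ → S) (hg : ∀ j, g j ∈ 𝔭)
    (h1 : ∀ s, ψ (p s) - (ρ (wd FreeGroup.of s)).trace ∈ 𝔭)
    (h2 : ∀ i, ψ (r i) - (ρ (.of i)).det ∈ 𝔭) (hδ : del (ρ a) (ρ b) ∉ 𝔭)
    (ht : ∀ 𝔮 : Ideal S, 𝔮.IsPrime → (∀ j, g j ∈ 𝔮) →
      (∀ s, ψ (p s) - (ρ (wd FreeGroup.of s)).trace ∈ 𝔮) →
      (∀ i, ψ (r i) - (ρ (.of i)).det ∈ 𝔮) → 𝔱 ≤ 𝔮)
    {k : ℕ} (hk : k + Fintype.card μ + 4 * n ≤ Fintype.card κ + 3) {𝔞 : Ideal P}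
    (ha : aT p r ≤ 𝔞) (η : Ideal P) (hη : η.IsPrime) (g1 : 𝔞 ≤ η) (g2 : η ≤ 𝔭.comap ψ) :
    ∃ η' : Ideal S, η'.IsPrime ∧ η' ≤ 𝔭 ∧ η.map ψ ⊔ 𝔱 ≤ η' ∧
      ((k : ℕ) : WithBot ℕ∞) + ringKrullDim (P ⧸ η) ≤ ringKrullDim (S ⧸ η') := by
  let R := MvPowerSeries (Fin 2 × Fin 2 × Fin 2) S
  let A : M2 R := sh (ρ a) 0
  let B : M2 R := sh (ρ b) 1
  let Z : Fin n → M2 R := fun i => (ρ (.of i)).map C
  let c : P →+* R := (C : S →+* R).comp ψ
  have sp := spec (_root_.P022G.Kd.tf_rep ((Ideal.Quotient.mk 𝔭).mapMatrix.toMonoidHom.comp ρ))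
    FreeGroup.of ((Ideal.Quotient.mk 𝔭).comp ψ) (p := p) (r := r)
    (fun s => (Ideal.Quotient.eq.2 (h1 s)).trans (tr_map _ _))
    fun i => (Ideal.Quotient.eq.2 (h2 i)).trans (det_map _ _)
  have e : ∀ w : FreeGroup (Fin n), FreeGroup.lift FreeGroup.of w = w := fun w =>
    DFunLike.congr_fun (FreeGroup.lift_of_eq_id _) w
  simp only [e] at sp
  have t1 : ∀ w, (ρ w).trace - ψ (tw p r w) ∈ 𝔭 := fun w =>
    Ideal.Quotient.eq.1 ((tr_map _ _).trans (sp.2.1 w).symm)
  have t2 : ∀ w, (ρ w).det - ψ (dw r w) ∈ 𝔭 := fun w =>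
    Ideal.Quotient.eq.1 ((det_map _ _).trans (sp.2.2 w).symm)
  have cc : ∀ u, constantCoeff (c u) = ψ u := fun u => constantCoeff_C _
  have zc : ∀ i, (Z i).map (constantCoeff : R →+* S) = ρ (.of i) := fun i => by
    ext a b
    exact constantCoeff_C (σ := Fin 2 × Fin 2 × Fin 2) (ρ (.of i) a b)
  have hs : Function.Surjective (constantCoeff : R →+* S) := fun s => ⟨C s, constantCoeff_C s⟩
  let f : μ ⊕ Fin 5 ⊕ Fin n × Fin 4 → R := Sum.elim (fun j => (C (g j) : R)) (Sum.elim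
      ![A.trace - c (tw p r a), A.det - c (dw r a), B.trace - c (tw p r b), B.det - c (dw r b),
        (A * B).trace - c (tw p r (a * b))]
      fun x : Fin n × Fin 4 => ![(Z x.1).trace - c (tw p r (.of x.1)),
        (Z x.1 * A).trace - c (tw p r (.of x.1 * a)), (Z x.1 * B).trace - c (tw p r (.of x.1 * b)),
        (Z x.1 * (A * B)).trace - c (tw p r (.of x.1 * (a * b)))] x.2)
  refine _root_.P022G.Up.up_surj (R := R) (C := c) (ext_add h (Fin 2 × Fin 2 × Fin 2)) ψ
    (constantCoeff : R →+* S) hs cc hp f ?_ ?_ ?_ η hη g1 g2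
  · rintro (j | j | ⟨i, j⟩)
    · change constantCoeff (C (g j) : R) ∈ _
      rw [constantCoeff_C]
      exact hg j
    · fin_cases j
      · change constantCoeff (A.trace - _) ∈ _
        rw [map_sub, cc, tr_map, sh_cc]; exact t1 _
      · change constantCoeff (A.det - _) ∈ _
        rw [map_sub, cc, det_map, sh_cc]; exact t2 _
      · change constantCoeff (B.trace - _) ∈ _
        rw [map_sub, cc, tr_map, sh_cc]; exact t1 _
      · change constantCoeff (B.det - _) ∈ _
        rw [map_sub, cc, det_map, sh_cc]; exact t2 _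
      · change constantCoeff ((A * B).trace - _) ∈ _
        rw [map_sub, cc, tr_map, Matrix.map_mul, sh_cc, sh_cc, ← map_mul]; exact t1 _
    · fin_cases j
      · change constantCoeff ((Z i).trace - _) ∈ _
        rw [map_sub, cc, tr_map, zc]; exact t1 _
      · change constantCoeff ((Z i * A).trace - _) ∈ _
        rw [map_sub, cc, tr_map, Matrix.map_mul, zc, sh_cc, ← map_mul]; exact t1 _
      · change constantCoeff ((Z i * B).trace - _) ∈ _
        rw [map_sub, cc, tr_map, Matrix.map_mul, zc, sh_cc, ← map_mul]; exact t1 _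
      · change constantCoeff ((Z i * (A * B)).trace - _) ∈ _
        rw [map_sub, cc, tr_map, Matrix.map_mul, Matrix.map_mul, zc, sh_cc, sh_cc, ← map_mul,
          ← map_mul]
        exact t1 _
  · simp only [Fintype.card_sum, Fintype.card_prod, Fintype.card_fin]
    omega
  · intro 𝔮 hq q1 q2 q3
    haveI := Ideal.Quotient.isDomain 𝔮
    let m : R →+* FractionRing (R ⧸ 𝔮) := (algebraMap _ _).comp (Ideal.Quotient.mk 𝔮)
    have z0 : ∀ u, m u = 0 ↔ u ∈ 𝔮 := fun u =>
      (map_eq_zero_iff _ (IsFractionRing.injective (R ⧸ 𝔮) _)).trans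
        Ideal.Quotient.eq_zero_iff_mem
    have z1 : ∀ {u v}, u - v ∈ 𝔮 → m u = m v := fun {u v} h => by
      rw [← sub_eq_zero, ← map_sub]; exact (z0 _).2 h
    obtain ⟨r1, r2, -, -, r5, r6⟩ := recon (p := p) (r := r) (m.comp c)
      (fun u hu => (z0 _).2 (q2 (Ideal.mem_map_of_mem _ (ha hu))))
      ((m.comp C).mapMatrix.toMonoidHom.comp ρ) a b (A.map m) (B.map m)
      ((tr_map _ _).symm.trans (z1 (q3 (.inr (.inl 0)))))
      ((det_map _ _).symm.trans (z1 (q3 (.inr (.inl 1)))))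
      ((tr_map _ _).symm.trans (z1 (q3 (.inr (.inl 2)))))
      ((det_map _ _).symm.trans (z1 (q3 (.inr (.inl 3)))))
      (by rw [← Matrix.map_mul]; exact (tr_map _ _).symm.trans (z1 (q3 (.inr (.inl 4)))))
      (fun i => by
        change ((Z i).map m).trace = _ ∧ ((Z i).map m * _).trace = _ ∧
          ((Z i).map m * _).trace = _ ∧ ((Z i).map m * _).trace = _
        simp only [← Matrix.map_mul]
        exact ⟨(tr_map _ _).symm.trans (z1 (q3 (.inr (.inr (i, 0))))),
          (tr_map _ _).symm.trans (z1 (q3 (.inr (.inr (i, 1))))),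
          (tr_map _ _).symm.trans (z1 (q3 (.inr (.inr (i, 2))))),
          (tr_map _ _).symm.trans (z1 (q3 (.inr (.inr (i, 3)))))⟩)
      (by
        rw [← map_del, isUnit_iff_ne_zero]
        refine fun h => hδ ?_
        have := q1 ((z0 _).1 h)
        rwa [Ideal.mem_comap, map_del, sh_cc, sh_cc] at this)
    have hX : ∀ s, (X s : R) ∈ 𝔮 := by
      rintro ⟨k, i, j⟩
      fin_cases k
      · have := congrFun (congrFun r1 i) j
        change m (C (ρ a i j)) = m (C (ρ a i j) + X (0, i, j)) at this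
        rw [map_add, left_eq_add] at this
        exact (z0 _).1 this
      · have := congrFun (congrFun r2 i) j
        change m (C (ρ b i j)) = m (C (ρ b i j) + X (1, i, j)) at this
        rw [map_add, left_eq_add] at this
        exact (z0 _).1 this
    have h𝔱 : 𝔱 ≤ 𝔮.comap (C : S →+* R) := ht _ (Ideal.comap_isPrime _ _) (fun j => q3 (.inl j))
      (fun s => (z0 _).1 (by
        rw [map_sub, map_sub, sub_eq_zero]
        exact (r5 s).symm.trans (tr_map (m.comp C) _).symm))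
      fun i => (z0 _).1 (by
        rw [map_sub, map_sub, sub_eq_zero]
        exact (r6 i).symm.trans (det_map (m.comp C) _).symm)
    intro f hf
    obtain ⟨u, hu, -⟩ := P022D.CA.Cpl.exists_decompV (f - C (constantCoeff f)) (by simp)
    rw [← add_sub_cancel (C (constantCoeff f)) f, hu]
    exact add_mem (h𝔱 hf) (sum_mem fun s _ => Ideal.mul_mem_right _ _ (hX s))

end Vale.Agent.P022S.Up
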