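import Vale.Agent.P022S.Nice
import Vale.Agent.P022S.Sel.Defs
import Vale.Agent.P022G.Rw.Typ

/-! # P022S: the tame relation on a curve; nice curves -/

set_option linter.all false

noncomputable section

namespace Vale.Agent.P022S.Nice

open NumberField IsLocalRing Vale.Agent.P022 Vale.Agent.P022.H853
open Vale.Agent.P022D.Sel (Ginf M2)
open Vale.Agent.P022E.Loc (Tm)
open Vale.Agent.P022G.Typ (tr0 tr1)
open _root_.P022G.Sel (mr rd tI Lv)

variable {V : Type} [CommRing V] [IsDomain V] [IsDiscreteValuationRing V] [CharP V 2] {t : V}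

/-- the tame relation -/
theorem relS (ht : Irreducible t) (ρ : GQ →* GL (Fin 2) V)
    (opn : ∀ N, IsOpen {g : GQ | rd (tI t N) ρ g = 1}) (hd : ∀ g, (mr ρ g).det = 1)
    (sc : ∀ g, t ∣ (mr ρ g).trace) {l : ℕ} {P : Ideal (𝓞 Qb)} {τ φ : GQ} (T : Tm l P τ φ) :
    mr ρ φ * mr ρ τ = mr ρ τ ^ l * mr ρ φ := by
  have mx0 : maximalIdeal V = Ideal.span {t} := ht.maximalIdeal_eq
  haveI : CharP (ResidueField V) 2 := CharP.of_ringHom_of_ne_zero (residue V) 2 two_ne_zero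
  have loc : ∀ a, residue V a ≠ 0 → IsUnit a := fun a => (residue_ne_zero_iff_isUnit a).1
  ext a b
  rw [← sub_eq_zero, ← Ideal.mem_bot, ← Ideal.iInf_pow_eq_bot_of_isDomain (maximalIdeal V)
    (maximalIdeal.isMaximal V).ne_top, Ideal.mem_iInf]
  intro N
  refine Ideal.pow_le_pow_right N.le_succ ?_
  rw [mx0, Ideal.span_singleton_pow, ← Ideal.Quotient.eq]
  let π : V ⧸ tI t (N + 1) →+* ResidueField V := Ideal.Quotient.lift _ (residue V) fun x hx => by
    rw [residue_eq_zero_iff, mx0, Ideal.mem_span_singleton]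
    exact (dvd_pow_self t N.succ_ne_zero).trans (Ideal.mem_span_singleton.1 hx)
  let f : GQ →* M2 (V ⧸ tI t (N + 1)) := (Units.coeHom _).comp (rd (tI t (N + 1)) ρ)
  have ef : ∀ g, f g = (Ideal.Quotient.mk (tI t (N + 1))).mapMatrix (ρ g : M2 V) := fun _ => rfl
  obtain ⟨N', hN⟩ := T.tame _ f (by
    have e : {g : GQ | f g = 1} = {g : GQ | rd (tI t (N + 1)) ρ g = 1} :=
      Set.ext fun g => Units.val_eq_one
    rw [e]
    exact opn _)
  have := P022D.Loc.BCA.rel π (fun x hx => by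
    obtain ⟨y, rfl⟩ := Ideal.Quotient.mk_surjective x
    exact (loc y hx).map _) hN fun g hg => by
      have e : (f g).map π = (residue V).mapMatrix (ρ g : M2 V) := rfl
      rw [e]
      exact P022D.Loc.BCA.sq_one
        ((AddMonoidHom.map_trace (residue V) _).symm.trans (by
          rw [residue_eq_zero_iff, mx0, Ideal.mem_span_singleton]
          exact sc g))
        (by rw [← RingHom.map_det, hd, map_one])
  rw [ef, ef, ← map_mul, ← map_pow, ← map_mul] at this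
  exact congrFun (congrFun this a) b

/-- **TYP**: on a curve the trace of the Frobenius element decides -/
theorem typS (ht : Irreducible t) (ρ : GQ →* GL (Fin 2) V)
    (opn : ∀ N, IsOpen {g : GQ | rd (tI t N) ρ g = 1}) (hd : ∀ g, (mr ρ g).det = 1)
    (sc : ∀ g, t ∣ (mr ρ g).trace) {l : ℕ} (hl : l.Prime) (h2 : l ≠ 2) {P : Ideal (𝓞 Qb)}
    {τ φ : GQ} (T : Tm l P τ φ) : (mr ρ τ).trace = 0 ∧
      ((mr ρ φ).trace = 0 → (mr ρ τ * mr ρ φ).trace = 0 ∧ (mr ρ (τ * φ)).trace = 0) := by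
  have t2 : (2 : V) = 0 := CharTwo.two_eq_zero
  haveI : CharP (ResidueField V) 2 := CharP.of_ringHom_of_ne_zero (residue V) 2 two_ne_zero
  have rel := relS ht ρ opn hd sc T
  have t0 := tr0 t2 (residue V) (fun a => (residue_ne_zero_iff_isUnit a).1) hl.two_le (hd _) (hd _)
    (by
      rw [residue_eq_zero_iff, ht.maximalIdeal_eq, Ideal.mem_span_singleton]
      exact sc τ) rel
  refine ⟨t0, fun h => ?_⟩
  have t1 := tr1 t2 (hl.odd_of_ne_two h2) (hd _) t0 h rel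
  exact ⟨t1, by rwa [mr, map_mul, Units.val_mul]⟩

/-- **NICE** with the special prime in the form of `Cx` -/
theorem nice0 (ht : Irreducible t) (ρ : GQ →* GL (Fin 2) V) {T : Finset ℕ} {D : ℕ → Set GQ}
    (lv : ∀ N, Lv (rd (tI t N) ρ) T D) (hd : ∀ g, (mr ρ g).det = 1)
    (sc : ∀ g, t ∣ (mr ρ g).trace) {a : ℕ} (ha : a.Prime) (h8 : a % 8 = 1) {φ : GQ}
    (hφ : IsFrob a φ) (mv1 : ∃ z : Qb, z ^ 4 = 2 ∧ φ z ≠ z) (mv2 : ∃ z : Qb, z ^ 8 = -4 ∧ φ z ≠ z)
    (h0 : (mr ρ φ).trace = 0) (nc : ∃ g, (mr ρ g).trace ≠ 0) :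
    _root_.P022S.Sel.Nice0 t ρ T D ∧ (∃ s ∈ Ginf, (mr ρ s).trace ≠ 0) ∧
      ∃ s ∈ Ginf, ∃ k ∈ Ginf, (mr ρ s * mr ρ k - mr ρ k * mr ρ s).det ≠ 0 := by
  have h2 : a ≠ 2 := by omega
  obtain ⟨⟨s, hs, e⟩, b, c⟩ := niceS ht ρ (fun N => (lv N).opn) hd sc ha h2 hφ
    (Units.ext (by
      rw [cyc_frob (m := 8) ha (fun hd => h2 ((Nat.prime_dvd_prime_iff_eq ha Nat.prime_two).1
        (ha.dvd_of_dvd_pow (show a ∣ 2 ^ 3 from hd)))) hφ, Units.val_one, ← ZMod.natCast_mod, h8,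
        Nat.cast_one]))
    (fun e => by
      obtain ⟨z, hz, hne⟩ := mv1
      exact hne (e z (by exact_mod_cast hz)))
    (fun e => by
      obtain ⟨z, hz, hne⟩ := mv2
      exact hne (e z (by exact_mod_cast hz))) h0 nc
  exact ⟨⟨lv, hd, c, fun g hu => ht.not_isUnit (isUnit_of_dvd_unit (sc g) hu)⟩, ⟨s, hs, e⟩, s, hs,
    b s hs e⟩

end Vale.Agent.P022S.Nice
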