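import Vale.Agent.P022S.Nice0

/-! # P022S: matrices with pairwise common lines have a common line -/

set_option linter.all false

noncomputable section

namespace Vale.Agent.P022S.Three

open Vale.Agent.P022D.Sel (M2)

variable {α : Type}

section ring
variable {K : Type} [CommRing K]

theorem up (A : α → M2 K) (h : ∀ a, A a 1 0 = 0) (l : List α) : (l.map A).prod 1 0 = 0 := by
  induction l with
  | nil => simp
  | cons a l ih =>
    rw [List.map_cons, List.prod_cons, Matrix.mul_apply, Fin.sum_univ_two, h, ih, zero_mul,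
      mul_zero, add_zero]

theorem lo (A : α → M2 K) (h : ∀ a, A a 0 1 = 0) (l : List α) : (l.map A).prod 0 1 = 0 := by
  induction l with
  | nil => simp
  | cons a l ih =>
    rw [List.map_cons, List.prod_cons, Matrix.mul_apply, Fin.sum_univ_two, h, ih, zero_mul,
      mul_zero, add_zero]

theorem dl_eq (X Y : M2 K) : (X * Y - Y * X).det =
    -(X 0 1 * Y 1 0 - Y 0 1 * X 1 0) ^ 2 -
      (X 0 1 * (Y 1 1 - Y 0 0) - Y 0 1 * (X 1 1 - X 0 0)) *
        (Y 1 0 * (X 1 1 - X 0 0) - X 1 0 * (Y 1 1 - Y 0 0)) := by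
  simp only [Matrix.det_fin_two, Matrix.sub_apply, Matrix.mul_apply, Fin.sum_univ_two]
  ring

/-- conjugation -/
def cj (P : GL (Fin 2) K) : M2 K →+* M2 K where
  toFun X := ((P⁻¹ : GL (Fin 2) K) : M2 K) * X * P
  map_one' := by rw [mul_one, Units.inv_mul]
  map_mul' X Y := by
    simp only [mul_assoc, Units.mul_inv_cancel_left]
  map_zero' := by rw [mul_zero, zero_mul]
  map_add' X Y := by rw [mul_add, add_mul]

theorem cj_det (P : GL (Fin 2) K) (X : M2 K) : (cj P X).det = X.det := by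
  show (((P⁻¹ : GL (Fin 2) K) : M2 K) * X * P).det = _
  rw [Matrix.det_mul, Matrix.det_mul, mul_right_comm, ← Matrix.det_mul, Units.inv_mul,
    Matrix.det_one, one_mul]

theorem cj_tr (P : GL (Fin 2) K) (X : M2 K) : (cj P X).trace = X.trace := by
  show (((P⁻¹ : GL (Fin 2) K) : M2 K) * X * P).trace = _
  rw [Matrix.trace_mul_comm, Units.mul_inv_cancel_left]

theorem cj_dl (P : GL (Fin 2) K) (X Y : M2 K) :
    (cj P X * cj P Y - cj P Y * cj P X).det = (X * Y - Y * X).det := by
  rw [← map_mul, ← map_mul, ← map_sub, cj_det]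

theorem cj_back (P : GL (Fin 2) K) (X : M2 K) :
    X = (P : M2 K) * cj P X * ((P⁻¹ : GL (Fin 2) K) : M2 K) := by
  show X = (P : M2 K) * (((P⁻¹ : GL (Fin 2) K) : M2 K) * X * P) * _
  simp only [mul_assoc, Units.mul_inv_cancel_left, Units.mul_inv, mul_one]

theorem fin (A : α → M2 K) (P : GL (Fin 2) K)
    (h : (∀ a, cj P (A a) 1 0 = 0) ∨ ∀ a, cj P (A a) 0 1 = 0) (l l' : List α) :
    ((l.map A).prod * (l'.map A).prod - (l'.map A).prod * (l.map A).prod).det = 0 := by
  have e : ∀ l : List α, cj P (l.map A).prod = (l.map fun a => cj P (A a)).prod := fun l => by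
    rw [map_list_prod, List.map_map]
    rfl
  rw [← cj_dl P, e, e, dl_eq]
  rcases h with h | h
  · rw [up _ h, up _ h]
    ring
  · rw [lo _ h, lo _ h]
    ring

end ring

theorem core {K : Type} [Field K] [IsAlgClosed K] [CharP K 2] (A : α → M2 K)
    (hd : ∀ a, (A a).det ≠ 0) (h1 : ∀ a b, (A a * A b - A b * A a).det = 0)
    (h2 : ∀ a b c, (A a * (A b * A c) - A b * A c * A a).det = 0) :
    ∃ P : GL (Fin 2) K, (∀ a, cj P (A a) 1 0 = 0) ∨ ∀ a, cj P (A a) 0 1 = 0 := by
  by_cases ht : ∃ a, (A a).trace ≠ 0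
  · obtain ⟨a0, ht⟩ := ht
    obtain ⟨P, p1, p2⟩ := Nice.dg (A a0) ht
    change cj P (A a0) 1 0 = 0 at p1
    change cj P (A a0) 0 1 = 0 at p2
    rw [← cj_tr P, Matrix.trace_fin_two] at ht
    have hs : cj P (A a0) 1 1 - cj P (A a0) 0 0 ≠ 0 := by
      rwa [CharTwo.sub_eq_add, add_comm]
    have k : ∀ Y, (A a0 * Y - Y * A a0).det = 0 → cj P Y 0 1 * cj P Y 1 0 = 0 := fun Y h => by
      rw [← cj_dl P, dl_eq, p1, p2] at h
      exact (mul_eq_zero.1 (show (cj P (A a0) 1 1 - cj P (A a0) 0 0) ^ 2 *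
        (cj P Y 0 1 * cj P Y 1 0) = 0 by linear_combination h)).resolve_left (pow_ne_zero 2 hs)
    refine ⟨P, ?_⟩
    by_contra hn
    push Not at hn
    obtain ⟨⟨b, hb⟩, a, ha⟩ := hn
    have b1 := (mul_eq_zero.1 (k _ (h1 a0 b))).resolve_right hb
    have a1 := (mul_eq_zero.1 (k _ (h1 a0 a))).resolve_left ha
    have c1 := k _ (h2 a0 a b)
    have da := hd a
    have db := hd b
    rw [← cj_det P, Matrix.det_fin_two] at da db
    rw [a1, mul_zero, sub_zero] at da
    rw [b1, zero_mul, sub_zero] at db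
    simp only [map_mul, Matrix.mul_apply, Fin.sum_univ_two, a1, b1, mul_zero, zero_mul,
      zero_add] at c1
    exact mul_ne_zero (mul_ne_zero ha (right_ne_zero_of_mul db))
      (mul_ne_zero (right_ne_zero_of_mul da) hb) c1
  push Not at ht
  by_cases hs : ∀ a, A a 1 0 = 0
  · exact ⟨1, Or.inl fun a => by
      show (((1 : GL (Fin 2) K)⁻¹ : GL (Fin 2) K) * A a * (1 : GL (Fin 2) K) : M2 K) 1 0 = 0
      simpa using hs a⟩
  push Not at hs
  obtain ⟨a0, h0⟩ := hs
  obtain ⟨P, p1⟩ := Nice.tri (A a0)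
  change cj P (A a0) 1 0 = 0 at p1
  have t0 := ht a0
  rw [← cj_tr P, Matrix.trace_fin_two] at t0
  have e : cj P (A a0) 1 1 = cj P (A a0) 0 0 := by
    rw [← sub_eq_zero, CharTwo.sub_eq_add, add_comm, t0]
  have p2 : cj P (A a0) 0 1 ≠ 0 := fun p2 => h0 (by
    have s : cj P (A a0) = cj P (A a0) 0 0 • (1 : M2 K) := by
      ext i j
      fin_cases i <;> fin_cases j <;> simp [p1, p2, e]
    rw [cj_back P (A a0), s, mul_smul_comm, mul_one, smul_mul_assoc, Units.mul_inv]
    simp)
  refine ⟨P, Or.inl fun a => ?_⟩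
  have h := h1 a0 a
  rw [← cj_dl P, dl_eq, p1, e] at h
  exact (mul_eq_zero.1 (pow_eq_zero_iff two_ne_zero |>.1
    (show (cj P (A a0) 0 1 * cj P (A a) 1 0) ^ 2 = 0 by linear_combination -h))).resolve_left p2

/-- **three lines** -/
theorem three {B : Type} [CommRing B] [IsDomain B] [CharP B 2] (A : α → M2 B)
    (hd : ∀ a, (A a).det ≠ 0) (h1 : ∀ a b, (A a * A b - A b * A a).det = 0)
    (h2 : ∀ a b c, (A a * (A b * A c) - A b * A c * A a).det = 0) (l l' : List α) :
    ((l.map A).prod * (l'.map A).prod - (l'.map A).prod * (l.map A).prod).det = 0 := by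
  let f : B →+* AlgebraicClosure (FractionRing B) :=
    (algebraMap (FractionRing B) _).comp (algebraMap B (FractionRing B))
  have hf : Function.Injective f :=
    (algebraMap (FractionRing B) _).injective.comp (IsFractionRing.injective B _)
  haveI : CharP (AlgebraicClosure (FractionRing B)) 2 := charP_of_injective_ringHom hf 2
  let m : M2 B →+* M2 (AlgebraicClosure (FractionRing B)) := f.mapMatrix
  have dt : ∀ X : M2 B, (m X).det = f X.det := fun X => (RingHom.map_det f X).symm
  obtain ⟨P, hP⟩ := core (fun a => m (A a))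
    (fun a h => hd a (hf (by rw [← dt, h, map_zero])))
    (fun a b => by rw [← map_mul, ← map_mul, ← map_sub, dt, h1, map_zero])
    fun a b c => by rw [← map_mul, ← map_mul, ← map_mul, ← map_sub, dt, h2, map_zero]
  have e : ∀ l : List α, m (l.map A).prod = (l.map fun a => m (A a)).prod := fun l => by
    rw [map_list_prod, List.map_map]
    rfl
  refine hf ?_
  rw [← dt, map_sub, map_mul, map_mul, e, e, map_zero]
  exact fin _ P hP l l'

end Vale.Agent.P022S.Three
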