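import Vale.Agent.P022.H346.FAlg

/-! A residually scalar trace function in residue characteristic two factors through a `2`-group. -/

set_option linter.all false

namespace Vale.Agent.P022S.Two

open Vale.Agent.P022.H346

variable {G B : Type*} [Group G] [CommRing B] {t : G → B} {d : G →* Bˣ}

theorem rec2 (T : TF t d) (h g : G) : t (h * g * g) = t g * t (h * g) - d g * t h := by
  have e := T.mul (h * g) g
  rw [mul_inv_cancel_right] at e
  linear_combination -e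

theorem coef (T : TF t d) (m : Ideal B) (h2 : (2 : B) ∈ m) {g : G} (ht : t g ∈ m)
    (hd : (d g : B) - 1 ∈ m) (k : ℕ) : ∃ a b : B, a ∈ m ^ (k + 1) ∧ b - 1 ∈ m ^ (k + 1) ∧
      ∀ h, t (h * g ^ 2 ^ (k + 1)) = a * t (h * g) + b * t h := by
  induction k with
  | zero =>
    refine ⟨t g, -d g, by simpa using ht, ?_, fun h => ?_⟩
    · have : -(d g : B) - 1 = -((d g : B) - 1) - 2 := by ring
      rw [this, zero_add, pow_one]
      exact m.sub_mem (m.neg_mem hd) h2
    · rw [zero_add, pow_one, sq, ← mul_assoc, rec2 T]; ring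
  | succ k ih =>
    obtain ⟨a, b, ha, hb, e⟩ := ih
    have le : m ^ (k + 1) ≤ m := Ideal.pow_le_self (by omega)
    have p : ∀ x ∈ m ^ (k + 1), ∀ y ∈ m, x * y ∈ m ^ (k + 1 + 1) := fun x hx y hy => by
      rw [pow_succ m (k + 1)]; exact Ideal.mul_mem_mul hx hy
    refine ⟨a * (a * t g + 2 * b), b * b - a * a * d g, p _ ha _ (m.add_mem
      (m.mul_mem_right _ (le ha)) (m.mul_mem_right _ h2)), ?_, fun h => ?_⟩
    · have : b * b - a * a * d g - 1 = (b - 1) * (b - 1 + 2) - a * (a * d g) := by ring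
      rw [this]
      exact Ideal.sub_mem _ (p _ hb _ (m.add_mem (le hb) h2)) (p _ ha _ (m.mul_mem_right _ (le ha)))
    · have c : g ^ 2 ^ (k + 1) * g = g * g ^ 2 ^ (k + 1) := (Commute.self_pow g _).symm
      rw [pow_succ 2 (k + 1), pow_mul, sq, ← mul_assoc, e, mul_assoc h, c, ← mul_assoc, e, e,
        rec2 T]
      ring

theorem det (m : Ideal B) (h2 : (2 : B) ∈ m) {g : G} (hd : (d g : B) - 1 ∈ m) (k : ℕ) :
    (d (g ^ 2 ^ k) : B) - 1 ∈ m ^ (k + 1) := by
  induction k with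
  | zero => simpa using hd
  | succ k ih =>
    have le : m ^ (k + 1) ≤ m := Ideal.pow_le_self (by omega)
    have : (d (g ^ 2 ^ (k + 1)) : B) - 1 =
        ((d (g ^ 2 ^ k) : B) - 1) * ((d (g ^ 2 ^ k) : B) - 1 + 2) := by
      rw [pow_succ 2 k, pow_mul, sq, map_mul, Units.val_mul]; ring
    rw [this, pow_succ m (k + 1)]
    exact Ideal.mul_mem_mul ih (m.add_mem (le ih) h2)

/-- the traces are `m`-adically periodic along `2`-powers -/
theorem tr (T : TF t d) (m : Ideal B) (h2 : (2 : B) ∈ m) {g : G} (ht : t g ∈ m)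
    (hd : (d g : B) - 1 ∈ m) (k : ℕ) (h : G) : t (h * g ^ 2 ^ (k + 1)) - t h ∈ m ^ (k + 1) := by
  obtain ⟨a, b, ha, hb, e⟩ := coef T m h2 ht hd k
  have : t (h * g ^ 2 ^ (k + 1)) - t h = a * t (h * g) + (b - 1) * t h := by rw [e]; ring
  rw [this]
  exact Ideal.add_mem _ (Ideal.mul_mem_right _ _ ha) (Ideal.mul_mem_right _ _ hb)

/-- the kernel of a trace function -/
def Ker (t : G → B) (d : G →* Bˣ) : Subgroup G where
  carrier := {x | (∀ h, t (h * x) = t h) ∧ d x = 1}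
  one_mem' := ⟨fun h => by rw [mul_one], map_one d⟩
  mul_mem' := fun {x y} hx hy => ⟨fun h => by rw [← mul_assoc, hy.1, hx.1], by
    rw [map_mul, hx.2, hy.2, one_mul]⟩
  inv_mem' := fun {x} hx => ⟨fun h => by rw [← hx.1 (h * x⁻¹), inv_mul_cancel_right], by
    rw [map_inv, hx.2, inv_one]⟩

theorem mem_ker {x : G} : x ∈ Ker t d ↔ (∀ h, t (h * x) = t h) ∧ d x = 1 := Iff.rfl

theorem normal (T : TF t d) : (Ker t d).Normal := ⟨fun x hx g => ⟨fun h => by
  have e : h * (g * x * g⁻¹) = h * g * x * g⁻¹ := by group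
  rw [e, T.comm, ← mul_assoc, hx.1, T.comm, mul_inv_cancel_right], by
  rw [map_mul, map_mul, hx.2, mul_one, ← map_mul, mul_inv_cancel, map_one]⟩⟩

theorem pow_mem (T : TF t d) (m : Ideal B) (h2 : (2 : B) ∈ m) {g : G} (ht : t g ∈ m)
    (hd : (d g : B) - 1 ∈ m) {k : ℕ} (hk : m ^ (k + 1) = ⊥) : g ^ 2 ^ (k + 1) ∈ Ker t d := by
  refine ⟨fun h => ?_, Units.ext ?_⟩
  · have := tr T m h2 ht hd k h
    rwa [hk, Ideal.mem_bot, sub_eq_zero] at this
  · have := Ideal.pow_le_pow_right (Nat.le_succ (k + 1)) (det m h2 hd (k + 1))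
    rwa [hk, Ideal.mem_bot, sub_eq_zero] at this

/-- every quotient of `G` by a normal subgroup `N` with `Ker ≤ N` is a `2`-group -/
theorem pgroup (T : TF t d) (m : Ideal B) (h2 : (2 : B) ∈ m) (ht : ∀ g, t g ∈ m)
    (hd : ∀ g, (d g : B) - 1 ∈ m) (hm : IsNilpotent m) (N : Subgroup G) [N.Normal]
    (hN : Ker t d ≤ N) : IsPGroup 2 (G ⧸ N) := by
  obtain ⟨k, hk⟩ := hm
  intro x
  obtain ⟨g, rfl⟩ := QuotientGroup.mk_surjective x
  refine ⟨k + 1, ?_⟩
  rw [← QuotientGroup.mk_pow, QuotientGroup.eq_one_iff]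
  refine hN (pow_mem T m h2 (ht g) (hd g) ?_)
  rw [pow_succ, hk]; simp

end Vale.Agent.P022S.Two
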